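import Vale.Agent.P262.H941.OneDir2

/-!
# The flux of a field through one direction, seen at scale `s`
-/

set_option linter.unusedSectionVars false

namespace Vale.Agent.P262.H941

open MeasureTheory ProbabilityTheory Set Filter Topology
open scoped RealInnerProductSpace
open Vale.Agent.P262.H847 Vale.Agent.P262.H912

variable {E : Type*} [NormedAddCommGroup E] [InnerProductSpace ℝ E] [FiniteDimensional ℝ E]
  [MeasurableSpace E] [BorelSpace E]

/-- `F` is an upper bound of the flux `‖∂_v e‖_{L¹(γ)}` of the field `e` in the direction `v`: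
the lower limit of `t⁻¹ ‖e(· + t v) - e‖_{L¹(γ)}` as `t → 0+` is at most `F`. -/
def FluxLe (e : E → ℝ) (v : E) (F : ℝ) : Prop :=
  ∀ ε : ℝ, 0 < ε → ∃ᶠ t : ℝ in 𝓝[>] 0,
    ∫ x, |e (x + t • v) - e x| ∂(stdGaussian E) ≤ (F + ε) * t

lemma FluxLe.nonneg {e : E → ℝ} {v : E} {F : ℝ} (h : FluxLe e v F) : 0 ≤ F := by
  apply le_of_forall_pos_le_add
  intro ε hε
  obtain ⟨t, ht, ht0⟩ := ((h ε hε).and_eventually self_mem_nhdsWithin).exists
  have ht0' : 0 < t := ht0
  have h1 : 0 ≤ ∫ x, |e (x + t • v) - e x| ∂(stdGaussian E) :=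
    integral_nonneg fun x => abs_nonneg _
  have h2 : 0 ≤ (F + ε) * t := h1.trans ht
  exact nonneg_of_mul_nonneg_left h2 ht0'

/-- the law of (location, fibre coordinate) -/
noncomputable abbrev gg (E : Type*) [NormedAddCommGroup E] [InnerProductSpace ℝ E]
    [FiniteDimensional ℝ E] [MeasurableSpace E] [BorelSpace E] : Measure (E × E) :=
  (stdGaussian E).prod (stdGaussian E)

lemma exp_dom {x c : ℝ} :
    (1 + x) * Real.exp (c * x) ≤ 3 * Real.exp (2 * c ^ 2) * Real.exp (1 / 2 * x ^ 2 / 2) := by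
  have h1 : 1 + x ≤ 3 * Real.exp (x ^ 2 / 8) := by
    have := Real.add_one_le_exp (x ^ 2 / 8)
    nlinarith [sq_nonneg (x - 4)]
  have h2 : Real.exp (c * x) ≤ Real.exp (2 * c ^ 2) * Real.exp (x ^ 2 / 8) := by
    rw [← Real.exp_add]
    apply Real.exp_le_exp.mpr
    nlinarith [sq_nonneg (x - 4 * c)]
  calc (1 + x) * Real.exp (c * x)
      ≤ (3 * Real.exp (x ^ 2 / 8)) * (Real.exp (2 * c ^ 2) * Real.exp (x ^ 2 / 8)) :=
        mul_le_mul h1 h2 (Real.exp_pos _).le (by positivity)
    _ = 3 * Real.exp (2 * c ^ 2) * (Real.exp (x ^ 2 / 8) * Real.exp (x ^ 2 / 8)) := by ring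
    _ = _ := by
        rw [← Real.exp_add]
        congr 2
        ring

lemma integrable_lin_exp {a b c : ℝ} (ha : 0 ≤ a) (hb : 0 ≤ b) :
    Integrable (fun g : E => (a + b * ‖g‖) * Real.exp (c * ‖g‖)) (stdGaussian E) := by
  refine ((integrable_exp_sq (E := E) (θ := 1 / 2) (by norm_num)).const_mul
    ((a + b) * (3 * Real.exp (2 * c ^ 2)))).mono' (by fun_prop) (Eventually.of_forall fun g => ?_)
  have hg := norm_nonneg g
  rw [Real.norm_eq_abs, abs_of_nonneg (by positivity)]
  calc (a + b * ‖g‖) * Real.exp (c * ‖g‖) ≤ (a + b) * (1 + ‖g‖) * Real.exp (c * ‖g‖) := by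
        apply mul_le_mul_of_nonneg_right _ (Real.exp_pos _).le
        nlinarith [mul_nonneg ha hg]
    _ = (a + b) * ((1 + ‖g‖) * Real.exp (c * ‖g‖)) := by ring
    _ ≤ (a + b) * (3 * Real.exp (2 * c ^ 2) * Real.exp (1 / 2 * ‖g‖ ^ 2 / 2)) :=
        mul_le_mul_of_nonneg_left exp_dom (by positivity)
    _ = _ := by ring

lemma integrable_gg_snd {F : E → ℝ} (hF : Integrable F (stdGaussian E)) :
    Integrable (fun p : E × E => F p.2) (gg E) :=
  hF.comp_snd _

lemma integral_shift' {F : E → ℝ} (hF : Measurable F) (w : E) :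
    ∫ g, F (g + w) ∂(stdGaussian E)
      = ∫ g, F g * Real.exp (⟪w, g⟫ - ‖w‖ ^ 2 / 2) ∂(stdGaussian E) := by
  have h1 : ∫ g, F (g + w) ∂(stdGaussian E)
      = ∫ g, F g ∂((stdGaussian E).map (fun x => x + w)) := by
    rw [integral_map (by fun_prop) hF.aestronglyMeasurable]
  rw [h1, map_add_stdGaussian, integral_withDensity_eq_integral_toReal_smul (by fun_prop)
    (Eventually.of_forall fun x => ENNReal.ofReal_lt_top)]
  congr 1
  funext x
  rw [ENNReal.toReal_ofReal (Real.exp_pos _).le, smul_eq_mul, mul_comm]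

/-- **Integration by parts against a flux bound**, with test functions that depend on the location
in an arbitrary (measurable) way. -/
theorem flux_pair {e : E → ℝ} (he : UI e) {v : E} {F : ℝ} (hF : FluxLe e v F) {c s : ℝ}
    (hcs : c ^ 2 + s ^ 2 = 1) (hs : 0 < s) {Ψ Ψ' : E → E → ℝ}
    (hΨm : Measurable (Function.uncurry Ψ)) (hΨ'm : Measurable (Function.uncurry Ψ'))
    {B B' : ℝ} (hB : ∀ y g, |Ψ y g| ≤ B) (hB' : ∀ y g, |Ψ' y g| ≤ B')
    (hd : ∀ y g, ∀ τ : ℝ, HasDerivAt (fun τ : ℝ => Ψ y (g + τ • v)) (Ψ' y (g + τ • v)) τ) :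
    |∫ p : E × E, e (c • p.1 + s • p.2) * (⟪v, p.2⟫ * Ψ p.1 p.2 - Ψ' p.1 p.2) ∂(gg E)|
      ≤ s * B * F := by
  have hB0 : 0 ≤ B := (abs_nonneg _).trans (hB 0 0)
  have hB'0 : 0 ≤ B' := (abs_nonneg _).trans (hB' 0 0)
  set Ex : ℝ → E → ℝ := fun t g => Real.exp (t * ⟪v, g⟫ - t ^ 2 * ‖v‖ ^ 2 / 2) with hEx
  set FF : ℝ → E × E → ℝ := fun t p =>
    e (c • p.1 + s • p.2) * (Ψ p.1 (p.2 - t • v) * Ex t p.2) with hFF
  set FF' : ℝ → E × E → ℝ := fun t p =>
    e (c • p.1 + s • p.2) * (-Ψ' p.1 (p.2 - t • v) * Ex t p.2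
      + Ψ p.1 (p.2 - t • v) * ((⟪v, p.2⟫ - t * ‖v‖ ^ 2) * Ex t p.2)) with hFF'
  have hem : Measurable (fun p : E × E => e (c • p.1 + s • p.2)) :=
    he.meas.comp (by fun_prop)
  have hΨt : ∀ t : ℝ, Measurable (fun p : E × E => Ψ p.1 (p.2 - t • v)) := fun t =>
    hΨm.comp (by fun_prop : Measurable fun p : E × E => (p.1, p.2 - t • v))
  have hΨ't : ∀ t : ℝ, Measurable (fun p : E × E => Ψ' p.1 (p.2 - t • v)) := fun t =>
    hΨ'm.comp (by fun_prop : Measurable fun p : E × E => (p.1, p.2 - t • v))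
  have hExm : ∀ t : ℝ, Measurable (fun p : E × E => Ex t p.2) := fun t => by
    rw [hEx]; fun_prop
  have hFFm : ∀ t, Measurable (FF t) := fun t => hem.mul ((hΨt t).mul (hExm t))
  have hFF'm : ∀ t, Measurable (FF' t) := fun t => by
    refine hem.mul (((hΨ't t).neg.mul (hExm t)).add ((hΨt t).mul ?_))
    exact (by fun_prop : Measurable fun p : E × E => ⟪v, p.2⟫ - t * ‖v‖ ^ 2).mul (hExm t)
  have hExb : ∀ t ∈ Metric.ball (0:ℝ) 1, ∀ g : E, Ex t g ≤ Real.exp (‖v‖ * ‖g‖) := by
    intro t ht g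
    rw [Metric.mem_ball, dist_zero_right, Real.norm_eq_abs] at ht
    apply Real.exp_le_exp.mpr
    have h1 : |⟪v, g⟫| ≤ ‖v‖ * ‖g‖ := abs_real_inner_le_norm v g
    have h2 : t * ⟪v, g⟫ ≤ |t| * |⟪v, g⟫| := by rw [← abs_mul]; exact le_abs_self _
    have h3 : |t| * |⟪v, g⟫| ≤ 1 * (‖v‖ * ‖g‖) :=
      mul_le_mul ht.le h1 (abs_nonneg _) zero_le_one
    have h4 : 0 ≤ t ^ 2 * ‖v‖ ^ 2 / 2 := by positivity
    linarith
  have hex0 : ∀ t g, 0 < Ex t g := fun t g => Real.exp_pos _
  -- the bound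
  set bd : E × E → ℝ := fun p => ((B' + B * ‖v‖ ^ 2) + B * ‖v‖ * ‖p.2‖) * Real.exp (‖v‖ * ‖p.2‖)
    with hbd
  have hbdi : Integrable bd (gg E) :=
    integrable_gg_snd (integrable_lin_exp (E := E) (a := B' + B * ‖v‖ ^ 2) (b := B * ‖v‖)
      (c := ‖v‖) (by positivity) (by positivity))
  have hbound : ∀ p : E × E, ∀ t ∈ Metric.ball (0:ℝ) 1, ‖FF' t p‖ ≤ bd p := by
    intro p t ht
    have h1 := hExb t ht p.2
    have h2 := hex0 t p.2
    rw [Metric.mem_ball, dist_zero_right, Real.norm_eq_abs] at ht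
    have h3 := hB p.1 (p.2 - t • v)
    have h4 := hB' p.1 (p.2 - t • v)
    have h5 : |⟪v, p.2⟫| ≤ ‖v‖ * ‖p.2‖ := abs_real_inner_le_norm v p.2
    have h6 : |⟪v, p.2⟫ - t * ‖v‖ ^ 2| ≤ ‖v‖ * ‖p.2‖ + ‖v‖ ^ 2 := by
      refine (abs_sub _ _).trans ?_
      have : |t * ‖v‖ ^ 2| ≤ 1 * ‖v‖ ^ 2 := by
        rw [abs_mul, abs_of_nonneg (sq_nonneg ‖v‖)]
        exact mul_le_mul_of_nonneg_right ht.le (sq_nonneg _)
      linarith
    have h7 := he.nonneg (c • p.1 + s • p.2)
    have h8 := he.le_one (c • p.1 + s • p.2)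
    rw [hFF', Real.norm_eq_abs, abs_mul, abs_of_nonneg h7]
    refine (mul_le_of_le_one_left (abs_nonneg _) h8).trans ?_
    have h9 : |-Ψ' p.1 (p.2 - t • v) * Ex t p.2
        + Ψ p.1 (p.2 - t • v) * ((⟪v, p.2⟫ - t * ‖v‖ ^ 2) * Ex t p.2)|
        ≤ B' * Ex t p.2 + B * ((‖v‖ * ‖p.2‖ + ‖v‖ ^ 2) * Ex t p.2) := by
      refine (abs_add_le _ _).trans ?_
      rw [abs_mul, abs_neg, abs_mul, abs_mul, abs_of_pos h2]
      apply add_le_add
      · exact mul_le_mul_of_nonneg_right h4 h2.le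
      · apply mul_le_mul h3 _ (by positivity) hB0
        exact mul_le_mul_of_nonneg_right h6 h2.le
    refine h9.trans ?_
    have h10 : B' * Ex t p.2 + B * ((‖v‖ * ‖p.2‖ + ‖v‖ ^ 2) * Ex t p.2)
        = ((B' + B * ‖v‖ ^ 2) + B * ‖v‖ * ‖p.2‖) * Ex t p.2 := by ring
    rw [h10]
    exact mul_le_mul_of_nonneg_left h1 (by positivity)
  have hdiff : ∀ p : E × E, ∀ t ∈ Metric.ball (0:ℝ) 1,
      HasDerivAt (fun t => FF t p) (FF' t p) t := by
    intro p t _
    have h1 : HasDerivAt (fun t : ℝ => Ψ p.1 (p.2 - t • v)) (-Ψ' p.1 (p.2 - t • v)) t := by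
      have h2 := (hd p.1 p.2 (-t)).comp t (hasDerivAt_neg t)
      have e1 : (fun t : ℝ => Ψ p.1 (p.2 - t • v))
          = (fun τ : ℝ => Ψ p.1 (p.2 + τ • v)) ∘ (fun t : ℝ => -t) := by
        funext t; simp [sub_eq_add_neg]
      rw [e1]
      refine h2.congr_deriv ?_
      rw [neg_smul, ← sub_eq_add_neg]; ring
    have h3 : HasDerivAt (fun t : ℝ => Ex t p.2) ((⟪v, p.2⟫ - t * ‖v‖ ^ 2) * Ex t p.2) t := by
      have h4 : HasDerivAt (fun t : ℝ => t * ⟪v, p.2⟫ - t ^ 2 * ‖v‖ ^ 2 / 2)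
          (⟪v, p.2⟫ - t * ‖v‖ ^ 2) t := by
        have h5 := ((hasDerivAt_id t).mul_const ⟪v, p.2⟫).sub
          (((hasDerivAt_pow 2 t).mul_const (‖v‖ ^ 2)).div_const 2)
        refine h5.congr_deriv ?_
        push_cast
        ring
      exact (h4.exp).congr_deriv (by ring)
    exact ((h1.mul h3).const_mul _).congr_deriv rfl
  have hFFi : Integrable (FF 0) (gg E) := by
    refine Integrable.of_bound (hFFm 0).aestronglyMeasurable B (Eventually.of_forall fun p => ?_)
    rw [hFF, Real.norm_eq_abs]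
    simp only [hEx, zero_smul, sub_zero, zero_mul, ne_eq, OfNat.ofNat_ne_zero,
      not_false_eq_true, zero_pow, zero_div, Real.exp_zero, mul_one]
    rw [abs_mul, abs_of_nonneg (he.nonneg _)]
    exact (mul_le_of_le_one_left (abs_nonneg _) (he.le_one _)).trans (hB _ _)
  obtain ⟨_, hder⟩ := hasDerivAt_integral_of_dominated_loc_of_deriv_le
    (μ := gg E) (F := FF) (F' := FF') (x₀ := 0) (s := Metric.ball 0 1) (bound := bd)
    (Metric.ball_mem_nhds 0 one_pos) (Eventually.of_forall fun t => (hFFm t).aestronglyMeasurable)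
    hFFi (hFF'm 0).aestronglyMeasurable (Eventually.of_forall hbound) hbdi
    (Eventually.of_forall hdiff)
  have hderval : ∫ p, FF' 0 p ∂(gg E)
      = ∫ p : E × E, e (c • p.1 + s • p.2) * (⟪v, p.2⟫ * Ψ p.1 p.2 - Ψ' p.1 p.2) ∂(gg E) := by
    congr 1; funext p
    simp only [hFF', hEx, zero_smul, sub_zero, zero_mul, ne_eq, OfNat.ofNat_ne_zero,
      not_false_eq_true, zero_pow, zero_div, Real.exp_zero, mul_one]
    ring
  rw [← hderval]
  set G : ℝ → ℝ := fun t => ∫ p, FF t p ∂(gg E) with hG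
  -- the shift identity
  have hshift : ∀ t : ℝ, G t = ∫ p : E × E, e (c • p.1 + s • (p.2 + t • v)) * Ψ p.1 p.2 ∂(gg E) := by
    intro t
    have hi1 : Integrable (fun p : E × E => e (c • p.1 + s • (p.2 + t • v)) * Ψ p.1 p.2) (gg E) := by
      refine Integrable.of_bound ((he.meas.comp (by fun_prop)).mul
        (hΨm.comp measurable_id)).aestronglyMeasurable B (Eventually.of_forall fun p => ?_)
      rw [Real.norm_eq_abs, abs_mul, abs_of_nonneg (he.nonneg _)]
      exact (mul_le_of_le_one_left (abs_nonneg _) (he.le_one _)).trans (hB _ _)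
    have hi2 : Integrable (FF t) (gg E) := by
      have h1 : Integrable (fun p : E × E => B * Ex t p.2) (gg E) := by
        have h0 : Integrable (fun g : E => B * Ex t g) (stdGaussian E) := by
          have := (integrable_exp_inner (E := E) (t • v) (t ^ 2 * ‖v‖ ^ 2 / 2)).const_mul B
          refine this.congr (Eventually.of_forall fun g => ?_)
          simp only [hEx, real_inner_smul_left]
        exact integrable_gg_snd h0
      refine h1.mono' (hFFm t).aestronglyMeasurable (Eventually.of_forall fun p => ?_)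
      rw [hFF, Real.norm_eq_abs, abs_mul, abs_of_nonneg (he.nonneg _), abs_mul,
        abs_of_pos (hex0 t p.2)]
      refine (mul_le_of_le_one_left (by have := hex0 t p.2; positivity) (he.le_one _)).trans ?_
      exact mul_le_mul_of_nonneg_right (hB _ _) (hex0 t p.2).le
    rw [hG]
    simp only []
    rw [integral_prod _ hi2, integral_prod _ hi1]
    congr 1; funext y
    have hm : Measurable (fun g : E => e (c • y + s • g) * Ψ y (g - t • v)) :=
      (he.meas.comp (by fun_prop)).mul (hΨm.comp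
        (by fun_prop : Measurable fun g : E => (y, g - t • v)))
    have h := integral_shift' hm (t • v)
    simp only [add_sub_cancel_right] at h
    rw [h]
    congr 1; funext g
    simp only [hFF, hEx, real_inner_smul_left, norm_smul, Real.norm_eq_abs, mul_pow, sq_abs]
    ring
  have hG0 : ∀ t : ℝ, 0 < t → |G t - G 0|
      ≤ B * ∫ x, |e (x + (s * t) • v) - e x| ∂(stdGaussian E) := by
    intro t ht
    rw [hshift t, hshift 0]
    simp only [zero_smul, add_zero]
    have hi : ∀ t : ℝ, Integrable (fun p : E × E => e (c • p.1 + s • (p.2 + t • v)) * Ψ p.1 p.2)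
        (gg E) := by
      intro t
      refine Integrable.of_bound ((he.meas.comp (by fun_prop)).mul
        (hΨm.comp measurable_id)).aestronglyMeasurable B (Eventually.of_forall fun p => ?_)
      rw [Real.norm_eq_abs, abs_mul, abs_of_nonneg (he.nonneg _)]
      exact (mul_le_of_le_one_left (abs_nonneg _) (he.le_one _)).trans (hB _ _)
    have hi0 := hi 0
    simp only [zero_smul, add_zero] at hi0
    rw [← integral_sub (hi t) hi0]
    refine (abs_integral_le_integral_abs).trans ?_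
    have hd1 : UI (fun x => |e (x + (s * t) • v) - e x|) := by
      refine ⟨((he.meas.comp (by fun_prop)).sub he.meas).abs, fun x => abs_nonneg _, fun x => ?_⟩
      rw [abs_le]
      have := he.nonneg x; have := he.le_one x
      have := he.nonneg (x + (s * t) • v); have := he.le_one (x + (s * t) • v)
      constructor <;> linarith
    have h1 := integral_add_smul' (a := c) (b := s) (c := 1) (by rw [hcs]; norm_num) hd1.meas
      (B := 1) (fun x => by rw [abs_of_nonneg (hd1.nonneg x)]; exact hd1.le_one x)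
    simp only [one_smul] at h1
    rw [← h1, ← integral_const_mul]
    have h2 : ∫ y : E, B * ∫ g : E, |e (c • y + s • g + (s * t) • v) - e (c • y + s • g)|
          ∂(stdGaussian E) ∂(stdGaussian E)
        = ∫ p : E × E, B * |e (c • p.1 + s • p.2 + (s * t) • v) - e (c • p.1 + s • p.2)|
          ∂(gg E) := by
      rw [integral_prod]
      · congr 1; funext y; rw [integral_const_mul]
      · exact ((UI.comp hd1 (T := fun p : E × E => c • p.1 + s • p.2)
          (by fun_prop)).integrable _).const_mul B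
    rw [h2]
    apply integral_mono_of_nonneg (Eventually.of_forall fun p => abs_nonneg _)
    · exact ((UI.comp hd1 (T := fun p : E × E => c • p.1 + s • p.2)
          (by fun_prop)).integrable _).const_mul B
    · refine Eventually.of_forall fun p => ?_
      simp only []
      rw [← sub_mul, abs_mul, mul_comm]
      have e1 : c • p.1 + s • (p.2 + t • v) = c • p.1 + s • p.2 + (s * t) • v := by
        rw [smul_add, smul_smul, add_assoc]
      rw [e1]
      exact mul_le_mul_of_nonneg_right (hB _ _) (abs_nonneg _)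
  -- the limit
  have hslope : Tendsto (fun t' : ℝ => (t' / s)⁻¹ * (G (t' / s) - G 0)) (𝓝[>] 0)
      (𝓝 (∫ p, FF' 0 p ∂(gg E))) := by
    have h1 := hder.tendsto_slope_zero_right
    have h2 : Tendsto (fun t' : ℝ => t' / s) (𝓝[>] 0) (𝓝[>] 0) := by
      apply tendsto_nhdsWithin_iff.mpr
      constructor
      · have : ContinuousAt (fun t' : ℝ => t' / s) 0 := by fun_prop
        have h3 := this.tendsto
        simp only [zero_div] at h3
        exact h3.mono_left nhdsWithin_le_nhds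
      · filter_upwards [self_mem_nhdsWithin] with t ht
        exact div_pos ht hs
    have h3 := h1.comp h2
    refine h3.congr (fun t => ?_)
    simp [hG]
  apply le_of_forall_pos_le_add
  intro ε hε
  have hε' : 0 < ε / (s * (B + 1)) := by positivity
  have hfreq := (hF _ hε').and_eventually self_mem_nhdsWithin
  refine le_of_tendsto_of_frequently hslope.abs (hfreq.mono fun t' ht => ?_)
  obtain ⟨h1, h2⟩ := ht
  have ht' : 0 < t' := h2
  have h3 := hG0 (t' / s) (div_pos ht' hs)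
  rw [mul_div_cancel₀ _ hs.ne'] at h3
  rw [abs_mul, abs_of_pos (by positivity : 0 < (t' / s)⁻¹), inv_mul_le_iff₀ (div_pos ht' hs)]
  refine h3.trans ((mul_le_mul_of_nonneg_left h1 hB0).trans ?_)
  have h4 : t' / s * (s * B * F + ε) = B * F * t' + ε * t' / s := by
    field_simp
  rw [h4]
  have h5 : B * ((F + ε / (s * (B + 1))) * t') = B * F * t' + (B / (B + 1)) * (ε * t' / s) := by
    field_simp
  rw [h5]
  have h6 : B / (B + 1) ≤ 1 := by rw [div_le_one (by linarith)]; linarith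
  have h7 : 0 ≤ ε * t' / s := by positivity
  nlinarith [mul_le_mul_of_nonneg_right h6 h7]

end Vale.Agent.P262.H941
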