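import Vale.Agent.P262.H941.GainCost5

/-!
# The labelwise block lemma, abstract core (milestone 2)

`lbl_own`: a complete window of a label of class `≥ 1`.  The fields `e s` run over all elementary
states, the real times are `τ t`, the flux is taken at the field `σ t`.
-/

set_option linter.unusedSectionVars false

namespace Vale.Agent.P262.H941

open MeasureTheory ProbabilityTheory Set Filter Topology Module
open scoped RealInnerProductSpace
open Vale.Agent.P262.H847 Vale.Agent.P262.H912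
open Vale.Agent.P262.H274 (Slow SlowEx PivotAt Cost Gam)
open Vale.Agent.P262.H174 (Soft)

variable {E : Type*} [NormedAddCommGroup E] [InnerProductSpace ℝ E] [FiniteDimensional ℝ E]
  [MeasurableSpace E] [BorelSpace E]

noncomputable section

/-! ### Numbers of the classes -/

/-- thresholds of the classes `≥ 1` -/
def thr (c : ℕ) : ℝ := Real.exp (1 - 4 ^ c) / 10

lemma thr_pos (c : ℕ) : 0 < thr c := by unfold thr; positivity

lemma thr_anti {c c' : ℕ} (h : c ≤ c') : thr c' ≤ thr c := by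
  unfold thr
  have h1 : (4:ℝ) ^ c ≤ 4 ^ c' := pow_le_pow_right₀ (by norm_num) h
  apply div_le_div_of_nonneg_right _ (by norm_num)
  exact Real.exp_le_exp.2 (by linarith)

lemma thr_le (c : ℕ) : thr c ≤ 1 / 10 := by
  have h := thr_anti (Nat.zero_le c)
  have : thr 0 = 1 / 10 := by unfold thr; norm_num
  linarith

/-- lower number: class `c + 1`, `D` below the threshold of the class before (`1/5` if `c = 0`) -/
lemma nc_lower {c : ℕ} {c0 D : ℝ} (hc0 : 0 ≤ c0) (hD0 : 0 < D) (hD1 : D ≤ 1)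
    (h : c = 0 ∨ D ≤ thr c) :
    c0 / 2 ≤ c0 * (1 / 2) ^ (c + 1) * Real.sqrt (1 - Real.log D) := by
  have h1 : (2:ℝ) ^ c ≤ Real.sqrt (1 - Real.log D) := by
    apply Real.le_sqrt_of_sq_le
    have e : ((2:ℝ) ^ c) ^ 2 = 4 ^ c := by rw [← pow_mul, mul_comm, pow_mul]; norm_num
    rw [e]
    rcases h with h | h
    · subst h; have := one_le_ell hD0 hD1; simpa using this
    · have h2 : Real.log D ≤ Real.log (thr c) := Real.log_le_log hD0 h
      have h3 : Real.log (thr c) ≤ 1 - 4 ^ c := by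
        unfold thr
        rw [Real.log_div (Real.exp_pos _).ne' (by norm_num), Real.log_exp]
        have := Real.log_nonneg (show (1:ℝ) ≤ 10 by norm_num)
        linarith
      linarith
  have h2 : (1 / 2 : ℝ) ^ c * 2 ^ c = 1 := by rw [← mul_pow]; norm_num
  calc c0 / 2 = c0 * (1 / 2) ^ (c + 1) * 2 ^ c := by
        rw [pow_succ]
        calc c0 / 2 = c0 * (1 / 2) * 1 := by ring
          _ = c0 * (1 / 2) * ((1 / 2 : ℝ) ^ c * 2 ^ c) := by rw [h2]
          _ = _ := by ring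
    _ ≤ _ := mul_le_mul_of_nonneg_left h1 (by positivity)

/-- upper number: `D` above the threshold of its class, with a factor `1/4` of room -/
lemma nc_upper {c : ℕ} {c0 D : ℝ} (hc0 : 0 ≤ c0) (h : thr (c + 1) / 4 ≤ D) :
    c0 * (1 / 2) ^ (c + 1) * Real.sqrt (1 - Real.log D) ≤ 2 * c0 := by
  have hD0 : 0 < D := lt_of_lt_of_le (by have := thr_pos (c + 1); positivity) h
  have h1 : Real.sqrt (1 - Real.log D) ≤ 2 * 2 ^ (c + 1) := by
    apply Real.sqrt_le_iff.2
    refine ⟨by positivity, ?_⟩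
    have e : (2 * (2:ℝ) ^ (c + 1)) ^ 2 = 4 * 4 ^ (c + 1) := by
      rw [mul_pow, ← pow_mul, mul_comm (c + 1) 2, pow_mul]; norm_num
    rw [e]
    have h2 : Real.log (thr (c + 1) / 4) ≤ Real.log D :=
      Real.log_le_log (by have := thr_pos (c + 1); positivity) h
    have h3 : Real.log (thr (c + 1) / 4) = 1 - 4 ^ (c + 1) - Real.log 40 := by
      unfold thr
      rw [div_div, Real.log_div (Real.exp_pos _).ne' (by norm_num), Real.log_exp]
      norm_num
    have h4 : Real.log 40 ≤ 4 := by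
      rw [Real.log_le_iff_le_exp (by norm_num)]
      have h5 : (2.7182818283 : ℝ) ≤ Real.exp 1 := Real.exp_one_gt_d9.le
      have h6 : Real.exp 4 = Real.exp 1 ^ 4 := by rw [← Real.exp_nat_mul]; norm_num
      rw [h6]
      calc (40:ℝ) ≤ 2.7182818283 ^ 4 := by norm_num
        _ ≤ _ := pow_le_pow_left₀ (by norm_num) h5 4
    have h5 : (4:ℝ) ≤ 4 ^ (c + 1) := by
      have : (4:ℝ) ^ 1 ≤ 4 ^ (c + 1) := pow_le_pow_right₀ (by norm_num) (by omega)
      simpa using this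
    linarith
  have h2 : (1 / 2 : ℝ) ^ (c + 1) * 2 ^ (c + 1) = 1 := by rw [← mul_pow]; norm_num
  calc c0 * (1 / 2) ^ (c + 1) * Real.sqrt (1 - Real.log D)
      ≤ c0 * (1 / 2) ^ (c + 1) * (2 * 2 ^ (c + 1)) :=
        mul_le_mul_of_nonneg_left h1 (by positivity)
    _ = 2 * c0 * ((1 / 2 : ℝ) ^ (c + 1) * 2 ^ (c + 1)) := by ring
    _ = 2 * c0 := by rw [h2, mul_one]

/-! ### Variation of the masses -/

/-- the mass of the field moves at most by the soft charges -/
lemma mass_path {e : ℕ → E → ℝ} (he : ∀ s, UI (e s)) {α β : ℕ → ℝ} {p q : ℕ}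
    (hso : ∀ s, p ≤ s → s < q → Soft (e s) (e (s + 1)) (α s) (β s))
    (hβ : ∀ s, p ≤ s → s < q → 0 ≤ β s) {s s' : ℕ} (h1 : p ≤ s) (h1' : s ≤ q) (h2 : p ≤ s')
    (h2' : s' ≤ q) :
    |∫ x, e s' x ∂(stdGaussian E) - ∫ x, e s x ∂(stdGaussian E)|
      ≤ Gam (fun r => α r + β r) p q := by
  have hα : ∀ r, p ≤ r → r < q → 0 ≤ α r := fun r h3 h4 => (hso r h3 h4).nonneg
  have key : ∀ x y, p ≤ x → x ≤ y → y ≤ q →
      |∫ z, e y z ∂(stdGaussian E) - ∫ z, e x z ∂(stdGaussian E)|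
        ≤ Gam (fun r => α r + β r) p q := by
    intro x y h3 h4 h5
    have h6 := (Vale.Agent.P262.H174.Soft.path he hso h3 h4 h5).mass (he x) (he y)
    refine h6.trans ?_
    calc ∑ r ∈ Finset.Ico x y, α r ≤ ∑ r ∈ Finset.Ico x y, (α r + β r) := by
          apply Finset.sum_le_sum
          intro r hr
          rw [Finset.mem_Ico] at hr
          have := hβ r (by omega) (by omega)
          linarith
      _ = Gam (fun r => α r + β r) x y := rfl
      _ ≤ _ := gam_mono (fun r h7 h8 => add_nonneg (hα r h7 h8) (hβ r h7 h8)) h3 h5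
  rcases le_total s s' with h | h
  · exact key s s' h1 h h2'
  · rw [abs_sub_comm]; exact key s' s h2 h h1'

/-- **LBL, class `≥ 1`, complete window.** -/
theorem lbl_own {e : ℕ → E → ℝ} (he : ∀ s, UI (e s)) {K : ℕ → Set E}
    {v : ℕ → E} {F α β : ℕ → ℝ} {N ρ : ℝ} (hN0 : 0 < N) (hN1 : N ≤ 1)
    (hρ0 : 0 < ρ) (hρ1 : ρ ≤ 1 / 324) {τ σ : ℕ → ℕ} (hτ : Monotone τ) {a b : ℕ} (hab : a < b)
    (hσ : ∀ t, a ≤ t → t < b → τ t ≤ σ t ∧ σ t < τ (t + 1))
    (hF : ∀ t, a ≤ t → t < b → FluxLe (e (σ t)) (v t) (F t))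
    (hso : ∀ s, τ a ≤ s → s < τ b → Soft (e s) (e (s + 1)) (α s) (β s))
    (hβ : ∀ s, τ a ≤ s → s < τ b → 0 ≤ β s)
    (hK : ∀ t, a ≤ t → t ≤ b → Convex ℝ (K t))
    (hKm : ∀ t, a ≤ t → t ≤ b → MeasurableSet (K t))
    {Dst c0 : ℝ} (hDst0 : 0 < Dst) (hDst1 : Dst ≤ 7 / 8) (hc0 : 0 ≤ c0) (hc01 : c0 ≤ 1)
    (hlow : c0 / 4 ≤ N * Real.sqrt (1 - Real.log Dst))
    (hup : N * Real.sqrt (1 - Real.log (Dst / 4)) ≤ 1 / 10 ^ 9)
    (hD : ∀ t, a ≤ t → t ≤ b → (stdGaussian E).real (K t)ᶜ ≤ Dst)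
    (hpeak : ∃ s, τ a ≤ s ∧ s ≤ τ b ∧ 3 / 4 * Dst ≤ ∫ x, e s x ∂(stdGaussian E))
    (hmass : ∀ t, a ≤ t → t ≤ b →
      ∫ x, e (τ t) x ∂(stdGaussian E) ≤ (stdGaussian E).real (K t)ᶜ + Dst / 8)
    (hclose : ∀ t, a ≤ t → t ≤ b → Dst / 4 ≤ (stdGaussian E).real (K t)ᶜ →
      ∫ x, |e (τ t) x - (K t)ᶜ.indicator (fun _ => (1:ℝ)) x| ∂(stdGaussian E)
        ≤ 1 / 10 ^ 10 * (stdGaussian E).real (K t)ᶜ)
    (hS : ¬ Slow v N 1 a b) :
    c0 / (16 * 10 ^ 15) * Dst * Cost (Slow v N) ρ a b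
      ≤ Gam F a b + Gam (fun s => α s + β s) (τ a) (τ b) := by
  have hcost1 : Cost (Slow v N) ρ a b ≤ 1 := by
    have := Vale.Agent.P262.H274.cost_le_pow (S := Slow v N) hρ0.le hab
      (slow_zero v hN0.le a b)
    simpa using this
  have hcost0 : 0 ≤ Cost (Slow v N) ρ a b := Vale.Agent.P262.H274.cost_nonneg hρ0.le a b
  have hF0 : 0 ≤ Gam F a b := Finset.sum_nonneg fun t ht => by
    rw [Finset.mem_Ico] at ht; exact (hF t ht.1 ht.2).nonneg
  by_cases hall : ∀ t, a ≤ t → t ≤ b → Dst / 4 ≤ (stdGaussian E).real (K t)ᶜ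
  · have h := gain_cost_ref he hN0 hN1 hρ0 hρ1 hτ hab hσ hF hso hβ hK hKm
      (fun t h1 h2 => by have := hall t h1 h2; linarith)
      (fun t h1 h2 => (hD t h1 h2).trans hDst1)
      (fun t h1 h2 => by
        refine le_trans ?_ hup
        apply mul_le_mul_of_nonneg_left _ hN0.le
        apply Real.sqrt_le_sqrt
        have := Real.log_le_log (by linarith) (hall t h1 h2)
        linarith)
      (fun t h1 h2 => hclose t h1 h2 (hall t h1 h2)) hS (t0 := a) le_rfl hab.le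
    refine le_trans ?_ h
    have h1 : 1 / 4 * LL Dst ≤ LL ((stdGaussian E).real (K a)ᶜ) := by
      have h2 := mul_LL_le (θ := 1 / 4) (by norm_num) (by norm_num) hDst0
        (by linarith : Dst ≤ 1)
      refine h2.trans (LL_mono (by positivity) ?_ measureReal_le_one)
      have := hall a le_rfl hab.le
      linarith
    have h2 : c0 / 16 * Dst ≤ N * LL ((stdGaussian E).real (K a)ᶜ) := by
      calc c0 / 16 * Dst = 1 / 4 * (c0 / 4 * Dst) := by ring
        _ ≤ 1 / 4 * (N * Real.sqrt (1 - Real.log Dst) * Dst) := by gcongr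
        _ = N * (1 / 4 * LL Dst) := by unfold LL; ring
        _ ≤ _ := mul_le_mul_of_nonneg_left h1 hN0.le
    calc c0 / (16 * 10 ^ 15) * Dst * Cost (Slow v N) ρ a b
        = 1 / 10 ^ 15 * (c0 / 16 * Dst) * Cost (Slow v N) ρ a b := by ring
      _ ≤ 1 / 10 ^ 15 * (N * LL ((stdGaussian E).real (K a)ᶜ)) * Cost (Slow v N) ρ a b := by
        gcongr
  · push Not at hall
    obtain ⟨t, h1, h2, h3⟩ := hall
    obtain ⟨s, h4, h5, h6⟩ := hpeak
    have h7 := hmass t h1 h2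
    have h8 := mass_path he hso hβ (hτ h1) (hτ h2) h4 h5
    have h9 := (abs_le.1 h8).2
    have h10 : 3 / 8 * Dst ≤ Gam (fun s => α s + β s) (τ a) (τ b) := by linarith
    have h11 : c0 / (16 * 10 ^ 15) * Dst * Cost (Slow v N) ρ a b ≤ 3 / 8 * Dst := by
      calc c0 / (16 * 10 ^ 15) * Dst * Cost (Slow v N) ρ a b
          ≤ 1 / (16 * 10 ^ 15) * Dst * 1 := by gcongr
        _ ≤ 3 / 8 * Dst := by
          have : (1:ℝ) / (16 * 10 ^ 15) ≤ 3 / 8 := by norm_num
          nlinarith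
    linarith

end

end Vale.Agent.P262.H941
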