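import Vale.Agent.P262.H941.GainCost2

/-!
# The gain-cost lemma with soft errors: polymorphic assembly
-/

set_option linter.unusedSectionVars false

namespace Vale.Agent.P262.H941

open MeasureTheory ProbabilityTheory Set Filter Topology Module
open scoped RealInnerProductSpace
open Vale.Agent.P262.H847 Vale.Agent.P262.H912
open Vale.Agent.P262.H274 (Slow SlowEx PivotAt Cost Gam)

variable {E : Type*} [NormedAddCommGroup E] [InnerProductSpace ℝ E] [FiniteDimensional ℝ E]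
  [MeasurableSpace E] [BorelSpace E]

noncomputable section

/-- What the gain-cost lemma needs from a sequence of fields: the flux bound and the bound of the
change of the first moments at scale `s`, both with loss `4 / s`, and the change of the mass. -/
structure ScaleBds (f : ℕ → E → ℝ) (v : ℕ → E) (g : ℕ → ℝ) (N : ℝ) (a b : ℕ) : Prop where
  nonneg : ∀ t, a ≤ t → t < b → 0 ≤ g t
  flux : ∀ l u, a ≤ l → l ≤ u → u ≤ b → ∀ s : ℝ, 0 < s → s ≤ 1 → ∀ (P : E →L[ℝ] E) (lam : ℝ),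
    (∀ m : E, ∀ δ : ℝ, 0 < δ → ∃ κ, Adm (fun t => v (l + t)) (u - l) N κ ∧
      lam * ‖P m‖ ≤ ⟪∑ r ∈ Finset.range (u - l), κ r • v (l + r), m⟫ + δ) →
    ∀ ε T : ℝ, 0 < ε → ε ≤ 1 → 1 ≤ T →
    ε * (lam * ∫ y, ‖P (mom (f u) s (Real.sqrt (1 - s ^ 2) • y))‖ ∂(stdGaussian E))
      ≤ Real.exp (1 / 2) * (4 / s * Gam g l u)
        + Real.exp (1 / 2) * (ε ^ 3 / 6 * (N ^ 3 * (8 * T ^ 3 * ∫ x, f u x ∂(stdGaussian E)
            + 96 * Real.exp (-(T ^ 2 / 2)))))
  change : ∀ t u, a ≤ t → t ≤ u → u ≤ b → ∀ s : ℝ, 0 < s → s ≤ 1 → ∀ T : ℝ, 1 ≤ T →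
    ∫ y, ‖mom (f t) s (Real.sqrt (1 - s ^ 2) • y) - mom (f u) s (Real.sqrt (1 - s ^ 2) • y)‖
      ∂(stdGaussian E) ≤ 2 * T * (4 / s * Gam g t u) + 12 * Real.exp (-(T ^ 2 / 2))
  mass : ∀ t u, a ≤ t → t ≤ u → u ≤ b →
    |∫ x, f t x ∂(stdGaussian E) - ∫ x, f u x ∂(stdGaussian E)| ≤ Gam g t u

/-- one level, soft version -/
theorem level_bound' {f : ℕ → E → ℝ} (hf : ∀ t, UI (f t)) {v : ℕ → E} {g : ℕ → ℝ} {N : ℝ}
    (hN : 0 < N) {a b : ℕ} (hB : ScaleBds f v g N a b) {l u t k : ℕ} (hk : 1 ≤ k) (hal : a ≤ l)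
    (hub : u ≤ b) (hlt : l ≤ t) (htu : t ≤ u) {V : Submodule ℝ E}
    (hV : PivotAt v N k l u V) {D c : ℝ} (hD0 : 0 < D) (hD1 : D ≤ 1) (hc0 : 0 < c) (hc1 : c ≤ 1)
    (hNc : N * Real.sqrt (1 - Real.log D) ≤ c)
    (hu : ∫ x, f u x ∂(stdGaussian E) ≤ 4 * D) {s : ℝ} (hs : 0 < s) (hs1 : s ≤ 1)
    (hΓ : 4 / s * Gam g l u ≤ 324 * c * (1 / 162) ^ k * (N * LL D)) :
    lev (fun p => ‖(ContinuousLinearMap.id ℝ E - V.starProjection) (mom (f t) s p)‖) s
      ≤ 3000 * c * (1 / 2) ^ k * LL D := by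
  have hP1 : ∀ x, ‖(ContinuousLinearMap.id ℝ E - V.starProjection) x‖ ≤ ‖x‖ := by
    intro x
    have h1 : (ContinuousLinearMap.id ℝ E - V.starProjection) x = Vᗮ.starProjection x := by
      rw [Submodule.starProjection_orthogonal]
    rw [h1]
    exact Submodule.norm_starProjection_apply_le _ _
  set P := (ContinuousLinearMap.id ℝ E - V.starProjection) with hP
  have hε0 : (0:ℝ) < (1 / 9) ^ k := by positivity
  have hε1 : ((1:ℝ) / 9) ^ k ≤ 1 := pow_le_one₀ (by norm_num) (by norm_num)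
  have hT1 : 1 ≤ Real.sqrt 2 * Real.sqrt (1 - Real.log D) := by
    have h1 : 1 ≤ Real.sqrt 2 := by rw [Real.one_le_sqrt]; norm_num
    have h2 := one_le_sqrt_ell hD0 hD1
    nlinarith
  have h1 := hB.flux l u hal (hlt.trans htu) hub s hs hs1 P (N / 9 ^ k) hV.2 _ _ hε0 hε1 hT1
  have hint0 : 0 ≤ ∫ x, f u x ∂(stdGaussian E) := integral_nonneg fun x => (hf u).nonneg x
  have h5 := flux_num (G := 324 * c * (1 / 162) ^ k) hD0 hD1 hN (by positivity) hNc hint0 hu hΓ h1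
  have hG0 : 0 ≤ Gam g t u := Finset.sum_nonneg fun r hr => by
    rw [Finset.mem_Ico] at hr; exact hB.nonneg r (by omega) (by omega)
  have hGtu : Gam g t u ≤ Gam g l u :=
    gam_mono (fun r h1 h2 => hB.nonneg r (by omega) (by omega)) hlt le_rfl
  have h4s : 0 < 4 / s := by positivity
  obtain ⟨T', hT'1, h6⟩ := change_num (G := 324 * c * (1 / 162) ^ k) (η := 4 / s * Gam g t u)
    hk hD0 hD1 hN (by positivity) hNc hc0 hc1 (by positivity)
    ((mul_le_mul_of_nonneg_left hGtu h4s.le).trans hΓ)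
  have h7 := hB.change t u (by omega) htu hub s hs hs1 T' hT'1
  have h8 : lev (fun p => ‖P (mom (f t) s p)‖) s
      ≤ ∫ y, ‖P (mom (f u) s (Real.sqrt (1 - s ^ 2) • y))‖ ∂(stdGaussian E)
        + ∫ y, ‖mom (f t) s (Real.sqrt (1 - s ^ 2) • y)
          - mom (f u) s (Real.sqrt (1 - s ^ 2) • y)‖ ∂(stdGaussian E) := by
    have hm1 := measurable_mom (hf t) s
    have hm2 := measurable_mom (hf u) s
    have i1 := integrable_norm_mom (hf t) P (Real.sqrt (1 - s ^ 2)) s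
    have i2 := integrable_norm_mom (hf u) P (Real.sqrt (1 - s ^ 2)) s
    have i3 : Integrable (fun y => ‖mom (f t) s (Real.sqrt (1 - s ^ 2) • y)
        - mom (f u) s (Real.sqrt (1 - s ^ 2) • y)‖) (stdGaussian E) := by
      refine Integrable.of_bound ((hm1.comp (by fun_prop)).sub
        (hm2.comp (by fun_prop))).norm.aestronglyMeasurable 2 (Eventually.of_forall fun y => ?_)
      rw [norm_norm]
      refine (norm_sub_le _ _).trans ?_
      have := norm_mom_le_one (hf t) s (Real.sqrt (1 - s ^ 2) • y)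
      have := norm_mom_le_one (hf u) s (Real.sqrt (1 - s ^ 2) • y)
      linarith
    rw [← integral_add i2 i3]
    unfold lev
    apply integral_mono i1 (i2.add i3)
    intro y
    have : P (mom (f t) s (Real.sqrt (1 - s ^ 2) • y))
        = P (mom (f u) s (Real.sqrt (1 - s ^ 2) • y))
        + P (mom (f t) s (Real.sqrt (1 - s ^ 2) • y)
          - mom (f u) s (Real.sqrt (1 - s ^ 2) • y)) := by rw [map_sub]; abel
    show ‖P (mom (f t) s (Real.sqrt (1 - s ^ 2) • y))‖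
      ≤ ‖P (mom (f u) s (Real.sqrt (1 - s ^ 2) • y))‖
      + ‖mom (f t) s (Real.sqrt (1 - s ^ 2) • y) - mom (f u) s (Real.sqrt (1 - s ^ 2) • y)‖
    rw [this]
    exact (norm_add_le _ _).trans (by gcongr; exact hP1 _)
  have h9 := level_const hc0 hc1 hk
  have h10 := mul_le_mul_of_nonneg_right h9 (LL_nonneg hD0.le)
  have e6 : (2 * 81 ^ k * (324 * c * (1 / 162) ^ k) + 53 * c ^ 2 * (1 / 9) ^ k
      + 6 * k * c * (324 * c * (1 / 162) ^ k) / c + 5 * c * (1 / 2) ^ k) * LL D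
      = (2 * 81 ^ k * (324 * c * (1 / 162) ^ k) + 53 * c ^ 2 * (1 / 9) ^ k) * LL D
      + (6 * k * c * (324 * c * (1 / 162) ^ k) / c + 5 * c * (1 / 2) ^ k) * LL D := by ring
  rw [e6] at h10
  linarith

/-- **The data of all levels at one common time**, soft version. -/
theorem levels' {f h : ℕ → E → ℝ} (hf : ∀ t, UI (f t)) (hh : ∀ t, UI (h t)) {K : ℕ → Set E}
    (hKm : ∀ t, MeasurableSet (K t))
    (hfh : ∀ t x, f t x + h t x = (K t)ᶜ.indicator (fun _ => (1:ℝ)) x)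
    {v : ℕ → E} {g : ℕ → ℝ} {N c ρ : ℝ} (hN0 : 0 < N) (hN1 : N ≤ 1) (hc0 : 0 < c)
    (hc1 : c ≤ 1 / 8) (hρ0 : 0 < ρ) (hρ1 : ρ ≤ 1 / 324) {a b : ℕ} (hab : a < b)
    (hB : ScaleBds f v g N a b)
    (hD0 : ∀ t, a ≤ t → t ≤ b → 0 < Dm (K t))
    (hNc : ∀ t, a ≤ t → t ≤ b → N * Real.sqrt (1 - Real.log (Dm (K t))) ≤ c)
    (hhid : ∀ t, a ≤ t → t ≤ b → ∫ x, h t x ∂(stdGaussian E) ≤ 1 / 8 * Dm (K t))
    (hS : ¬ Slow v N 1 a b) {t0 : ℕ} (ht0a : a ≤ t0) (ht0b : t0 ≤ b)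
    (hlt : Gam g a b < c / 10 ^ 6 * (N * LL (Dm (K t0))) * Cost (Slow v N) ρ a b) :
    ∃ t, a ≤ t ∧ t ≤ b ∧ ∀ k, 1 ≤ k → ∃ V : Submodule ℝ E, finrank ℝ V ≤ 2 * (k - 1) ∧
      ∀ s, 0 < s → s ≤ 1 → 1 / s ≤ 2 ^ 16 * 2 ^ k →
        lev (fun p => ‖(ContinuousLinearMap.id ℝ E - V.starProjection) (mom (f t) s p)‖) s
          ≤ 3000 * c * (1 / 2) ^ k * LL (Dm (K t)) := by
  have hc1' : c ≤ 1 := by linarith
  have hD1 : ∀ t, Dm (K t) ≤ 1 := fun t => measureReal_le_one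
  have hcost1 : Cost (Slow v N) ρ a b ≤ 1 := by
    have := Vale.Agent.P262.H274.cost_le_pow (S := Slow v N) hρ0.le hab (slow_zero v hN0.le a b)
    simpa using this
  have hg0 := hB.nonneg
  set D0 := Dm (K t0) with hD0def
  have hD00 : 0 < D0 := hD0 t0 ht0a ht0b
  have hD01 : D0 ≤ 1 := hD1 t0
  set C := c / 10 ^ 6 * (N * LL D0) with hC
  have hLL0 : 0 < LL D0 := LL_pos hD00 hD01
  have hC0 : 0 < C := by positivity
  have hΓC : Gam g a b ≤ C := by
    have : C * Cost (Slow v N) ρ a b ≤ C * 1 := mul_le_mul_of_nonneg_left hcost1 hC0.le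
    linarith
  -- `C ≤ c² D0 ≤ D0 / 8`
  have hNL : N * LL D0 ≤ c * D0 := by
    have := hNc t0 ht0a ht0b
    calc N * LL D0 = (N * Real.sqrt (1 - Real.log D0)) * D0 := by unfold LL; ring
      _ ≤ c * D0 := mul_le_mul_of_nonneg_right this hD00.le
  have hCD : C ≤ 1 / 8 * D0 := by
    have h1 : C ≤ c / 10 ^ 6 * (c * D0) := mul_le_mul_of_nonneg_left hNL (by positivity)
    have h2 : c / 10 ^ 6 * (c * D0) ≤ 1 / 8 * (1 * D0) := by
      apply mul_le_mul _ _ (by positivity) (by norm_num)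
      · rw [div_le_iff₀ (by norm_num)]; linarith
      · exact mul_le_mul_of_nonneg_right hc1' hD00.le
    linarith
  -- masses
  have hI : ∀ t, ∫ x, f t x ∂(stdGaussian E) + ∫ x, h t x ∂(stdGaussian E) = Dm (K t) := by
    intro t
    rw [← integral_add ((hf t).integrable _) ((hh t).integrable _)]
    have : (fun x => f t x + h t x) = (K t)ᶜ.indicator (fun _ => (1:ℝ)) := funext (hfh t)
    rw [this, integral_indicator_const _ (hKm t).compl]
    simp [Dm]
  have hh0 : ∀ t, 0 ≤ ∫ x, h t x ∂(stdGaussian E) := fun t => integral_nonneg fun x => (hh t).nonneg x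
  have hIdiff : ∀ t u, a ≤ t → t ≤ u → u ≤ b →
      |∫ x, f t x ∂(stdGaussian E) - ∫ x, f u x ∂(stdGaussian E)| ≤ C := by
    intro t u h1 h2 h3
    refine (hB.mass t u h1 h2 h3).trans ?_
    exact (gam_mono hg0 h1 h3).trans hΓC
  have hIdiff' : ∀ t, a ≤ t → t ≤ b →
      |∫ x, f t x ∂(stdGaussian E) - ∫ x, f t0 x ∂(stdGaussian E)| ≤ C := by
    intro t h1 h2
    rcases le_total t t0 with h | h
    · exact hIdiff t t0 h1 h ht0b
    · rw [abs_sub_comm]; exact hIdiff t0 t ht0a h h2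
  have hDle : ∀ t, a ≤ t → t ≤ b → Dm (K t) ≤ 2 * D0 := by
    intro t h1 h2
    have h3 := abs_le.mp (hIdiff' t h1 h2)
    have h4 := hI t
    have h5 := hI t0
    have h6 := hhid t h1 h2
    have h7 := hh0 t0
    rw [← hD0def] at h5
    linarith [h3.2]
  have hDge : ∀ t, a ≤ t → t ≤ b → D0 ≤ 2 * Dm (K t) := by
    intro t h1 h2
    have h3 := abs_le.mp (hIdiff' t h1 h2)
    have h4 := hI t
    have h5 := hI t0
    have h6 := hhid t0 ht0a ht0b
    have h7 := hh0 t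
    rw [← hD0def] at h5 h6
    linarith [h3.1]
  have hLLt : ∀ t, a ≤ t → t ≤ b → LL D0 ≤ 2 * LL (Dm (K t)) := fun t h1 h2 =>
    LL_le_two hD00 hD01 (hD0 t h1 h2) (hD1 t) (hDge t h1 h2)
  have hfu : ∀ t u, a ≤ t → t ≤ b → a ≤ u → u ≤ b →
      ∫ x, f u x ∂(stdGaussian E) ≤ 4 * Dm (K t) := by
    intro t u h1 h2 h3 h4
    have h5 := hI u
    have h6 := hh0 u
    have h7 := hDle u h3 h4
    have h8 := hDge t h1 h2
    linarith
  -- the gains at scale `s`
  have hscale : ∀ k : ℕ, ∀ s : ℝ, 0 < s → 1 / s ≤ 2 ^ 16 * 2 ^ k → 4 / s ≤ 2 ^ 18 * 2 ^ k := by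
    intro k s hs h1
    have : 4 / s = 4 * (1 / s) := by ring
    rw [this]
    calc 4 * (1 / s) ≤ 4 * (2 ^ 16 * 2 ^ k) := mul_le_mul_of_nonneg_left h1 (by norm_num)
      _ = _ := by ring
  have hCt : ∀ t, a ≤ t → t ≤ b → C ≤ 2 * (c / 10 ^ 6) * (N * LL (Dm (K t))) := by
    intro t h1 h2
    calc C = c / 10 ^ 6 * N * LL D0 := by rw [hC]; ring
      _ ≤ c / 10 ^ 6 * N * (2 * LL (Dm (K t))) :=
        mul_le_mul_of_nonneg_left (hLLt t h1 h2) (by positivity)
      _ = _ := by ring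
  -- the first level
  have key1 : ∀ t, a ≤ t → t ≤ b → ∃ V : Submodule ℝ E, finrank ℝ V ≤ 0 ∧
      ∀ s, 0 < s → s ≤ 1 → 1 / s ≤ 2 ^ 16 * 2 ^ 1 →
        lev (fun p => ‖(ContinuousLinearMap.id ℝ E - V.starProjection) (mom (f t) s p)‖) s
          ≤ 3000 * c * (1 / 2) ^ 1 * LL (Dm (K t)) := by
    intro t h1 h2
    obtain ⟨V, hV⟩ := Vale.Agent.P262.H274.pivot_adm v hN0 hN1 le_rfl hab.le
      (fun hs => hS ⟨1, le_rfl, hs⟩)
    refine ⟨V, by have := hV.1; omega, fun s hs hs1 hss => ?_⟩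
    apply level_bound' hf hN0 hB le_rfl le_rfl le_rfl h1 h2 hV (hD0 t h1 h2) (hD1 t) hc0 hc1'
      (hNc t h1 h2) (hfu t b h1 h2 hab.le le_rfl) hs hs1
    have h3 := hCt t h1 h2
    have h4 := hscale 1 s hs hss
    have hLLp : 0 < LL (Dm (K t)) := LL_pos (hD0 t h1 h2) (hD1 t)
    have hG0 : 0 ≤ Gam g a b := Finset.sum_nonneg fun r hr => by
      rw [Finset.mem_Ico] at hr; exact hg0 r hr.1 hr.2
    calc 4 / s * Gam g a b ≤ 2 ^ 18 * 2 ^ 1 * (2 * (c / 10 ^ 6) * (N * LL (Dm (K t)))) :=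
          mul_le_mul h4 (hΓC.trans h3) hG0 (by norm_num)
      _ = (2 ^ 20 / 10 ^ 6) * (c * (N * LL (Dm (K t)))) := by ring
      _ ≤ 2 * (c * (N * LL (Dm (K t)))) := mul_le_mul_of_nonneg_right (by norm_num) (by positivity)
      _ = _ := by ring
  -- truncated gains
  set g' : ℕ → ℝ := fun t => if a ≤ t ∧ t < b then g t else 0 with hg'
  have hg'0 : ∀ t, 0 ≤ g' t := by
    intro t
    simp only [hg']
    split_ifs with h1
    · exact hg0 t h1.1 h1.2
    · exact le_rfl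
  have hg'G : ∀ l u, a ≤ l → u ≤ b → Gam g' l u = Gam g l u := by
    intro l u h1 h2
    unfold Gam
    apply Finset.sum_congr rfl
    intro t ht
    rw [Finset.mem_Ico] at ht
    simp only [hg']
    rw [if_pos ⟨by omega, by omega⟩]
  have hcc : Gam g' a b ≤ C * Cost (Slow v N) ρ a b := by
    rw [hg'G a b le_rfl le_rfl]; exact hlt.le
  obtain ⟨l, u, h1, h2, t, h3⟩ := Vale.Agent.P262.H274.deterministic_half_adm v hN0 hN1 hρ0
    (by linarith) hg'0 hab hS hcc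
  -- the common time
  obtain ⟨t', ht'a, ht'b, ht'⟩ : ∃ t', a ≤ t' ∧ t' ≤ b ∧ ∀ k, k + 1 ≤ finrank ℝ E →
      l k ≤ t' ∧ t' < u k := by
    rcases Nat.eq_zero_or_pos (finrank ℝ E) with h | h
    · exact ⟨a, le_rfl, hab.le, fun k hk => by omega⟩
    · have h4 := h3 0 (by omega)
      have h5 := h1 0
      exact ⟨t, by omega, by omega, h3⟩
  refine ⟨t', ht'a, ht'b, fun k hk => ?_⟩
  rcases Nat.lt_or_ge k 2 with hk2 | hk2
  · have : k = 1 := by omega
    subst this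
    exact key1 t' ht'a ht'b
  rcases Nat.lt_or_ge k (finrank ℝ E) with hkm | hkm
  · obtain ⟨h4, h5, V, hV⟩ := h2 k hk (by omega)
    have h6 := h1 k
    have h7 := ht' k (by omega)
    refine ⟨V, by have := hV.1; omega, fun s hs hs1 hss => ?_⟩
    have hla : a ≤ l k := h6.1
    have hub : u k ≤ b := h6.2.1
    apply level_bound' hf hN0 hB hk hla hub h7.1 h7.2.le hV
      (hD0 t' ht'a ht'b) (hD1 t') hc0 hc1' (hNc t' ht'a ht'b)
      (hfu t' (u k) ht'a ht'b (by omega) hub) hs hs1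
    have hG0 : 0 ≤ Gam g (l k) (u k) := Finset.sum_nonneg fun r hr => by
      rw [Finset.mem_Ico] at hr; exact hg0 r (by omega) (by omega)
    rw [hg'G (l k) (u k) hla hub] at h5
    have h8 : ρ ^ k ≤ (1 / 324) ^ k := pow_le_pow_left₀ hρ0.le hρ1 k
    have hLLp : 0 < LL (Dm (K t')) := LL_pos (hD0 t' ht'a ht'b) (hD1 t')
    have h9 : Gam g (l k) (u k) ≤ 6 * (c / 10 ^ 6) * (1 / 324) ^ k * (N * LL (Dm (K t'))) := by
      refine h5.trans ?_
      calc 3 * ρ ^ k * C ≤ 3 * (1 / 324) ^ k * C := by gcongr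
        _ ≤ 3 * (1 / 324) ^ k * (2 * (c / 10 ^ 6) * (N * LL (Dm (K t')))) :=
          mul_le_mul_of_nonneg_left (hCt t' ht'a ht'b) (by positivity)
        _ = _ := by ring
    have e9 : (2:ℝ) ^ k * (1 / 324) ^ k = (1 / 162) ^ k := by rw [← mul_pow]; norm_num
    calc 4 / s * Gam g (l k) (u k)
        ≤ 2 ^ 18 * 2 ^ k * (6 * (c / 10 ^ 6) * (1 / 324) ^ k * (N * LL (Dm (K t')))) :=
          mul_le_mul (hscale k s hs hss) h9 hG0 (by positivity)
      _ = (6 * 2 ^ 18 / 10 ^ 6) * (c * (2 ^ k * (1 / 324) ^ k) * (N * LL (Dm (K t')))) := by ring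
      _ = (6 * 2 ^ 18 / 10 ^ 6) * (c * (1 / 162) ^ k * (N * LL (Dm (K t')))) := by rw [e9]
      _ ≤ 324 * (c * (1 / 162) ^ k * (N * LL (Dm (K t')))) :=
        mul_le_mul_of_nonneg_right (by norm_num) (by positivity)
      _ = _ := by ring
  · refine ⟨⊤, by rw [finrank_top]; omega, fun s hs hs1 _ => ?_⟩
    have hLLp : 0 < LL (Dm (K t')) := LL_pos (hD0 t' ht'a ht'b) (hD1 t')
    have : ∀ p, ‖(ContinuousLinearMap.id ℝ E - (⊤ : Submodule ℝ E).starProjection)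
        (mom (f t') s p)‖ = 0 := by
      intro p
      rw [Submodule.starProjection_top]; simp
    have e : lev (fun p => ‖(ContinuousLinearMap.id ℝ E - (⊤ : Submodule ℝ E).starProjection)
        (mom (f t') s p)‖) s = 0 := by
      unfold lev
      simp only [this]
      simp
    rw [e]; positivity

lemma scale_kk (j : ℕ) : 1 / sc j ≤ 2 ^ 16 * 2 ^ (kk j) := by
  have e : 1 / sc j = 2 ^ j := by unfold sc; rw [one_div_pow, one_div_one_div]
  rw [e, ← pow_add]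
  apply pow_le_pow_right₀ (by norm_num)
  unfold kk
  split_ifs <;> omega

/-- **GAIN-COST LEMMA (visible fields, healthy labels), soft version.** -/
theorem gain_cost' {f h : ℕ → E → ℝ} (hf : ∀ t, UI (f t)) (hh : ∀ t, UI (h t)) {K : ℕ → Set E}
    (hK : ∀ t, Convex ℝ (K t)) (hKm : ∀ t, MeasurableSet (K t))
    (hfh : ∀ t x, f t x + h t x = (K t)ᶜ.indicator (fun _ => (1:ℝ)) x)
    {v : ℕ → E} {g : ℕ → ℝ} {N ρ : ℝ} (hN0 : 0 < N) (hN1 : N ≤ 1)
    (hρ0 : 0 < ρ) (hρ1 : ρ ≤ 1 / 324) {a b : ℕ} (hab : a < b)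
    (hB : ScaleBds f v g N a b)
    (hD0 : ∀ t, a ≤ t → t ≤ b → 0 < (stdGaussian E).real (K t)ᶜ)
    (hD1 : ∀ t, a ≤ t → t ≤ b → (stdGaussian E).real (K t)ᶜ ≤ 7 / 8)
    (hNc : ∀ t, a ≤ t → t ≤ b →
      N * Real.sqrt (1 - Real.log ((stdGaussian E).real (K t)ᶜ)) ≤ 1 / 10 ^ 9)
    (hhid : ∀ t, a ≤ t → t ≤ b →
      ∫ x, h t x ∂(stdGaussian E) ≤ 1 / 10 ^ 10 * (stdGaussian E).real (K t)ᶜ)
    (hS : ¬ Slow v N 1 a b) {t0 : ℕ} (ht0a : a ≤ t0) (ht0b : t0 ≤ b) :
    1 / 10 ^ 15 * (N * LL ((stdGaussian E).real (K t0)ᶜ)) * Cost (Slow v N) ρ a b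
      ≤ Gam g a b := by
  by_contra hlt
  rw [not_le] at hlt
  obtain ⟨t, hta, htb, hlev⟩ := levels' (c := 1 / 10 ^ 9) hf hh hKm hfh hN0 hN1 (by norm_num)
    (by norm_num) hρ0 hρ1 hab hB hD0 hNc (fun t h1 h2 => by
      have := hhid t h1 h2
      have := hD0 t h1 h2
      unfold Dm
      linarith) hS ht0a ht0b (by
      have e : (1:ℝ) / 10 ^ 9 / 10 ^ 6 = 1 / 10 ^ 15 := by norm_num
      rw [e]; exact hlt)
  choose V hV1 hV2 using hlev
  set D := Dm (K t) with hD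
  have hDpos : 0 < D := hD0 t hta htb
  have hD78 : D ≤ 7 / 8 := hD1 t hta htb
  have hD1' : D ≤ 1 := by linarith
  have hLL0 : 0 < LL D := LL_pos hDpos hD1'
  set W : ℕ → Submodule ℝ E := fun j => V (kk j) (one_le_kk j) with hW
  have hsc : ∀ j, sc j = (1 / 2 : ℝ) ^ j := fun j => rfl
  -- sum over the scales
  have hsum : ∀ n, ∑ j ∈ Finset.range n,
      (lev (fun p => ‖(ContinuousLinearMap.id ℝ E - (W (j + 1)).starProjection)
          (mom (f t) (sc (j + 1)) p)‖) (sc (j + 1))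
        + 2 * lev (fun p => ‖(W (j + 1)).starProjection
          (mom (fun x => f t x + h t x) (sc (j + 1)) p)‖) (sc (j + 1)))
      ≤ 6 / 10 ^ 4 * LL D := by
    intro n
    refine le_trans (Finset.sum_le_sum (g := fun j => Bj (j + 1) * LL D) fun j _ => ?_) ?_
    · have h1 := hV2 (kk (j + 1)) (one_le_kk _) (sc (j + 1)) (sc_pos _) (sc_le_one _)
        (scale_kk (j + 1))
      have h2 := lev_few (hK t) (hKm t) (W (j + 1)) (sc_pos (j + 1)) (sc_le_one (j + 1))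
      have e : (fun x => f t x + h t x) = (K t)ᶜ.indicator (fun _ => (1:ℝ)) := funext (hfh t)
      rw [e]
      have h3 : (finrank ℝ (W (j + 1)) : ℝ) ≤ 2 * ((kk (j + 1) : ℝ) - 1) := by
        have h4 := hV1 (kk (j + 1)) (one_le_kk _)
        have h5 := one_le_kk (j + 1)
        have h6 : (finrank ℝ (W (j + 1)) : ℝ) ≤ ((2 * (kk (j + 1) - 1) : ℕ) : ℝ) := by
          exact_mod_cast h4
        rw [Nat.cast_mul, Nat.cast_sub h5] at h6
        simpa using h6
      have h7 : Ip (D / 2) ≤ 2 * LL D := Ip_le_LL' (by linarith) (by linarith) hD1'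
      have h8 : 0 ≤ Ip (D / 2) := Ip_nonneg _
      have h9 : 0 < sc (j + 1) := sc_pos _
      have h10 : lev (fun p => ‖(W (j + 1)).starProjection
          (mom ((K t)ᶜ.indicator fun _ => (1:ℝ)) (sc (j + 1)) p)‖) (sc (j + 1))
          ≤ 2 * ((kk (j + 1) : ℝ) - 1) * (2 * sc (j + 1) * (2 * LL D)) := by
        refine h2.trans ?_
        exact mul_le_mul h3 (mul_le_mul_of_nonneg_left h7 (by positivity)) (by positivity)
          (le_trans (Nat.cast_nonneg _) h3)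
      have e2 : Bj (j + 1) * LL D = 3000 * (1 / 10 ^ 9) * (1 / 2) ^ (kk (j + 1)) * LL D
          + 2 * (2 * ((kk (j + 1) : ℝ) - 1) * (2 * sc (j + 1) * (2 * LL D))) := by
        rw [hsc]; unfold Bj; ring
      rw [e2]
      linarith
    · rw [← Finset.sum_mul]
      exact mul_le_mul_of_nonneg_right (Bj_sum n) hLL0.le
  have hfh1 : ∀ x, f t x + h t x ≤ 1 := by
    intro x; rw [hfh]
    exact indicator_le_self' (fun _ _ => zero_le_one) x |>.trans le_rfl
  have hvis := vis_multiscale (hf t) (hh t) hfh1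
    (fun j => ContinuousLinearMap.id ℝ E - (W j).starProjection) (fun j => (W j).starProjection)
    (fun j x => by simp) (fun j x => by
      have h1 : (ContinuousLinearMap.id ℝ E - (W j).starProjection) x = (W j)ᗮ.starProjection x := by
        rw [Submodule.starProjection_orthogonal]
      rw [h1]
      exact Submodule.norm_starProjection_apply_le _ _)
    (fun j x => Submodule.norm_starProjection_apply_le _ _) hsum
  -- masses
  set I := ∫ x, f t x ∂(stdGaussian E) with hI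
  set H := ∫ x, h t x ∂(stdGaussian E) with hH
  have hIH : I + H = D := by
    rw [hI, hH, ← integral_add ((hf t).integrable _) ((hh t).integrable _)]
    have : (fun x => f t x + h t x) = (K t)ᶜ.indicator (fun _ => (1:ℝ)) := funext (hfh t)
    rw [this, integral_indicator_const _ (hKm t).compl]
    simp [hD, Dm]
  have hH0 : 0 ≤ H := integral_nonneg fun x => (hh t).nonneg x
  have hH1 : H ≤ 1 / 10 ^ 10 * D := hhid t hta htb
  have hIpH : Ip H ≤ 2 / 10 ^ 5 * LL D := by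
    have h1 : Ip H ≤ 2 * LL (1 / 10 ^ 10 * D) := Ip_le_LL' hH0 hH1 (by linarith)
    have h2 : LL (1 / 10 ^ 10 * D) ≤ LL (1 / 10 ^ 10) * LL D :=
      LL_mul_le (by norm_num) (by norm_num) hDpos hD1'
    have h3 : LL (1 / 10 ^ 10) ≤ 1 / 10 ^ 5 := by
      refine (LL_le_sqrt (by norm_num)).trans ?_
      rw [Real.sqrt_le_left (by norm_num)]; norm_num
    have h4 : LL (1 / 10 ^ 10) * LL D ≤ 1 / 10 ^ 5 * LL D := mul_le_mul_of_nonneg_right h3 hLL0.le
    linarith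
  have hIpf : ∫ x, Ip (f t x) ∂(stdGaussian E) ≤ Ip H := by
    have h1 : ∀ x, Ip (f t x) = Ip (h t x) := by
      intro x
      by_cases hx : x ∈ (K t)ᶜ
      · have h2 := hfh t x
        rw [indicator_of_mem hx] at h2
        rw [← Ip_symm, ← h2]; congr 1; ring
      · have h2 := hfh t x
        rw [indicator_of_notMem hx] at h2
        have h3 := (hf t).nonneg x
        have h4 := (hh t).nonneg x
        rw [show f t x = 0 by linarith, show h t x = 0 by linarith]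
    simp only [h1]
    exact Ip_jensen (hh t)
  have hIpI : LL D ≤ 96 * Ip I := by
    have h1 : LL I ≤ 48 * Ip I := LL_le_Ip (by linarith) (by linarith)
    have h2 : 1 / 2 * LL D ≤ LL (1 / 2 * D) := mul_LL_le (by norm_num) (by norm_num) hDpos hD1'
    have h3 : LL (1 / 2 * D) ≤ LL I := LL_mono (by linarith) (by linarith) (by linarith)
    linarith
  linarith

end

end Vale.Agent.P262.H941
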