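import Vale.Agent.P262.H941.Path

/-!
# The support function of the first moments
-/

set_option linter.unusedSectionVars false

namespace Vale.Agent.P262.H941

open MeasureTheory ProbabilityTheory Set Filter Topology
open scoped RealInnerProductSpace
open Vale.Agent.P262.H847 Vale.Agent.P262.H912

variable {E : Type*} [NormedAddCommGroup E] [InnerProductSpace ℝ E] [FiniteDimensional ℝ E]
  [MeasurableSpace E] [BorelSpace E]

/-! ### Elementary tail bounds -/

lemma abs_le_tail {T x : ℝ} (hT : 1 ≤ T) :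
    |x| ≤ 2 * T + 8 * Real.exp (-(T ^ 2 / 2)) * Real.exp (1 / 2 * x ^ 2 / 2) := by
  have hp : 0 < Real.exp (-(T ^ 2 / 2)) * Real.exp (1 / 2 * x ^ 2 / 2) := by positivity
  rcases le_or_gt |x| (2 * T) with h | h
  · nlinarith
  · have h1 : 4 * T ^ 2 ≤ x ^ 2 := by rw [← sq_abs x]; nlinarith
    have h2 : Real.exp (x ^ 2 / 8) ≤ Real.exp (-(T ^ 2 / 2)) * Real.exp (1 / 2 * x ^ 2 / 2) := by
      rw [← Real.exp_add]
      apply Real.exp_le_exp.mpr
      nlinarith
    have h3 : |x| ≤ 8 * Real.exp (x ^ 2 / 8) := by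
      have := Real.add_one_le_exp (x ^ 2 / 8)
      nlinarith [sq_abs x, sq_nonneg (|x| - 1)]
    nlinarith

lemma cube_le_tail {T x : ℝ} (hT : 1 ≤ T) :
    |x| ^ 3 ≤ 8 * T ^ 3 + 64 * Real.exp (-(T ^ 2 / 2)) * Real.exp (1 / 2 * x ^ 2 / 2) := by
  have hp : 0 < Real.exp (-(T ^ 2 / 2)) * Real.exp (1 / 2 * x ^ 2 / 2) := by positivity
  rcases le_or_gt |x| (2 * T) with h | h
  · have h1 : |x| ^ 3 ≤ (2 * T) ^ 3 := pow_le_pow_left₀ (abs_nonneg x) h 3
    nlinarith
  · have h1 : 4 * T ^ 2 ≤ x ^ 2 := by rw [← sq_abs x]; nlinarith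
    have h2 : Real.exp (x ^ 2 / 8) ≤ Real.exp (-(T ^ 2 / 2)) * Real.exp (1 / 2 * x ^ 2 / 2) := by
      rw [← Real.exp_add]
      apply Real.exp_le_exp.mpr
      nlinarith
    have h3 : |x| ^ 3 ≤ 64 * Real.exp (x ^ 2 / 8) := by
      have h4 := Real.quadratic_le_exp_of_nonneg (show 0 ≤ x ^ 2 / 8 by positivity)
      have h5 : |x| ^ 4 = x ^ 4 := by
        rw [show |x| ^ 4 = (|x| ^ 2) ^ 2 by ring, sq_abs]; ring
      have h6 : 2 ≤ |x| := by linarith
      have h7 : |x| ^ 3 * 2 ≤ |x| ^ 4 := by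
        have : |x| ^ 4 = |x| ^ 3 * |x| := by ring
        rw [this]
        exact mul_le_mul_of_nonneg_left h6 (by positivity)
      nlinarith
    have hT3 : 0 ≤ 8 * T ^ 3 := by positivity
    nlinarith

lemma integral_exp_sq_line : ∫ t : ℝ, Real.exp (1 / 2 * t ^ 2 / 2) ∂g1 = Real.sqrt 2 := by
  rw [integral_g1_eq]
  have e : ∀ t : ℝ, phi t * Real.exp (1 / 2 * t ^ 2 / 2)
      = (Real.sqrt (2 * Real.pi))⁻¹ * Real.exp (-(1 / 4) * t ^ 2) := by
    intro t
    rw [phi_eq, mul_assoc, ← Real.exp_add]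
    congr 2
    ring
  simp_rw [e]
  rw [integral_const_mul, integral_gaussian]
  have h1 : Real.pi / (1 / 4) = 2 * (2 * Real.pi) := by ring
  have h2 : Real.sqrt (2 * (2 * Real.pi)) = Real.sqrt 2 * Real.sqrt (2 * Real.pi) :=
    Real.sqrt_mul (by norm_num) _
  have : Real.sqrt (2 * Real.pi) ≠ 0 := by positivity
  rw [h1, h2, mul_left_comm, inv_mul_cancel₀ this, mul_one]

lemma integral_exp_sq_unit {b : E} (hb : ‖b‖ = 1) :
    ∫ g, Real.exp (1 / 2 * ⟪b, g⟫ ^ 2 / 2) ∂(stdGaussian E) ≤ 3 / 2 := by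
  have h1 : ∫ g, Real.exp (1 / 2 * ⟪b, g⟫ ^ 2 / 2) ∂(stdGaussian E)
      = ∫ t : ℝ, Real.exp (1 / 2 * t ^ 2 / 2) ∂g1 := by
    rw [← map_inner_unit hb, integral_map (by fun_prop) (by fun_prop)]
  rw [h1, integral_exp_sq_line, Real.sqrt_le_left (by norm_num)]
  norm_num

lemma integrable_exp_sq_unit {b : E} (hb : ‖b‖ = 1) :
    Integrable (fun g => Real.exp (1 / 2 * ⟪b, g⟫ ^ 2 / 2)) (stdGaussian E) := by
  refine (integrable_exp_sq (E := E) (θ := 1 / 2) (by norm_num)).mono' (by fun_prop)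
    (Eventually.of_forall fun g => ?_)
  rw [Real.norm_eq_abs, abs_of_pos (Real.exp_pos _)]
  apply Real.exp_le_exp.mpr
  have h1 : |⟪b, g⟫| ≤ ‖g‖ := by
    have := abs_real_inner_le_norm b g
    rwa [hb, one_mul] at this
  have h2 : ⟪b, g⟫ ^ 2 ≤ ‖g‖ ^ 2 := by
    rw [← sq_abs]
    exact pow_le_pow_left₀ (abs_nonneg _) h1 2
  linarith

lemma integrable_cube (w : E) : Integrable (fun g : E => |⟪g, w⟫| ^ 3) (stdGaussian E) := by
  rcases eq_or_ne w 0 with rfl | hw
  · simp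
  have hw0 : 0 < ‖w‖ := norm_pos_iff.mpr hw
  set b := (‖w‖⁻¹) • w with hb
  have hb1 : ‖b‖ = 1 := by rw [hb, norm_smul, norm_inv, norm_norm, inv_mul_cancel₀ hw0.ne']
  have hwb : w = ‖w‖ • b := by rw [hb, smul_smul, mul_inv_cancel₀ hw0.ne', one_smul]
  refine (((integrable_const (8 * (1:ℝ) ^ 3)).add ((integrable_exp_sq_unit hb1).const_mul
    (64 * Real.exp (-((1:ℝ) ^ 2 / 2))))).const_mul (‖w‖ ^ 3)).mono' (by fun_prop)
    (Eventually.of_forall fun g => ?_)
  rw [Real.norm_eq_abs, abs_of_nonneg (by positivity)]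
  have h1 : |⟪g, w⟫| = ‖w‖ * |⟪b, g⟫| := by
    conv_lhs => rw [hwb]
    rw [real_inner_smul_right, abs_mul, abs_of_pos hw0, real_inner_comm]
  rw [h1, mul_pow]
  exact mul_le_mul_of_nonneg_left (cube_le_tail le_rfl) (by positivity)

/-- the cubic term -/
lemma cube_bound {f : E → ℝ} (hf : UI f) {w : E} {N T : ℝ} (hw : ‖w‖ ≤ N) (hT : 1 ≤ T) :
    ∫ g, f g * |⟪g, w⟫| ^ 3 ∂(stdGaussian E)
      ≤ N ^ 3 * (8 * T ^ 3 * ∫ g, f g ∂(stdGaussian E) + 96 * Real.exp (-(T ^ 2 / 2))) := by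
  have hN : 0 ≤ N := (norm_nonneg w).trans hw
  have hf0 : 0 ≤ ∫ g, f g ∂(stdGaussian E) := integral_nonneg hf.nonneg
  rcases eq_or_ne w 0 with rfl | hw0'
  · simp only [inner_zero_right, abs_zero, ne_eq, OfNat.ofNat_ne_zero, not_false_eq_true, zero_pow,
      mul_zero, integral_zero]
    positivity
  have hw0 : 0 < ‖w‖ := norm_pos_iff.mpr hw0'
  set b := (‖w‖⁻¹) • w with hb
  have hb1 : ‖b‖ = 1 := by rw [hb, norm_smul, norm_inv, norm_norm, inv_mul_cancel₀ hw0.ne']
  have hwb : w = ‖w‖ • b := by rw [hb, smul_smul, mul_inv_cancel₀ hw0.ne', one_smul]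
  have h1 : ∀ g, |⟪g, w⟫| = ‖w‖ * |⟪b, g⟫| := by
    intro g
    conv_lhs => rw [hwb]
    rw [real_inner_smul_right, abs_mul, abs_of_pos hw0, real_inner_comm]
  have hi1 := (hf.integrable (stdGaussian E)).const_mul (8 * T ^ 3)
  have hi2 := (integrable_exp_sq_unit hb1).const_mul (64 * Real.exp (-(T ^ 2 / 2)))
  have hic : Integrable (fun g => f g * |⟪g, w⟫| ^ 3) (stdGaussian E) := by
    refine (integrable_cube w).mono' (hf.meas.mul (by fun_prop)).aestronglyMeasurable
      (Eventually.of_forall fun g => ?_)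
    rw [Real.norm_eq_abs, abs_mul, abs_of_nonneg (hf.nonneg g), abs_of_nonneg (by positivity)]
    exact mul_le_of_le_one_left (by positivity) (hf.le_one g)
  have h2 : ∫ g, f g * |⟪g, w⟫| ^ 3 ∂(stdGaussian E)
      ≤ ∫ g, N ^ 3 * (8 * T ^ 3 * f g
        + 64 * Real.exp (-(T ^ 2 / 2)) * Real.exp (1 / 2 * ⟪b, g⟫ ^ 2 / 2)) ∂(stdGaussian E) := by
    apply integral_mono hic ((hi1.add hi2).const_mul _)
    intro g
    show f g * |⟪g, w⟫| ^ 3 ≤ N ^ 3 * (8 * T ^ 3 * f g
        + 64 * Real.exp (-(T ^ 2 / 2)) * Real.exp (1 / 2 * ⟪b, g⟫ ^ 2 / 2))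
    rw [h1, mul_pow]
    have h3 := cube_le_tail (x := ⟪b, g⟫) hT
    have h4 := hf.nonneg g
    have h5 := hf.le_one g
    have h6 : ‖w‖ ^ 3 ≤ N ^ 3 := pow_le_pow_left₀ hw0.le hw 3
    have h7 : 0 ≤ 64 * Real.exp (-(T ^ 2 / 2)) * Real.exp (1 / 2 * ⟪b, g⟫ ^ 2 / 2) := by
      positivity
    have h8 : f g * |⟪b, g⟫| ^ 3 ≤ 8 * T ^ 3 * f g
        + 64 * Real.exp (-(T ^ 2 / 2)) * Real.exp (1 / 2 * ⟪b, g⟫ ^ 2 / 2) := by
      calc f g * |⟪b, g⟫| ^ 3 ≤ f g * (8 * T ^ 3
            + 64 * Real.exp (-(T ^ 2 / 2)) * Real.exp (1 / 2 * ⟪b, g⟫ ^ 2 / 2)) :=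
            mul_le_mul_of_nonneg_left h3 h4
        _ ≤ _ := by nlinarith
    calc f g * (‖w‖ ^ 3 * |⟪b, g⟫| ^ 3) = ‖w‖ ^ 3 * (f g * |⟪b, g⟫| ^ 3) := by ring
      _ ≤ N ^ 3 * (8 * T ^ 3 * f g
        + 64 * Real.exp (-(T ^ 2 / 2)) * Real.exp (1 / 2 * ⟪b, g⟫ ^ 2 / 2)) :=
        mul_le_mul h6 h8 (by positivity) (by positivity)
  refine h2.trans ?_
  rw [integral_const_mul, integral_add hi1 hi2, integral_const_mul, integral_const_mul]
  apply mul_le_mul_of_nonneg_left _ (by positivity)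
  have h9 := integral_exp_sq_unit hb1
  have h10 : 0 < Real.exp (-(T ^ 2 / 2)) := Real.exp_pos _
  nlinarith

/-! ### Admissible coefficients -/

/-- coefficients with entries in `[-1,1]`, all intermediate sums in the unit ball, last one in the ball
of radius `N` -/
structure Adm (v : ℕ → E) (n : ℕ) (N : ℝ) (κ : ℕ → ℝ) : Prop where
  abs_le : ∀ t, |κ t| ≤ 1
  partial_le : ∀ t ≤ n, ‖∑ r ∈ Finset.range t, κ r • v r‖ ≤ 1
  final_le : ‖∑ r ∈ Finset.range n, κ r • v r‖ ≤ N

lemma Adm.zero {v : ℕ → E} {n : ℕ} {N : ℝ} (hN : 0 ≤ N) : Adm v n N (fun _ => 0) :=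
  ⟨fun _ => by simp, fun _ _ => by simp, by simpa using hN⟩

/-- measurable selection of a maximiser among finitely many coefficients -/
lemma exists_selection {v : ℕ → E} {n : ℕ} {N : ℝ} {M : E → E} (hM : Measurable M)
    (L : List (ℕ → ℝ)) (hL : ∀ κ ∈ L, Adm v n N κ) (hN : 0 ≤ N) :
    ∃ κ : ℕ → E → ℝ, (∀ t, Measurable (κ t)) ∧ (∀ y, Adm v n N (fun t => κ t y)) ∧
      (∀ y, 0 ≤ ⟪∑ r ∈ Finset.range n, κ r y • v r, M y⟫) ∧
      ∀ κ' ∈ L, ∀ y, ⟪∑ r ∈ Finset.range n, κ' r • v r, M y⟫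
        ≤ ⟪∑ r ∈ Finset.range n, κ r y • v r, M y⟫ := by
  induction L with
  | nil =>
    refine ⟨fun _ _ => 0, fun _ => measurable_const, fun _ => Adm.zero hN, fun y => by simp,
      fun κ' h => by simp at h⟩
  | cons κ0 L ih =>
    obtain ⟨κ, h1, h2, h3, h4⟩ := ih (fun κ hκ => hL κ (List.mem_cons_of_mem _ hκ))
    set A : Set E := {y | ⟪∑ r ∈ Finset.range n, κ r y • v r, M y⟫
      ≤ ⟪∑ r ∈ Finset.range n, κ0 r • v r, M y⟫} with hA
    have hwm : Measurable (fun y => ∑ r ∈ Finset.range n, κ r y • v r) :=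
      Finset.measurable_sum _ fun r _ => (h1 r).smul_const (v r)
    have hAm : MeasurableSet A := measurableSet_le (hwm.inner hM) (hM.const_inner)
    classical
    refine ⟨fun t y => if y ∈ A then κ0 t else κ t y, fun t => ?_, fun y => ?_, fun y => ?_, ?_⟩
    · exact Measurable.ite hAm measurable_const (h1 t)
    · by_cases hy : y ∈ A
      · simp only [hy, if_true]
        exact hL κ0 List.mem_cons_self
      · simp only [hy, if_false]
        exact h2 y
    · by_cases hy : y ∈ A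
      · simp only [hy, if_true]
        exact (h3 y).trans hy
      · simp only [hy, if_false]
        exact h3 y
    · intro κ' hκ' y
      rcases List.mem_cons.mp hκ' with rfl | hκ'
      · by_cases hy : y ∈ A
        · simp only [hy, if_true]; exact le_rfl
        · simp only [hy, if_false]
          exact (not_le.mp hy).le
      · by_cases hy : y ∈ A
        · simp only [hy, if_true]
          exact (h4 κ' hκ' y).trans hy
        · simp only [hy, if_false]
          exact h4 κ' hκ' y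

/-- **Support function bound**, for a measurable admissible selection. -/
theorem supp_sel {e : ℕ → E → ℝ} (he : ∀ t, UI (e t)) {v : ℕ → E} {F : ℕ → ℝ} {c s : ℝ}
    (hcs : c ^ 2 + s ^ 2 = 1) (hs : 0 < s) {κ : ℕ → E → ℝ} (hκm : ∀ t, Measurable (κ t))
    (n : ℕ) (hF : ∀ t < n, FluxLe (e t) (v t) (F t)) {N : ℝ}
    (hadm : ∀ y, Adm v n N (fun t => κ t y))
    (hpos : ∀ y, 0 ≤ ⟪∑ r ∈ Finset.range n, κ r y • v r, mom (e n) s (c • y)⟫)
    {ε T : ℝ} (hε : 0 < ε) (hε1 : ε ≤ 1) (hT : 1 ≤ T) :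
    ε * ∫ y, ⟪∑ r ∈ Finset.range n, κ r y • v r, mom (e n) s (c • y)⟫ ∂(stdGaussian E)
      ≤ Real.exp (1 / 2) * ∑ t ∈ Finset.range n,
          (s * F t + ∫ x, |e (t + 1) x - e t x| ∂(stdGaussian E))
        + Real.exp (1 / 2) * (ε ^ 3 / 6 * (N ^ 3 * (8 * T ^ 3 * ∫ x, e n x ∂(stdGaussian E)
            + 96 * Real.exp (-(T ^ 2 / 2))))) := by
  set w : E → E := fun y => ∑ r ∈ Finset.range n, κ r y • v r with hw
  have hN : 0 ≤ N := (norm_nonneg _).trans (hadm 0).final_le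
  have hwm : Measurable w := Finset.measurable_sum _ fun r _ => (hκm r).smul_const (v r)
  have hw1 : ∀ y, ‖w y‖ ≤ 1 := fun y => (hadm y).partial_le n le_rfl
  have hwN : ∀ y, ‖w y‖ ≤ N := fun y => (hadm y).final_le
  have hpath := path_bound he hcs hs (v := v) (F := F) (κ := fun t y => ε * κ t y)
    (fun t => (hκm t).const_mul ε) (fun t y => by
      rw [abs_mul, abs_of_pos hε]
      exact mul_le_one₀ hε1 (abs_nonneg _) ((hadm y).abs_le t)) n hF
    (fun t ht y => by
      have h1 : ∑ r ∈ Finset.range t, (ε * κ r y) • v r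
          = ε • ∑ r ∈ Finset.range t, κ r y • v r := by
        rw [Finset.smul_sum]
        exact Finset.sum_congr rfl fun r _ => by rw [mul_smul]
      rw [h1, norm_smul, Real.norm_eq_abs, abs_of_pos hε]
      exact mul_le_one₀ hε1 (norm_nonneg _) ((hadm y).partial_le t ht))
  have hwe : (fun y => ∑ r ∈ Finset.range n, (ε * κ r y) • v r) = fun y => ε • w y := by
    funext y
    rw [hw, Finset.smul_sum]
    exact Finset.sum_congr rfl fun r _ => by rw [mul_smul]
  rw [hwe] at hpath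
  -- the mode from below
  have hεw : ∀ y, ‖ε • w y‖ ≤ 1 := fun y => by
    rw [norm_smul, Real.norm_eq_abs, abs_of_pos hε]
    exact mul_le_one₀ hε1 (norm_nonneg _) (hw1 y)
  have hmi := integrable_mode (he n) (w := fun y => ε • w y) (hwm.const_smul ε) hεw c s
  have hfy : ∀ y, UI (fun g => e n (c • y + s • g)) := fun y => UI.comp (he n) (by fun_prop)
  have hD : ∫ y, ∫ g, e n (c • y + s • g) ∂(stdGaussian E) ∂(stdGaussian E)
      = ∫ x, e n x ∂(stdGaussian E) := by
    have := integral_add_smul' (a := c) (b := s) (c := 1) (by rw [hcs]; norm_num) (he n).meas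
      (B := 1) (fun x => by rw [abs_of_nonneg ((he n).nonneg x)]; exact (he n).le_one x)
    simpa using this
  have hDm : UI (fun y => ∫ g, e n (c • y + s • g) ∂(stdGaussian E)) :=
    UI.integral (E := E) (F := E) (f := fun p : E × E => e n (c • p.1 + s • p.2))
      (UI.comp (he n) (by fun_prop)) (stdGaussian E)
  set K3 : ℝ := Real.exp (1 / 2) * (ε ^ 3 / 6) * N ^ 3 with hK3
  have hK30 : 0 ≤ K3 := by positivity
  have hpt : ∀ y, ε * ⟪w y, mom (e n) s (c • y)⟫
      - K3 * (8 * T ^ 3 * ∫ g, e n (c • y + s • g) ∂(stdGaussian E)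
          + 96 * Real.exp (-(T ^ 2 / 2)))
      ≤ ∫ g, e n (c • y + s • g) * (Real.sin ⟪g, ε • w y⟫ * Real.exp (‖ε • w y‖ ^ 2 / 2))
        ∂(stdGaussian E) := by
    intro y
    set Z := Real.exp (‖ε • w y‖ ^ 2 / 2) with hZ
    have hZ1 : 1 ≤ Z := Real.one_le_exp (by positivity)
    have hZ2 : Z ≤ Real.exp (1 / 2) := by
      apply Real.exp_le_exp.mpr
      have := hεw y
      have := norm_nonneg (ε • w y)
      nlinarith
    have hin : ⟪w y, mom (e n) s (c • y)⟫ = ∫ g, e n (c • y + s • g) * ⟪g, w y⟫ ∂(stdGaussian E) := by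
      have h1 := (innerSL ℝ (w y)).integral_comp_comm (UI.integrable_smul (hfy y))
      simp only [innerSL_apply_apply] at h1
      rw [mom, ← h1]
      congr 1; funext g
      rw [real_inner_smul_right, real_inner_comm]
    have hi1 : Integrable (fun g => e n (c • y + s • g) * ⟪g, w y⟫) (stdGaussian E) := by
      refine (integrable_inner (w y)).norm.mono' ((hfy y).meas.mul (by fun_prop)).aestronglyMeasurable
        (Eventually.of_forall fun g => ?_)
      rw [norm_mul, Real.norm_eq_abs, abs_of_nonneg ((hfy y).nonneg g), real_inner_comm]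
      exact mul_le_of_le_one_left (norm_nonneg _) ((hfy y).le_one g)
    have hi3 : Integrable (fun g => e n (c • y + s • g) * |⟪g, w y⟫| ^ 3) (stdGaussian E) := by
      refine (integrable_cube (w y)).mono' ((hfy y).meas.mul (by fun_prop)).aestronglyMeasurable
        (Eventually.of_forall fun g => ?_)
      rw [Real.norm_eq_abs, abs_mul, abs_of_nonneg ((hfy y).nonneg g), abs_of_nonneg (by positivity)]
      exact mul_le_of_le_one_left (by positivity) ((hfy y).le_one g)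
    have his : Integrable (fun g => e n (c • y + s • g) * Real.sin ⟪g, ε • w y⟫)
        (stdGaussian E) := by
      refine Integrable.of_bound ((hfy y).meas.mul (by fun_prop)).aestronglyMeasurable 1
        (Eventually.of_forall fun g => ?_)
      rw [norm_mul, Real.norm_eq_abs, abs_of_nonneg ((hfy y).nonneg g), Real.norm_eq_abs]
      exact mul_le_one₀ ((hfy y).le_one g) (abs_nonneg _) (Real.abs_sin_le_one _)
    have h1 : ε * ∫ g, e n (c • y + s • g) * ⟪g, w y⟫ ∂(stdGaussian E)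
        - ε ^ 3 / 6 * ∫ g, e n (c • y + s • g) * |⟪g, w y⟫| ^ 3 ∂(stdGaussian E)
        ≤ ∫ g, e n (c • y + s • g) * Real.sin ⟪g, ε • w y⟫ ∂(stdGaussian E) := by
      rw [← integral_const_mul, ← integral_const_mul, ← integral_sub (hi1.const_mul ε)
        (hi3.const_mul _)]
      apply integral_mono ((hi1.const_mul ε).sub (hi3.const_mul _)) his
      intro g
      show ε * (e n (c • y + s • g) * ⟪g, w y⟫)
          - ε ^ 3 / 6 * (e n (c • y + s • g) * |⟪g, w y⟫| ^ 3)
          ≤ e n (c • y + s • g) * Real.sin ⟪g, ε • w y⟫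
      rw [real_inner_smul_right]
      have h2 := (hfy y).nonneg g
      set u := ε * ⟪g, w y⟫ with hu
      have h3 : u - |u| ^ 3 / 6 ≤ Real.sin u := by
        rcases le_total 0 u with h | h
        · rw [abs_of_nonneg h]
          have := Real.sin_ge_sub_cube h
          linarith
        · rw [abs_of_nonpos h]
          have := Real.sin_le (neg_nonneg.mpr h)
          rw [Real.sin_neg] at this
          have h4 : 0 ≤ (-u) ^ 3 := by
            have : 0 ≤ -u := by linarith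
            positivity
          linarith
      have h5 : |u| ^ 3 = ε ^ 3 * |⟪g, w y⟫| ^ 3 := by
        rw [hu, abs_mul, abs_of_pos hε, mul_pow]
      rw [h5] at h3
      have h6 := mul_le_mul_of_nonneg_left h3 h2
      have h7 : ε * (e n (c • y + s • g) * ⟪g, w y⟫)
          - ε ^ 3 / 6 * (e n (c • y + s • g) * |⟪g, w y⟫| ^ 3)
          = e n (c • y + s • g) * (u - ε ^ 3 * |⟪g, w y⟫| ^ 3 / 6) := by rw [hu]; ring
      rw [h7]; exact h6
    have h8 : ∫ g, e n (c • y + s • g) * (Real.sin ⟪g, ε • w y⟫ * Z) ∂(stdGaussian E)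
        = Z * ∫ g, e n (c • y + s • g) * Real.sin ⟪g, ε • w y⟫ ∂(stdGaussian E) := by
      rw [← integral_const_mul]
      congr 1; funext g; ring
    rw [h8]
    have h9 := cube_bound (hfy y) (hwN y) hT
    have hp := hpos y
    rw [← hin] at h1
    have hp' : 0 ≤ ε * ⟪w y, mom (e n) s (c • y)⟫ := mul_nonneg hε.le hp
    set S := ∫ g, e n (c • y + s • g) * Real.sin ⟪g, ε • w y⟫ ∂(stdGaussian E) with hS
    set Q := ∫ g, e n (c • y + s • g) * |⟪g, w y⟫| ^ 3 ∂(stdGaussian E) with hQ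
    have hQ0 : 0 ≤ Q := integral_nonneg fun g => mul_nonneg ((hfy y).nonneg g) (by positivity)
    set a := ε * ⟪w y, mom (e n) s (c • y)⟫ with ha
    -- Z S ≥ Z (a - ε³/6 Q) ≥ a - √e ε³/6 Q
    have h10 : Z * (a - ε ^ 3 / 6 * Q) ≤ Z * S := mul_le_mul_of_nonneg_left h1 (by linarith)
    have h11 : a - Real.exp (1 / 2) * (ε ^ 3 / 6 * Q) ≤ Z * (a - ε ^ 3 / 6 * Q) := by
      have h12 : 0 ≤ ε ^ 3 / 6 * Q := by positivity
      nlinarith [mul_le_mul_of_nonneg_right hZ2 h12, mul_nonneg (sub_nonneg.mpr hZ1) hp']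
    have h13 : Real.exp (1 / 2) * (ε ^ 3 / 6 * Q)
        ≤ K3 * (8 * T ^ 3 * ∫ g, e n (c • y + s • g) ∂(stdGaussian E)
          + 96 * Real.exp (-(T ^ 2 / 2))) := by
      have h14 := mul_le_mul_of_nonneg_left h9 (show 0 ≤ Real.exp (1 / 2) * (ε ^ 3 / 6) by positivity)
      rw [hK3]
      calc Real.exp (1 / 2) * (ε ^ 3 / 6 * Q) = Real.exp (1 / 2) * (ε ^ 3 / 6) * Q := by ring
        _ ≤ _ := h14
        _ = _ := by ring
    linarith
  -- integrate
  have hmode : ∫ y, ∫ g, e n (c • y + s • g)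
        * (Real.sin ⟪g, ε • w y⟫ * Real.exp (‖ε • w y‖ ^ 2 / 2)) ∂(stdGaussian E) ∂(stdGaussian E)
      = mode (e n) c s (fun y => ε • w y) := by
    unfold mode
    rw [integral_prod _ hmi]
  have hiL : Integrable (fun y => ⟪w y, mom (e n) s (c • y)⟫) (stdGaussian E) := by
    refine Integrable.of_bound (hwm.inner ((measurable_mom (he n) s).comp
      (by fun_prop))).aestronglyMeasurable 1 (Eventually.of_forall fun y => ?_)
    refine (norm_inner_le_norm _ _).trans ?_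
    exact mul_le_one₀ (hw1 y) (norm_nonneg _) ((norm_mom_le (he n) s _).trans (Ip_le_one _))
  have hiD := (hDm.integrable (stdGaussian E))
  have hint : ∫ y, (ε * ⟪w y, mom (e n) s (c • y)⟫
      - K3 * (8 * T ^ 3 * ∫ g, e n (c • y + s • g) ∂(stdGaussian E)
          + 96 * Real.exp (-(T ^ 2 / 2)))) ∂(stdGaussian E)
      ≤ mode (e n) c s (fun y => ε • w y) := by
    rw [← hmode]
    refine integral_mono ((hiL.const_mul ε).sub (((hiD.const_mul _).add
      (integrable_const _)).const_mul K3)) hmi.integral_prod_left hpt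
  have hiD2 : Integrable (fun y => 8 * T ^ 3 * ∫ g, e n (c • y + s • g) ∂(stdGaussian E)
      + 96 * Real.exp (-(T ^ 2 / 2))) (stdGaussian E) := (hiD.const_mul _).add (integrable_const _)
  rw [integral_sub (hiL.const_mul ε) (hiD2.const_mul K3),
    integral_const_mul, integral_const_mul, integral_add (hiD.const_mul _) (integrable_const _),
    integral_const_mul, hD] at hint
  simp only [integral_const, probReal_univ, smul_eq_mul, one_mul] at hint
  have h20 := (le_abs_self _).trans hpath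
  have h21 : K3 * (8 * T ^ 3 * ∫ x, e n x ∂(stdGaussian E) + 96 * Real.exp (-(T ^ 2 / 2)))
      = Real.exp (1 / 2) * (ε ^ 3 / 6 * (N ^ 3 * (8 * T ^ 3 * ∫ x, e n x ∂(stdGaussian E)
            + 96 * Real.exp (-(T ^ 2 / 2))))) := by rw [hK3]; ring
  linarith

end Vale.Agent.P262.H941
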