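import Vale.Agent.P262.H941.Supp

/-!
# The bound of the first moments at every scale
-/

set_option linter.unusedSectionVars false

namespace Vale.Agent.P262.H941

open MeasureTheory ProbabilityTheory Set Filter Topology
open scoped RealInnerProductSpace
open Vale.Agent.P262.H847 Vale.Agent.P262.H912

variable {E : Type*} [NormedAddCommGroup E] [InnerProductSpace ℝ E] [FiniteDimensional ℝ E]
  [MeasurableSpace E] [BorelSpace E]

lemma norm_mom_le_one {f : E → ℝ} (hf : UI f) (s : ℝ) (p : E) : ‖mom f s p‖ ≤ 1 :=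
  (norm_mom_le hf s p).trans (Ip_le_one _)

lemma integrable_norm_mom {f : E → ℝ} (hf : UI f) (P : E →L[ℝ] E) (c s : ℝ) :
    Integrable (fun y => ‖P (mom f s (c • y))‖) (stdGaussian E) := by
  refine Integrable.of_bound (P.continuous.measurable.comp ((measurable_mom hf s).comp
      (by fun_prop))).norm.aestronglyMeasurable ‖P‖ (Eventually.of_forall fun y => ?_)
  rw [norm_norm]
  exact (P.le_opNorm _).trans (mul_le_of_le_one_right (norm_nonneg _) (norm_mom_le_one hf s _))

/-- **Support function bound.** `P` = projection off the exceptional directions; the hypothesis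
`hP` says that `lam ‖P m‖` is at most the support function of the set of end points of the
admissible paths. -/
theorem supp_bound {e : ℕ → E → ℝ} (he : ∀ t, UI (e t)) {v : ℕ → E} {F : ℕ → ℝ} {c s : ℝ}
    (hcs : c ^ 2 + s ^ 2 = 1) (hs : 0 < s) (hs1 : s ≤ 1)
    (n : ℕ) (hF : ∀ t < n, FluxLe (e t) (v t) (F t)) {N : ℝ} (hN : 0 ≤ N)
    {P : E →L[ℝ] E} {lam : ℝ}
    (hP : ∀ m : E, ∀ δ : ℝ, 0 < δ → ∃ κ, Adm v n N κ ∧
      lam * ‖P m‖ ≤ ⟪∑ r ∈ Finset.range n, κ r • v r, m⟫ + δ)
    {ε T : ℝ} (hε : 0 < ε) (hε1 : ε ≤ 1) (hT : 1 ≤ T) :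
    ε * (lam * ∫ y, ‖P (mom (e n) s (c • y))‖ ∂(stdGaussian E))
      ≤ Real.exp (1 / 2) * ∑ t ∈ Finset.range n,
          (F t + ∫ x, |e (t + 1) x - e t x| ∂(stdGaussian E))
        + Real.exp (1 / 2) * (ε ^ 3 / 6 * (N ^ 3 * (8 * T ^ 3 * ∫ x, e n x ∂(stdGaussian E)
            + 96 * Real.exp (-(T ^ 2 / 2))))) := by
  apply le_of_forall_pos_le_add
  intro δ hδ
  set δ' := δ / 2 with hδ'
  have hδ'0 : 0 < δ' := by positivity
  set 𝒲 : Set E := {w | ∃ κ, Adm v n N κ ∧ w = ∑ r ∈ Finset.range n, κ r • v r} with h𝒲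
  have htb : TotallyBounded 𝒲 := by
    refine (isCompact_closedBall (0:E) 1).totallyBounded.subset ?_
    rintro w ⟨κ, hκ, rfl⟩
    rw [mem_closedBall_zero_iff]
    exact hκ.partial_le n le_rfl
  obtain ⟨t, ht, htf, htc⟩ := Metric.finite_approx_of_totallyBounded htb δ' hδ'0
  -- coefficients of the net
  have hch : ∀ w ∈ t, ∃ κ, Adm v n N κ ∧ w = ∑ r ∈ Finset.range n, κ r • v r := fun w hw => ht hw
  choose! cf hcf using hch
  set L : List (ℕ → ℝ) := (htf.toFinset.toList).map cf with hL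
  have hLadm : ∀ κ ∈ L, Adm v n N κ := by
    intro κ hκ
    rw [hL, List.mem_map] at hκ
    obtain ⟨w, hw, rfl⟩ := hκ
    rw [Finset.mem_toList, Set.Finite.mem_toFinset] at hw
    exact (hcf w hw).1
  set M : E → E := fun y => mom (e n) s (c • y) with hM
  have hMm : Measurable M := (measurable_mom (he n) s).comp (by fun_prop)
  obtain ⟨κ, h1, h2, h3, h4⟩ := exists_selection hMm L hLadm hN
  have hsel := supp_sel he hcs hs h1 n hF h2 h3 hε hε1 hT
  -- comparison
  have hcmp : ∀ y, lam * ‖P (M y)‖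
      ≤ ⟪∑ r ∈ Finset.range n, κ r y • v r, M y⟫ + 2 * δ' := by
    intro y
    obtain ⟨κ', hκ', hle⟩ := hP (M y) δ' hδ'0
    have hw' : (∑ r ∈ Finset.range n, κ' r • v r) ∈ 𝒲 := ⟨κ', hκ', rfl⟩
    obtain ⟨w, hw⟩ := mem_iUnion.mp (htc hw')
    obtain ⟨hwt, hwd⟩ := mem_iUnion.mp hw
    have h5 := h4 (cf w) (by
      rw [hL, List.mem_map]
      exact ⟨w, by rw [Finset.mem_toList, Set.Finite.mem_toFinset]; exact hwt, rfl⟩) y
    rw [← (hcf w hwt).2] at h5
    have h6 : ⟪∑ r ∈ Finset.range n, κ' r • v r, M y⟫ ≤ ⟪w, M y⟫ + δ' := by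
      have h7 : ⟪∑ r ∈ Finset.range n, κ' r • v r, M y⟫ - ⟪w, M y⟫ ≤ δ' := by
        rw [← inner_sub_left]
        refine (real_inner_le_norm _ _).trans ?_
        have h8 : ‖∑ r ∈ Finset.range n, κ' r • v r - w‖ ≤ δ' := by
          rw [← dist_eq_norm]; exact (Metric.mem_ball.mp hwd).le
        have h9 := norm_mom_le_one (he n) s (c • y)
        calc _ ≤ δ' * 1 := mul_le_mul h8 h9 (norm_nonneg _) hδ'0.le
          _ = δ' := mul_one _
      linarith
    linarith
  have hwm : Measurable (fun y => ∑ r ∈ Finset.range n, κ r y • v r) :=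
    Finset.measurable_sum _ fun r _ => (h1 r).smul_const (v r)
  have hi1 : Integrable (fun y => ⟪∑ r ∈ Finset.range n, κ r y • v r, M y⟫) (stdGaussian E) := by
    refine Integrable.of_bound (hwm.inner hMm).aestronglyMeasurable 1
      (Eventually.of_forall fun y => ?_)
    refine (norm_inner_le_norm _ _).trans ?_
    exact mul_le_one₀ ((h2 y).partial_le n le_rfl) (norm_nonneg _) (norm_mom_le_one (he n) s _)
  have hi2 := (integrable_norm_mom (he n) P c s).const_mul lam
  have hint : lam * ∫ y, ‖P (M y)‖ ∂(stdGaussian E)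
      ≤ ∫ y, ⟪∑ r ∈ Finset.range n, κ r y • v r, M y⟫ ∂(stdGaussian E) + 2 * δ' := by
    rw [← integral_const_mul]
    have : ∫ y, (⟪∑ r ∈ Finset.range n, κ r y • v r, M y⟫ + 2 * δ') ∂(stdGaussian E)
        = ∫ y, ⟪∑ r ∈ Finset.range n, κ r y • v r, M y⟫ ∂(stdGaussian E) + 2 * δ' := by
      rw [integral_add hi1 (integrable_const _)]; simp
    rw [← this]
    exact integral_mono hi2 (hi1.add (integrable_const _)) hcmp
  have hFs : ∑ t ∈ Finset.range n, (s * F t + ∫ x, |e (t + 1) x - e t x| ∂(stdGaussian E))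
      ≤ ∑ t ∈ Finset.range n, (F t + ∫ x, |e (t + 1) x - e t x| ∂(stdGaussian E)) := by
    apply Finset.sum_le_sum
    intro t ht
    have h0 := (hF t (Finset.mem_range.mp ht)).nonneg
    nlinarith
  have hexp := Real.exp_pos (1 / 2 : ℝ)
  have h10 := mul_le_mul_of_nonneg_left hint hε.le
  have h11 := mul_le_mul_of_nonneg_left hFs hexp.le
  have h12 : ε * (2 * δ') ≤ δ := by rw [hδ']; nlinarith
  have h13 : ε * (∫ y, ⟪∑ r ∈ Finset.range n, κ r y • v r, M y⟫ ∂(stdGaussian E) + 2 * δ')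
      = ε * ∫ y, ⟪∑ r ∈ Finset.range n, κ r y • v r, M y⟫ ∂(stdGaussian E) + ε * (2 * δ') := by
    ring
  rw [h13] at h10
  linarith

/-- change of the first moments when the field changes -/
theorem mom_change {f g : E → ℝ} (hf : UI f) (hg : UI g) {c s : ℝ} (hcs : c ^ 2 + s ^ 2 = 1)
    {T : ℝ} (hT : 1 ≤ T) :
    ∫ y, ‖mom f s (c • y) - mom g s (c • y)‖ ∂(stdGaussian E)
      ≤ 2 * T * ∫ x, |f x - g x| ∂(stdGaussian E) + 12 * Real.exp (-(T ^ 2 / 2)) := by
  have hd : UI (fun x => |f x - g x|) := by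
    refine ⟨(hf.meas.sub hg.meas).abs, fun x => abs_nonneg _, fun x => ?_⟩
    rw [abs_le]
    have := hf.nonneg x; have := hf.le_one x; have := hg.nonneg x; have := hg.le_one x
    constructor <;> linarith
  have hpt : ∀ y, ‖mom f s (c • y) - mom g s (c • y)‖
      ≤ 2 * T * ∫ z, |f (c • y + s • z) - g (c • y + s • z)| ∂(stdGaussian E)
        + 12 * Real.exp (-(T ^ 2 / 2)) := by
    intro y
    have hfy : UI (fun z => f (c • y + s • z)) := UI.comp hf (by fun_prop)
    have hgy : UI (fun z => g (c • y + s • z)) := UI.comp hg (by fun_prop)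
    have hdy : UI (fun z => |f (c • y + s • z) - g (c • y + s • z)|) := UI.comp hd (by fun_prop)
    have hR0 : 0 ≤ ∫ z, |f (c • y + s • z) - g (c • y + s • z)| ∂(stdGaussian E) :=
      integral_nonneg fun z => abs_nonneg _
    set m := mom f s (c • y) - mom g s (c • y) with hm
    rcases eq_or_ne m 0 with h0 | h0
    · rw [h0, norm_zero]; positivity
    have hm0 : 0 < ‖m‖ := norm_pos_iff.mpr h0
    set b := (‖m‖⁻¹) • m with hb
    have hb1 : ‖b‖ = 1 := by rw [hb, norm_smul, norm_inv, norm_norm, inv_mul_cancel₀ hm0.ne']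
    have hi0 := (UI.integrable_smul hfy).sub (UI.integrable_smul hgy)
    have e1 : m = ∫ z, (f (c • y + s • z) • z - g (c • y + s • z) • z) ∂(stdGaussian E) := by
      rw [integral_sub (UI.integrable_smul hfy) (UI.integrable_smul hgy)]; rfl
    have e2 : ‖m‖ = ∫ z, (f (c • y + s • z) - g (c • y + s • z)) * ⟪b, z⟫ ∂(stdGaussian E) := by
      have h1 : ‖m‖ = ⟪b, m⟫ := by
        rw [hb, real_inner_smul_left, real_inner_self_eq_norm_sq]; field_simp
      have h2 := (innerSL ℝ b).integral_comp_comm hi0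
      simp only [innerSL_apply_apply, Pi.sub_apply] at h2
      rw [h1, e1, ← h2]
      congr 1; funext z
      rw [← sub_smul, real_inner_smul_right]
    rw [e2]
    have hi1 := (hdy.integrable (stdGaussian E)).const_mul (2 * T)
    have hi2 := (integrable_exp_sq_unit hb1).const_mul (8 * Real.exp (-(T ^ 2 / 2)))
    have hi3 : Integrable (fun z => (f (c • y + s • z) - g (c • y + s • z)) * ⟪b, z⟫)
        (stdGaussian E) := by
      refine (integrable_inner b).norm.mono' ((hfy.meas.sub hgy.meas).mul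
        (by fun_prop)).aestronglyMeasurable (Eventually.of_forall fun z => ?_)
      rw [norm_mul, Real.norm_eq_abs]
      exact mul_le_of_le_one_left (norm_nonneg _) (hdy.le_one z)
    have h3 : ∫ z, (f (c • y + s • z) - g (c • y + s • z)) * ⟪b, z⟫ ∂(stdGaussian E)
        ≤ ∫ z, (2 * T * |f (c • y + s • z) - g (c • y + s • z)|
          + 8 * Real.exp (-(T ^ 2 / 2)) * Real.exp (1 / 2 * ⟪b, z⟫ ^ 2 / 2)) ∂(stdGaussian E) := by
      apply integral_mono hi3 (hi1.add hi2)
      intro z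
      show (f (c • y + s • z) - g (c • y + s • z)) * ⟪b, z⟫
        ≤ 2 * T * |f (c • y + s • z) - g (c • y + s • z)|
          + 8 * Real.exp (-(T ^ 2 / 2)) * Real.exp (1 / 2 * ⟪b, z⟫ ^ 2 / 2)
      have h4 := abs_le_tail (x := ⟪b, z⟫) hT
      have h5 := hdy.nonneg z
      have h6 := hdy.le_one z
      have h7 : 0 ≤ 8 * Real.exp (-(T ^ 2 / 2)) * Real.exp (1 / 2 * ⟪b, z⟫ ^ 2 / 2) := by
        positivity
      calc (f (c • y + s • z) - g (c • y + s • z)) * ⟪b, z⟫
          ≤ |f (c • y + s • z) - g (c • y + s • z)| * |⟪b, z⟫| := by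
            rw [← abs_mul]; exact le_abs_self _
        _ ≤ |f (c • y + s • z) - g (c • y + s • z)| * (2 * T
            + 8 * Real.exp (-(T ^ 2 / 2)) * Real.exp (1 / 2 * ⟪b, z⟫ ^ 2 / 2)) :=
            mul_le_mul_of_nonneg_left h4 h5
        _ ≤ _ := by nlinarith
    refine h3.trans ?_
    rw [integral_add hi1 hi2, integral_const_mul, integral_const_mul]
    have h9 := integral_exp_sq_unit hb1
    have h10 : 0 < Real.exp (-(T ^ 2 / 2)) := Real.exp_pos _
    nlinarith
  have hdU : UI (fun y => ∫ z, |f (c • y + s • z) - g (c • y + s • z)| ∂(stdGaussian E)) :=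
    UI.integral (E := E) (F := E) (f := fun p : E × E =>
      |f (c • p.1 + s • p.2) - g (c • p.1 + s • p.2)|)
      (UI.comp hd (T := fun p : E × E => c • p.1 + s • p.2) (by fun_prop)) (stdGaussian E)
  have hD : ∫ y, ∫ z, |f (c • y + s • z) - g (c • y + s • z)| ∂(stdGaussian E) ∂(stdGaussian E)
      = ∫ x, |f x - g x| ∂(stdGaussian E) := by
    have := integral_add_smul' (a := c) (b := s) (c := 1) (by rw [hcs]; norm_num) hd.meas
      (B := 1) (fun x => by rw [abs_of_nonneg (hd.nonneg x)]; exact hd.le_one x)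
    simpa using this
  have hi4 := (hdU.integrable (stdGaussian E)).const_mul (2 * T)
  calc ∫ y, ‖mom f s (c • y) - mom g s (c • y)‖ ∂(stdGaussian E)
      ≤ ∫ y, (2 * T * ∫ z, |f (c • y + s • z) - g (c • y + s • z)| ∂(stdGaussian E)
        + 12 * Real.exp (-(T ^ 2 / 2))) ∂(stdGaussian E) :=
        integral_mono_of_nonneg (Eventually.of_forall fun y => norm_nonneg _)
          (hi4.add (integrable_const _)) (Eventually.of_forall hpt)
    _ = _ := by
        rw [integral_add hi4 (integrable_const _), integral_const_mul, hD]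
        simp

end Vale.Agent.P262.H941
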