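import Vale.Agent.P262.H962.Chain

/-!
# P262, milestone 2, THR: the own directions of the deeper nodes (abstract part)

The step of the payoff depends on the label only through a function `u` which is constant on the
fibres below the rotating node, so it can be frozen; the direction is the own direction of the
suffix of the target node.
-/

set_option linter.all false

open MeasureTheory ProbabilityTheory Set
open scoped ENNReal RealInnerProductSpace
open Vale.Agent.P262.H395 (fib mix Inv)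
open Vale.Agent.P262.H395.Tree (InvN)
open Vale.Agent.P262.H711 (Fam tau)
open Vale.Agent.P262.H962 (tau_zero tau_leaf tau_succ tau_add tau_mono chain chain_root)

namespace Vale.Agent.P262.H941

variable {E : Type*} [NormedAddCommGroup E] [InnerProductSpace ℝ E] [FiniteDimensional ℝ E]
  [MeasurableSpace E] [BorelSpace E]

variable {F : Fam E (List ℕ)}

/-- freezing a parameter which is constant on the fibres -/
theorem freeze (hch : ∀ c r, F.ch c r = c :: r) {T : Type*} {u : E → T} {q : List ℕ}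
    (hu : ∀ r, q <:+ r → ∀ x z, u (mix (F.W r) x z) = u x) (G : T → List ℕ → E → ℝ≥0∞) :
    ∀ (a : ℕ) (r : List ℕ) (y : E), q <:+ r →
      tau F (fun r y => G (u y) r y) a r y = tau F (G (u y)) a r y := by
  intro a
  induction a with
  | zero => intro r y _; rfl
  | succ a ih =>
    intro r y hr
    by_cases hL : F.L r
    · rw [tau_leaf _ _ hL, tau_leaf _ _ hL]
    · rw [tau_succ _ _ hL, tau_succ _ _ hL]
      unfold Vale.Agent.P262.H395.fib
      refine lintegral_congr fun z => ?_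
      simp only
      rw [ih _ _ (by rw [hch]; exact hr.trans (List.suffix_cons _ _)), hu r hr y z]

/-- the suffix of the target is the starting node -/
theorem tau_drop (hch : ∀ c r, F.ch c r = c :: r) (P : List ℕ → List ℕ → E → ℝ≥0∞) (a : ℕ)
    (s : List ℕ) (y : E) :
    tau F (fun r y => P (r.drop a) r y) a s y = tau F (P s) a s y := by
  have hQ : ∀ (k : ℕ) (r : List ℕ) (x : E), (∃ v, r = v ++ s ∧ v.length + (k + 1) = a) →
      ¬ F.L r → ∃ v, F.ch (F.kl r x) r = v ++ s ∧ v.length + k = a := by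
    rintro k r x ⟨v, rfl, hv⟩ _
    refine ⟨F.kl (v ++ s) x :: v, by rw [hch]; rfl, ?_⟩
    rw [List.length_cons]
    omega
  have h0 : ∀ (r : List ℕ), (∃ v, r = v ++ s ∧ v.length + 0 = a) → r.drop a = s := by
    rintro r ⟨v, rfl, hv⟩
    exact List.drop_left' (by omega)
  refine le_antisymm ?_ ?_
  · exact tau_mono (Q := fun k r => ∃ v, r = v ++ s ∧ v.length + k = a) hQ
      (fun r x hr => by rw [h0 r hr]) a s y ⟨[], rfl, by simp⟩
  · exact tau_mono (Q := fun k r => ∃ v, r = v ++ s ∧ v.length + k = a) hQ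
      (fun r x hr => by rw [h0 r hr]) a s y ⟨[], rfl, by simp⟩

/-- **the own direction of a node `k` levels below the rotating node, targets `n` levels below.** -/
theorem be_s (hch : ∀ c r, F.ch c r = c :: r) {c0 : ℕ} {p0 : List ℕ} {n k : ℕ} (hk1 : 1 ≤ k)
    (hkn : k ≤ n) {u : E → ℝ} (hu0 : ∀ y, 0 ≤ u y) (hum : Measurable u)
    (hu : ∀ r, (c0 :: p0) <:+ r → ∀ x z, u (mix (F.W r) x z) = u x)
    {P : List ℕ → ℝ → List ℕ → E → ℝ≥0∞} {h0 CD : ℝ} (hh0 : 0 ≤ h0) (hCD : 0 ≤ CD)
    {D : List ℕ → E → ℝ≥0∞} {Dk Hn : ℕ → List ℕ → E → ℝ≥0∞} {s : ℝ} (hs : 0 ≤ s)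
    {kp κ κ0 : ℝ≥0∞}
    (hklp : InvN (F.W p0) (F.kl p0)) (hDkp : ∀ c, Inv (F.W p0) (Dk c p0))
    (hkl : ∀ r, (c0 :: p0) <:+ r → InvN (F.W r) (F.kl r))
    (hDk : ∀ r c, (c0 :: p0) <:+ r → Inv (F.W r) (Dk c r))
    (hDle : ∀ r x, (c0 :: p0) <:+ r → Dk (F.kl r x) r x ≤ D r x)
    (hchp : ∀ y, D (F.kl p0 y :: p0) y ≤ Hn (F.kl p0 y) p0 y * Dk (F.kl p0 y) p0 y)
    (hchr : ∀ r y, (c0 :: p0) <:+ r → ¬ F.L r →
      D (F.kl r y :: r) y ≤ Hn (F.kl r y) r y * Dk (F.kl r y) r y)
    (hwm : ∀ c r, Measurable (F.wt c r)) (hHm : ∀ c r, Measurable (Hn c r))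
    (hmo : ∀ r x, (c0 :: p0) <:+ r → ¬ F.L r →
      fib (F.W r) (fun y => F.wt (F.kl r x) r y * Hn (F.kl r x) r y ^ s) x ≤ κ)
    {x : E} (hx : F.kl p0 x = c0)
    (hmo0 : fib (F.W p0) (fun y => F.wt c0 p0 y *
      (ENNReal.ofReal (u y) * Hn c0 p0 y ^ s)) x ≤ κ0)
    (hdir : ∀ (R : List ℕ) (x : E) (h : ℝ), (c0 :: p0) <:+ R → R.length = p0.length + k →
      ¬ F.L R → 0 ≤ h → fib (F.W R) (fun y => F.wt (F.kl R x) R y *
        tau F (P (F.kl R x :: R) h) (n - k) (F.kl R x :: R) y) x ≤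
          ENNReal.ofReal (CD * h) * kp * Dk (F.kl R x) R x ^ s) :
    fib (F.W p0) (fun y => F.wt c0 p0 y *
        tau F (fun r y => P (r.drop (n - k)) (h0 * u y) r y) n (c0 :: p0) y) x ≤
      ENNReal.ofReal (CD * h0) * kp * κ ^ (k - 1) * κ0 * Dk c0 p0 x ^ s := by
  set a : ℕ := n - k with ha
  set q : List ℕ := c0 :: p0 with hq
  set gB : List ℕ → E → ℝ≥0∞ := fun r y => P (r.drop a) (h0 * u y) r y with hgB
  set g1 : List ℕ → E → ℝ≥0∞ := fun R y => tau F gB (a + 1) R y with hg1
  have hn : n = (k - 1) + (a + 1) := by omega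
  set C : ℝ≥0∞ := ENNReal.ofReal (CD * h0) * kp with hC
  -- the payoff at the parents of the nodes `k` levels below
  have hg : ∀ R y, (q <:+ R ∧ R.length + 0 = p0.length + k) →
      g1 R y ≤ C * (ENNReal.ofReal (u y) * Dk (F.kl R y) R y ^ s) := by
    rintro R y ⟨hR, hlen⟩
    by_cases hL : F.L R
    · rw [hg1]
      simp only
      rw [tau_leaf _ _ hL]
      exact zero_le
    rw [hg1]
    simp only
    rw [tau_succ _ _ hL, hch]
    set c := F.kl R y with hc
    have h1 : fib (F.W R) (fun z => F.wt c R z * tau F gB a (c :: R) z) y ≤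
        fib (F.W R) (fun z => F.wt c R z * tau F (P (c :: R) (h0 * u y)) a (c :: R) z) y := by
      refine H711.fib_le_of fun w => ?_
      set z := mix (F.W R) y w with hz
      have h2 : tau F gB a (c :: R) z = tau F (P (c :: R) (h0 * u y)) a (c :: R) z := by
        have h3 := freeze (F := F) hch (u := u) (q := q) hu
          (fun t r y => P (r.drop a) (h0 * t) r y) a (c :: R) z
          (hR.trans (List.suffix_cons _ _))
        have h4 : u z = u y := hu R hR y w
        have h5 := tau_drop (F := F) hch (fun s r y' => P s (h0 * u y) r y') a (c :: R) z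
        rw [hgB]
        rw [h3, h4]
        exact h5
      rw [h2]
    refine h1.trans ((hdir R y (h0 * u y) hR (by omega) hL
      (mul_nonneg hh0 (hu0 y))).trans (le_of_eq ?_))
    rw [hC, show CD * (h0 * u y) = (CD * h0) * u y by ring,
      ENNReal.ofReal_mul (mul_nonneg hCD hh0)]
    ring
  have hQs : ∀ (j : ℕ) (r : List ℕ) (x : E), (q <:+ r ∧ r.length + (j + 1) = p0.length + k) →
      ¬ F.L r → (q <:+ F.ch (F.kl r x) r ∧ (F.ch (F.kl r x) r).length + j = p0.length + k) := by
    rintro j r x ⟨h1, h2⟩ _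
    rw [hch, List.length_cons]
    exact ⟨h1.trans (List.suffix_cons _ _), by omega⟩
  have huI : ∀ r, q <:+ r → Inv (F.W r) fun y => ENNReal.ofReal (u y) := by
    intro r hr y w hw
    have h1 : mix (F.W r) y (y + w) = y + w := by
      unfold Vale.Agent.P262.H395.mix
      rw [map_add, H395.proj_eq_zero hw, add_zero]
      abel
    have h2 := hu r hr y (y + w)
    rw [h1] at h2
    show ENNReal.ofReal (u (y + w)) = ENNReal.ofReal (u y)
    rw [h2]
  have hchain := chain (F := F) (Q := fun j r => q <:+ r ∧ r.length + j = p0.length + k) hQs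
    (D := D) (Dk := Dk) (Hn := Hn) (u := fun y => ENNReal.ofReal (u y)) hs (κ := κ) (C := C)
    (fun j r hr _ => hkl r hr.1) (fun j r c hr _ => hDk r c hr.1) (fun j r x hr => hDle r x hr.1)
    (fun j r y hr hL => by rw [hch]; exact hchr r y hr.1 hL) hwm hHm
    (fun j r hr => huI r hr.1) (fun j r x hr hL => hmo r x hr.1 hL) hg
  have hfin : ∀ y, tau F gB n q y ≤ C * κ ^ (k - 1) *
      (ENNReal.ofReal (u y) * Dk (F.kl q y) q y ^ s) := by
    intro y
    rw [hn, tau_add]
    exact hchain (k - 1) q y ⟨List.suffix_rfl, by rw [hq, List.length_cons]; omega⟩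
  have key := chain_root (F := F) (Q := fun _ r => q <:+ r) (D := D) (Dk := Dk) (Hn := Hn)
    (u := fun y => ENNReal.ofReal (u y)) hs (κ := κ) (κ0 := κ0) (C := C) (n := k - 1) (p := p0)
    (x := x) hklp hDkp (fun _ r x hr => hDle r x hr)
    (fun y => by rw [hch]; exact hchp y) (by rw [hch, hx]) hwm hHm hum.ennreal_ofReal
    (by rw [hx]; exact hmo0) (t := fun r y => tau F gB n r y)
    (fun y => by rw [hch, hx]; exact hfin y)
  rw [hch, hx] at key
  exact key

end Vale.Agent.P262.H941
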