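import Vale.Agent.P262.H711.Inst
import Vale.Agent.P262.H118.RotB
import Vale.Agent.P262.H941.BeS
import Vale.Agent.P262.H962.ChainS
import Vale.Agent.P262.H837.Tau

/-!
# P262, milestone 2, THR: the own directions of the nodes below the rotating node, on `M2.Sys`

The payoff is 118's split term of the own direction of the level `|q| + i + 1`; its step
`stb m i θ y` depends on the label only through `⟪θ, y⟫`, `θ ∈ W q`.
-/

set_option linter.all false

open MeasureTheory ProbabilityTheory Set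
open scoped ENNReal RealInnerProductSpace
open Vale.Agent.P262.H118 (Iv st en ON rotE rotL tau wd wrd Mg Piece K2 El2 paths lyd nv sg la
  norm_nv nv_mem mem_sg inner_mix_label lyd_zero)
open Vale.Agent.P262.H395 (fib mix Inv inv_fib measurable_fib fib_mono)
open Vale.Agent.P262.H395.Tree (InvN)

namespace Vale.Agent.P262.H941

variable {E : Type*} [NormedAddCommGroup E] [InnerProductSpace ℝ E] [FiniteDimensional ℝ E]
  [MeasurableSpace E] [BorelSpace E]

/-- fibre average of a payoff with a parameter which is the label -/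
lemma measurable_fib_param {W : Submodule ℝ E} {f : E → E → ℝ≥0∞}
    (hf : Measurable (Function.uncurry f)) : Measurable fun y => fib W (f y) y := by
  unfold Vale.Agent.P262.H395.fib
  refine Measurable.lintegral_prod_right' (f := fun p : E × E => f p.1 (mix W p.1 p.2)) ?_
  have h1 : Continuous fun p : E × E => mix W p.1 p.2 := by
    unfold Vale.Agent.P262.H395.mix
    fun_prop
  exact hf.comp (measurable_fst.prodMk h1.measurable)

/-- zero payoff -/
lemma tau_of_zero {ι : Type*} {F : H711.Fam E ι} {g : ι → E → ℝ≥0∞} (hg : ∀ r x, g r x = 0) :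
    ∀ n r x, H711.tau F g n r x = 0 := by
  intro n
  induction n with
  | zero => exact fun r x => hg r x
  | succ n ih =>
    intro r x
    by_cases hL : F.L r
    · exact H962.tau_leaf g n hL x
    · rw [H962.tau_succ g n hL]
      simp only [ih, mul_zero]
      exact H395.fib_const _ 0 x

lemma sum_two_pow_le (n : ℕ) : ∑ i ∈ Finset.range n, (2 : ℝ≥0∞) ^ i ≤ 2 ^ n := by
  induction n with
  | zero => simp
  | succ n ih => rw [Finset.sum_range_succ, pow_succ, mul_two]; gcongr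

end Vale.Agent.P262.H941

namespace Vale.Agent.P262.M2.Sys

open Vale.Agent.P262.H941 (measurable_fib_param tau_of_zero be_s)

variable {E : Type*} [NormedAddCommGroup E] [InnerProductSpace ℝ E] [FiniteDimensional ℝ E]
  [MeasurableSpace E] [BorelSpace E] {S : Sys E}

/-- **payoff of the own direction** of the level `|q| + i + 1` (118's split term over `Dc ^ th`) -/
noncomputable def gO (S : Sys E) (m : ℕ) (b : List ℕ → E) (θ : E) (q : List ℕ) (o : Bool) (ε : ℝ)
    (i : ℕ) (r : List ℕ) (y : E) : ℝ≥0∞ :=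
  S.mu (sf1 q r i) (lyd (S.bd (sf1 q r i) m o) (S.bd (sf1 q r i) m (!o)) univ
    (ε • nv (S.bo m b (sf1 q r i))) (S.stb m i θ y)) r m y / S.Dc r m y ^ S.th

lemma stb_cont (m i : ℕ) (θ : E) : Continuous fun y : E => S.stb m i θ y := by
  unfold stb
  fun_prop

theorem gO_meas (m : ℕ) (b : List ℕ → E) (θ : E) (q : List ℕ) (o : Bool) (ε : ℝ)
    (i : ℕ) (r : List ℕ) : Measurable (S.gO m b θ q o ε i r) := by
  classical
  unfold gO
  refine Measurable.div ?_ ((S.Dc_meas r m).pow_const _)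
  unfold mu
  set s := sf1 q r i with hs
  set e : E := ε • nv (S.bo m b s) with he
  refine measurable_fib_param (f := fun y w => (S.tr s r m ⁻¹' lyd (S.bd s m o) (S.bd s m (!o)) univ
    e (S.stb m i θ y)).indicator (1 : E → ℝ≥0∞) w) ?_
  have hset : MeasurableSet {p : E × E | S.tr s r m p.2 ∈ lyd (S.bd s m o) (S.bd s m (!o)) univ e
      (S.stb m i θ p.1)} := by
    have e1 : {p : E × E | S.tr s r m p.2 ∈ lyd (S.bd s m o) (S.bd s m (!o)) univ e
        (S.stb m i θ p.1)} = (fun p : E × E => S.tr s r m p.2) ⁻¹' (S.bd s m o) ∩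
          ((fun p : E × E => S.tr s r m p.2) ⁻¹' (S.bd s m (!o))ᶜ ∩
          (fun p : E × E => S.tr s r m p.2 + S.stb m i θ p.1 • e) ⁻¹' (S.bd s m o)ᶜ) := by
      ext p
      simp only [lyd, mem_setOf_eq, mem_univ, true_and, mem_inter_iff, mem_preimage, mem_compl_iff]
    rw [e1]
    have h1 : Continuous fun p : E × E => S.tr s r m p.2 :=
      (S.tr s r m).continuous.comp continuous_snd
    have h2 : Continuous fun p : E × E => S.tr s r m p.2 + S.stb m i θ p.1 • e :=
      h1.add (((stb_cont m i θ).comp continuous_fst).smul continuous_const)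
    exact (h1.measurable (measurableSet_bd s m o)).inter
      ((h1.measurable (measurableSet_bd s m (!o)).compl).inter
        (h2.measurable (measurableSet_bd s m o).compl))
  have e2 : Function.uncurry (fun (y w : E) => (S.tr s r m ⁻¹' lyd (S.bd s m o) (S.bd s m (!o)) univ
      e (S.stb m i θ y)).indicator (1 : E → ℝ≥0∞) w) =
      {p : E × E | S.tr s r m p.2 ∈ lyd (S.bd s m o) (S.bd s m (!o)) univ e
        (S.stb m i θ p.1)}.indicator 1 := by
    funext p
    obtain ⟨y, w⟩ := p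
    simp only [Function.uncurry, indicator_apply, mem_preimage, mem_setOf_eq, Pi.one_apply]
  rw [e2]
  exact measurable_one.indicator hset

/-- 118's term in 711's form -/
lemma mu_lyd_eq {m : ℕ} (hm : S.mv.IsRot m) {s r : List ℕ} (hs : S.mv.jj m <:+ s) (hr : s <:+ r)
    {e : E} (he : e ∈ S.W s m) (h : ℝ) (o : Bool) (y : E) :
    S.mu s (lyd (S.bd s m o) (S.bd s m (!o)) univ e h) r m y / S.Dc r m y ^ S.th =
      S.gq m o s univ e h r y := by
  unfold gq gB mu
  rw [tr_lyd_bd hm hs hr he]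
  cases o <;> rfl

/-- no direction or no step: no payoff -/
lemma gq_zero (m : ℕ) (o : Bool) (s : List ℕ) {e : E} {h : ℝ} (h0 : h • e = 0) (r : List ℕ)
    (y : E) : S.gq m o s univ e h r y = 0 := by
  have key : ∀ K K1 L : Set E, H716.gone K K1 L e h = ∅ := by
    intro K K1 L
    ext z
    simp only [H716.gone, mem_setOf_eq, h0, add_zero, mem_empty_iff_false, iff_false]
    rintro ⟨-, h1, -, h2⟩
    exact h2 h1
  have h2 : fib (S.W r m) ((∅ : Set E).indicator 1) y = 0 := by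
    rw [indicator_empty]
    exact H395.fib_const _ 0 y
  unfold gq gB
  rw [key, key]
  simp only [ite_self]
  rw [h2, ENNReal.zero_div]

/-- **(DIR) at a parent `R`, direction of the own part** -/
theorem dir_own {m : ℕ} (hm : S.mv.tm m < S.T) (hrot : S.mv.IsRot m) (hth : S.th = 1 / 2)
    (hk : S.kq ≤ 1) (b : List ℕ → E) (o : Bool) {ε : ℝ} (hε : ε ∈ sg) {R : List ℕ}
    (hleaf : ¬ S.Leaf R m) {h : ℝ} (hh : 0 ≤ h) (n : ℕ) (x : E) :
    fib (S.W R m) (fun y => S.cw (S.kl R m x :: R) m y *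
        H711.tau (S.fam m) (S.gq m o (S.kl R m x :: R) univ
          (ε • nv (S.bo m b (S.kl R m x :: R))) h) n (S.kl R m x :: R) y) x ≤
      ENNReal.ofReal (80 * h) * ((12 * ENNReal.ofReal S.kq) ^ n * ENNReal.ofReal S.kq) *
        S.Dk (S.kl R m x) R m x ^ (1 / 2 : ℝ) := by
  set c := S.kl R m x with hc
  set e : E := ε • nv (S.bo m b (c :: R)) with he
  by_cases h0 : h • e = 0
  · have h1 : ∀ y, S.cw (c :: R) m y *
        H711.tau (S.fam m) (S.gq m o (c :: R) univ e h) n (c :: R) y = 0 := by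
      intro y
      rw [tau_of_zero (fun r x => gq_zero m o (c :: R) h0 r x), mul_zero]
    simp only [h1]
    rw [H395.fib_const]
    exact zero_le
  have hh0 : 0 < h := lt_of_le_of_ne hh (fun h1 => h0 (by rw [← h1, zero_smul]))
  have hbo : S.bo m b (c :: R) ≠ 0 := by
    intro h1
    apply h0
    rw [he, h1]
    simp [nv]
  have he1 : ‖e‖ = 1 := by
    rw [he, norm_smul, norm_nv hbo, mul_one]
    rcases mem_sg.1 hε with h1 | h1 <;> rw [h1] <;> simp
  have hmem : e ∈ S.W (c :: R) m := Submodule.smul_mem _ _ (nv_mem bo_mem)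
  have hperp : e ∈ (S.W R m)ᗮ := Submodule.smul_mem _ _ (nv_mem (V := (S.W R m)ᗮ)
    (bo_perp (S := S) (m := m) (b := b) (s := c :: R)))
  have key := dir_sys hm hrot hth hk o (p0 := R) (x0 := x) (c := c) rfl hleaf hmem hperp he1
    (L := univ) MeasurableSet.univ (fun y _ t => mem_univ _) (al := 1 / 2) (be := 0)
    (Or.inl ⟨rfl, rfl⟩) hh0 n
  refine (show _ ≤ _ from key).trans ?_
  rw [ENNReal.rpow_zero, mul_one]
  have h2 := S.finrank_succ_g hm (c := c) hleaf
  have hkd : S.kq ^ (Module.finrank ℝ (S.W (c :: R) m) - Module.finrank ℝ (S.W R m)) ≤ S.kq := by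
    obtain ⟨d, hd⟩ : ∃ d, Module.finrank ℝ (S.W (c :: R) m) -
        Module.finrank ℝ (S.W R m) = d + 1 := ⟨_, (Nat.sub_add_cancel (by omega)).symm⟩
    rw [hd, pow_succ]
    calc S.kq ^ d * S.kq ≤ 1 * S.kq := by
          gcongr
          · exact S.kq_nonneg
          · exact pow_le_one₀ S.kq_nonneg hk
      _ = S.kq := one_mul _
  calc ENNReal.ofReal (40 * h) * (2 * (12 * ENNReal.ofReal S.kq) ^ n *
        S.Dk c R m x ^ (1 / 2 : ℝ)) * ENNReal.ofReal (S.kq ^
          (Module.finrank ℝ (S.W (c :: R) m) - Module.finrank ℝ (S.W R m)))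
      ≤ ENNReal.ofReal (40 * h) * (2 * (12 * ENNReal.ofReal S.kq) ^ n *
        S.Dk c R m x ^ (1 / 2 : ℝ)) * ENNReal.ofReal S.kq := by gcongr
    _ = _ := by
      rw [show (80 : ℝ) * h = 2 * (40 * h) by ring, ENNReal.ofReal_mul (p := 2) (q := 40 * h)
        (by norm_num), show ENNReal.ofReal 2 = 2 by norm_num]
      ring

/-- **the own direction of the level `|q| + i + 1`, `q = c0 :: p0` the rotating node, targets `n`
levels below `q`** -/
theorem own_dir {m : ℕ} (hm : S.mv.tm m < S.T) (hrot : S.mv.IsRot m) (hth : S.th = 1 / 2)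
    (hk : S.kq ≤ 1) {c0 : ℕ} {p0 : List ℕ} (hq : S.mv.jj m = c0 :: p0) {θ : E} {b : List ℕ → E}
    (H : S.RotB m (c0 :: p0) θ b) {x : E} (hx : S.kl p0 m x = c0) (hleaf : ¬ S.Leaf p0 m)
    (o : Bool) {ε : ℝ} (hε : ε ∈ sg) {n i : ℕ} (hi : i < n) :
    fib (S.W p0 m) (fun y => S.cw (c0 :: p0) m y *
        H711.tau (S.fam m) (S.gO m b θ (c0 :: p0) o ε i) n (c0 :: p0) y) x ≤
      ENNReal.ofReal (1920 * S.mv.ph m) * 2 ^ i *
        ENNReal.ofReal ((3072 * S.kap ^ (1 / 2 : ℝ)) ^ (Module.finrank ℝ (S.W (c0 :: p0) m) -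
          Module.finrank ℝ (S.W p0 m) + n)) * S.Dk c0 p0 m x ^ (1 / 2 : ℝ) := by
  have hph := S.mv.ph_nonneg m
  set q : List ℕ := c0 :: p0 with hqd
  set d := Module.finrank ℝ (S.W (c0 :: p0) m) - Module.finrank ℝ (S.W p0 m) with hd
  have hstr := fam_str (S := S) hm q
  set P : List ℕ → ℝ → List ℕ → E → ℝ≥0∞ := fun s h r y =>
    S.gq m o s univ (ε • nv (S.bo m b s)) h r y with hP
  set u : E → ℝ := fun y => 1 + |⟪θ, y⟫| with hu
  set h0 : ℝ := 2 ^ (i + 3) * S.mv.ph m with hh0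
  have hθ1 : ‖θ‖ = 1 := (H.on q List.suffix_rfl).hp
  -- the payoffs agree at the reached nodes
  have hpay : ∀ y, H711.tau (S.fam m) (S.gO m b θ q o ε i) n q y =
      H711.tau (S.fam m) (fun r y => P (r.drop (n - (i + 1))) (h0 * u y) r y) n q y := by
    intro y
    refine H837.tau_congr_of (Q := fun k r => q <:+ r ∧ r.length + k = q.length + n)
      (fun k r x hr _ => ⟨hr.1.trans (List.suffix_cons _ _), by
        show (S.kl r m x :: r).length + k = _
        rw [List.length_cons]; omega⟩) ?_ n q ⟨List.suffix_rfl, rfl⟩ y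
    rintro r ⟨hr, hlen⟩ z
    have hl : r.length - q.length = n := by omega
    have hsf : sf1 q r i = r.drop (n - (i + 1)) := by unfold sf1; rw [hl]
    obtain ⟨-, h2, h3, -⟩ := sf1_facts hr (i := i) (by omega)
    have h4 := mu_lyd_eq (S := S) hrot (hq ▸ h2) h3
      (Submodule.smul_mem _ ε (nv_mem (bo_mem (S := S) (m := m) (b := b)))) (S.stb m i θ z) o z
    show S.gO m b θ q o ε i r z = _
    unfold gO
    rw [h4, hsf, hP]
    have h5 : S.stb m i θ z = h0 * u z := by
      rw [hh0, hu]; unfold stb; ring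
    rw [h5]
  have hgoal : fib (S.W p0 m) (fun y => S.cw (c0 :: p0) m y *
        H711.tau (S.fam m) (S.gO m b θ q o ε i) n q y) x =
      fib (S.W p0 m) (fun y => S.cw (c0 :: p0) m y *
        H711.tau (S.fam m) (fun r y => P (r.drop (n - (i + 1))) (h0 * u y) r y) n q y) x := by
    congr 1
    funext y
    rw [hpay]
  rw [hgoal]
  have hkqd : ∀ r c, ¬ S.Leaf r m →
      S.kq ^ (Module.finrank ℝ (S.W (c :: r) m) - Module.finrank ℝ (S.W r m)) ≤ S.kq := by
    intro r c hl
    have h2 := S.finrank_succ_g hm (c := c) hl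
    obtain ⟨d, hd⟩ : ∃ d, Module.finrank ℝ (S.W (c :: r) m) -
        Module.finrank ℝ (S.W r m) = d + 1 := ⟨_, (Nat.sub_add_cancel (by omega)).symm⟩
    rw [hd, pow_succ]
    calc S.kq ^ d * S.kq ≤ 1 * S.kq := by
          gcongr
          · exact S.kq_nonneg
          · exact pow_le_one₀ S.kq_nonneg hk
      _ = S.kq := one_mul _
  have hd1 : 1 ≤ d := by
    have h2 := S.finrank_succ_g hm (c := c0) hleaf
    omega
  have key := be_s (F := S.fam m) (fun c r => rfl) (c0 := c0) (p0 := p0) (n := n) (k := i + 1)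
    (by omega) (by omega) (u := u) (fun y => by rw [hu]; positivity)
    (by rw [hu]; exact (Continuous.measurable (by fun_prop)))
    (fun r hr x z => by
      show 1 + |⟪θ, mix (S.W r m) x z⟫| = 1 + |⟪θ, x⟫|
      rw [inner_mix_label (S.W_mono hr m H.mem)])
    (P := P) (h0 := h0) (CD := 80) (by rw [hh0]; positivity) (by norm_num)
    (D := fun r => S.DD r m) (Dk := fun c r => S.Dk c r m) (Hn := fun c r => S.hn c r m)
    (s := 1 / 2) (by norm_num)
    (kp := (12 * ENNReal.ofReal S.kq) ^ (n - (i + 1)) * ENNReal.ofReal S.kq)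
    (κ := ENNReal.ofReal S.kq) (κ0 := 3 * ENNReal.ofReal ((384 * S.kap ^ (1 / 2 : ℝ)) ^ d))
    (kl_inv p0 hm) (fun c => S.Dk_inv c p0 hm) (fun r _ => kl_inv r hm)
    (fun r c _ => S.Dk_inv c r hm) (fun r x _ => S.Dk_le_DD _ r hm x)
    (fun y => S.harnack hm _ p0 y) (fun r y _ _ => S.harnack hm _ r y)
    (fun c r => (hstr.wt_meas c r)) (fun c r => S.hn_meas c r m)
    (fun r x _ hL => by
      have h1 := moment_sys hm hth (S.kl r m x) hL (al := 1 / 2) (be := 0) (Or.inl ⟨rfl, rfl⟩)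
        (q := fun _ => 1) measurable_const x
      simp only [ENNReal.rpow_zero, mul_one] at h1
      exact h1.trans (ENNReal.ofReal_le_ofReal (hkqd r _ hL)))
    hx
    (mom_e_c hth hm hleaf c0 H.mem H.perp hθ1.le x)
    (fun R x h hR _ hL hh => dir_own hm hrot hth hk b o hε hL hh (n - (i + 1)) x)
  refine key.trans ?_
  -- the constants
  have hkq0 := S.kq_nonneg
  have h384 : ENNReal.ofReal ((384 * S.kap ^ (1 / 2 : ℝ)) ^ d) ≤ (12 * ENNReal.ofReal S.kq) ^ d := by
    have hkp : (0:ℝ) ≤ S.kap ^ (1 / 2 : ℝ) := Real.rpow_nonneg S.hkap.le _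
    rw [show (12 : ℝ≥0∞) * ENNReal.ofReal S.kq = ENNReal.ofReal (12 * S.kq) by
      rw [ENNReal.ofReal_mul (by norm_num), show ENNReal.ofReal 12 = 12 by norm_num],
      ← ENNReal.ofReal_pow (by positivity)]
    apply ENNReal.ofReal_le_ofReal
    refine pow_le_pow_left₀ (by positivity) ?_ d
    unfold kq
    nlinarith
  have hkk : ENNReal.ofReal S.kq ≤ 12 * ENNReal.ofReal S.kq := by
    calc ENNReal.ofReal S.kq = 1 * ENNReal.ofReal S.kq := (one_mul _).symm
      _ ≤ _ := by gcongr; norm_num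
  have hpow : (12 * ENNReal.ofReal S.kq) ^ (n - (i + 1)) * ENNReal.ofReal S.kq *
      ENNReal.ofReal S.kq ^ (i + 1 - 1) ≤ (12 * ENNReal.ofReal S.kq) ^ n := by
    calc (12 * ENNReal.ofReal S.kq) ^ (n - (i + 1)) * ENNReal.ofReal S.kq *
        ENNReal.ofReal S.kq ^ (i + 1 - 1)
        ≤ (12 * ENNReal.ofReal S.kq) ^ (n - (i + 1)) * (12 * ENNReal.ofReal S.kq) *
          (12 * ENNReal.ofReal S.kq) ^ (i + 1 - 1) := by gcongr
      _ = (12 * ENNReal.ofReal S.kq) ^ n := by
        rw [← pow_succ, ← pow_add]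
        congr 1
        omega
  have hC : ENNReal.ofReal (80 * h0) * 3 = ENNReal.ofReal (1920 * S.mv.ph m) * 2 ^ i := by
    have e1 : (2 : ℝ≥0∞) ^ i = ENNReal.ofReal (2 ^ i) := by
      rw [ENNReal.ofReal_pow (by norm_num), show ENNReal.ofReal 2 = 2 by norm_num]
    have e2 : (3 : ℝ≥0∞) = ENNReal.ofReal 3 := by norm_num
    rw [e1, e2, ← ENNReal.ofReal_mul (by positivity), ← ENNReal.ofReal_mul (by positivity), hh0]
    congr 1
    ring
  have hK : ENNReal.ofReal ((3072 * S.kap ^ (1 / 2 : ℝ)) ^ (d + n)) =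
      (12 * ENNReal.ofReal S.kq) ^ n * (12 * ENNReal.ofReal S.kq) ^ d := by
    have hkp : (0:ℝ) ≤ S.kap ^ (1 / 2 : ℝ) := Real.rpow_nonneg S.hkap.le _
    rw [show (12 : ℝ≥0∞) * ENNReal.ofReal S.kq = ENNReal.ofReal (3072 * S.kap ^ (1 / 2 : ℝ)) by
      rw [show (3072 : ℝ) * S.kap ^ (1 / 2 : ℝ) = 12 * S.kq by unfold kq; ring,
        ENNReal.ofReal_mul (by norm_num), show ENNReal.ofReal 12 = 12 by norm_num],
      ← pow_add, ← ENNReal.ofReal_pow (by positivity), add_comm d n]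
  calc ENNReal.ofReal (80 * h0) * ((12 * ENNReal.ofReal S.kq) ^ (n - (i + 1)) *
        ENNReal.ofReal S.kq) * ENNReal.ofReal S.kq ^ (i + 1 - 1) *
        (3 * ENNReal.ofReal ((384 * S.kap ^ (1 / 2 : ℝ)) ^ d)) * S.Dk c0 p0 m x ^ (1 / 2 : ℝ)
      = (ENNReal.ofReal (80 * h0) * 3) * ((12 * ENNReal.ofReal S.kq) ^ (n - (i + 1)) *
        ENNReal.ofReal S.kq * ENNReal.ofReal S.kq ^ (i + 1 - 1)) *
        ENNReal.ofReal ((384 * S.kap ^ (1 / 2 : ℝ)) ^ d) * S.Dk c0 p0 m x ^ (1 / 2 : ℝ) := by ring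
    _ ≤ (ENNReal.ofReal (80 * h0) * 3) * (12 * ENNReal.ofReal S.kq) ^ n *
        (12 * ENNReal.ofReal S.kq) ^ d * S.Dk c0 p0 m x ^ (1 / 2 : ℝ) := by gcongr
    _ = _ := by rw [hC, hK]; ring

/-- **all own directions together** -/
theorem own_dirs {m : ℕ} (hm : S.mv.tm m < S.T) (hrot : S.mv.IsRot m) (hth : S.th = 1 / 2)
    (hk : S.kq ≤ 1) {c0 : ℕ} {p0 : List ℕ} (hq : S.mv.jj m = c0 :: p0) {θ : E} {b : List ℕ → E}
    (H : S.RotB m (c0 :: p0) θ b) {x : E} (hx : S.kl p0 m x = c0) (hleaf : ¬ S.Leaf p0 m)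
    (o : Bool) {ε : ℝ} (hε : ε ∈ sg) (n : ℕ) :
    fib (S.W p0 m) (fun y => S.cw (c0 :: p0) m y *
        H711.tau (S.fam m) (fun r y => ∑ i ∈ Finset.range n, S.gO m b θ (c0 :: p0) o ε i r y)
          n (c0 :: p0) y) x ≤
      ENNReal.ofReal (1920 * S.mv.ph m) * 2 ^ n *
        ENNReal.ofReal ((3072 * S.kap ^ (1 / 2 : ℝ)) ^ (Module.finrank ℝ (S.W (c0 :: p0) m) -
          Module.finrank ℝ (S.W p0 m) + n)) * S.Dk c0 p0 m x ^ (1 / 2 : ℝ) := by
  have hstr := fam_str (S := S) hm (c0 :: p0)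
  have e1 : (fun y => S.cw (c0 :: p0) m y *
      H711.tau (S.fam m) (fun r y => ∑ i ∈ Finset.range n, S.gO m b θ (c0 :: p0) o ε i r y)
        n (c0 :: p0) y) = fun y => ∑ i ∈ Finset.range n, S.cw (c0 :: p0) m y *
      H711.tau (S.fam m) (S.gO m b θ (c0 :: p0) o ε i) n (c0 :: p0) y := by
    funext y
    rw [H837.tau_finset hstr (Finset.range n) (g := fun i => S.gO m b θ (c0 :: p0) o ε i)
      (fun i r => gO_meas m b θ _ o ε i r), Finset.mul_sum]
  rw [e1, H118.fib_sum_L (Finset.range n) (f := fun i y => S.cw (c0 :: p0) m y *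
      H711.tau (S.fam m) (S.gO m b θ (c0 :: p0) o ε i) n (c0 :: p0) y)
    (fun i => (S.cw_meas (c0 :: p0) m).mul
      (H711.measurable_tau hstr (fun r => gO_meas m b θ _ o ε i r) n _))]
  refine (Finset.sum_le_sum fun i hi =>
    own_dir hm hrot hth hk hq H hx hleaf o hε (Finset.mem_range.1 hi)).trans ?_
  have hsum := H941.sum_two_pow_le n
  rw [← Finset.sum_mul, ← Finset.sum_mul, ← Finset.mul_sum]
  gcongr

end Vale.Agent.P262.M2.Sys
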