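import Vale.Agent.P262.H941.BeSys

/-!
# P262, milestone 2, THR: own directions below any start node
-/

set_option linter.all false

open MeasureTheory ProbabilityTheory Set
open scoped ENNReal RealInnerProductSpace
open Vale.Agent.P262.H118 (Iv st en ON rotE rotL tau wd wrd Mg Piece K2 El2 paths lyd nv sg la
  norm_nv nv_mem mem_sg inner_mix_label lyd_zero)
open Vale.Agent.P262.H395 (fib mix Inv inv_fib measurable_fib fib_mono)
open Vale.Agent.P262.H395.Tree (InvN)

namespace Vale.Agent.P262.M2.Sys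

open Vale.Agent.P262.H941 (measurable_fib_param tau_of_zero)

variable {E : Type*} [NormedAddCommGroup E] [InnerProductSpace ℝ E] [FiniteDimensional ℝ E]
  [MeasurableSpace E] [BorelSpace E] {S : Sys E}

/-- the parent `R` of the level `|q| + i + 1` -/
lemma own_parent {m : ℕ} (hm : S.mv.tm m < S.T) (hrot : S.mv.IsRot m) (hth : S.th = 1 / 2)
    (hk : S.kq ≤ 1) {q : List ℕ} (hq : S.mv.jj m = q) {θ : E} {b : List ℕ → E}
    (H : S.RotB m q θ b) (o : Bool) {ε : ℝ} (hε : ε ∈ sg) {R : List ℕ} (hR : q <:+ R) {i : ℕ}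
    (hlen : R.length = q.length + i) (a : ℕ) (x : E) :
    H711.tau (S.fam m) (S.gO m b θ q o ε i) (a + 1) R x ≤
      ENNReal.ofReal (640 * S.mv.ph m) * 2 ^ i * (12 * ENNReal.ofReal S.kq) ^ (a + 1) *
        (ENNReal.ofReal (1 + |⟪θ, x⟫|) * S.Dk (S.kl R m x) R m x ^ (1 / 2 : ℝ)) := by
  have hph := S.mv.ph_nonneg m
  by_cases hL : S.Leaf R m
  · rw [H962.tau_leaf (F := S.fam m) _ _ hL]
    exact zero_le
  set c := S.kl R m x with hc
  set e : E := ε • nv (S.bo m b (c :: R)) with he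
  have h1 : H711.tau (S.fam m) (S.gO m b θ q o ε i) (a + 1) R x =
      fib (S.W R m) (fun y => S.cw (c :: R) m y *
        H711.tau (S.fam m) (S.gO m b θ q o ε i) a (c :: R) y) x := by
    rw [H962.tau_succ (F := S.fam m) _ _ hL]
    rfl
  rw [h1]
  have h2 : fib (S.W R m) (fun y => S.cw (c :: R) m y *
        H711.tau (S.fam m) (S.gO m b θ q o ε i) a (c :: R) y) x ≤
      fib (S.W R m) (fun y => S.cw (c :: R) m y *
        H711.tau (S.fam m) (S.gq m o (c :: R) univ e (S.stb m i θ x)) a (c :: R) y) x := by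
    refine H711.fib_le_of fun w => ?_
    set z := mix (S.W R m) x w with hz
    -- the payoff at the targets
    have h3 : H711.tau (S.fam m) (S.gO m b θ q o ε i) a (c :: R) z =
        H711.tau (S.fam m) (fun r y => S.gq m o (c :: R) univ e (S.stb m i θ y) r y) a
          (c :: R) z := by
      refine H837.tau_congr_of (Q := fun k r => (c :: R) <:+ r ∧ r.length + k = R.length + 1 + a)
        (fun k r x hr _ => ⟨hr.1.trans (List.suffix_cons _ _), by
          show (S.kl r m x :: r).length + k = _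
          rw [List.length_cons]; omega⟩) ?_ a (c :: R) ⟨List.suffix_rfl, rfl⟩ z
      rintro r ⟨hr, hl⟩ y
      have hqr : q <:+ r := (hR.trans (List.suffix_cons _ _)).trans hr
      have hsf : sf1 q r i = c :: R := by
        unfold sf1
        have h5 : r.length - q.length - (i + 1) = r.length - (c :: R).length := by
          rw [List.length_cons]; omega
        rw [h5]
        exact (List.suffix_iff_eq_drop.1 hr).symm
      have h4 := mu_lyd_eq (S := S) hrot (s := c :: R) (r := r) (hq ▸ hR.trans (List.suffix_cons _ _))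
        hr (Submodule.smul_mem _ ε (nv_mem (bo_mem (S := S) (m := m) (b := b) (s := c :: R))))
        (S.stb m i θ y) o y
      show S.gO m b θ q o ε i r y = _
      unfold gO
      rw [hsf]
      exact h4
    have h6 : H711.tau (S.fam m) (fun r y => S.gq m o (c :: R) univ e (S.stb m i θ y) r y) a
          (c :: R) z = H711.tau (S.fam m) (S.gq m o (c :: R) univ e (S.stb m i θ z)) a
          (c :: R) z := by
      refine H837.tau_freeze (F := S.fam m) (u := fun y => S.stb m i θ y)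
        (G := fun t r y => S.gq m o (c :: R) univ e t r y) (P := fun r => q <:+ r)
        (fun r x hr _ => hr.trans (List.suffix_cons _ _)) ?_ a (c :: R)
        (hR.trans (List.suffix_cons _ _)) z
      intro r hr y w hw
      have h7 : ⟪θ, w⟫ = (0:ℝ) := Submodule.inner_right_of_mem_orthogonal
        (S.W_mono hr m H.mem) hw
      simp only [stb]
      rw [inner_add_right, h7, add_zero]
    have h8 : S.stb m i θ z = S.stb m i θ x := by
      unfold stb
      rw [hz, inner_mix_label (S.W_mono hR m H.mem)]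
    rw [h3, h6, h8]
  refine h2.trans ((dir_own hm hrot hth hk b o hε hL (S.stb_nonneg i θ x) a x).trans ?_)
  have e1 : ENNReal.ofReal (80 * S.stb m i θ x) =
      ENNReal.ofReal (640 * S.mv.ph m) * 2 ^ i * ENNReal.ofReal (1 + |⟪θ, x⟫|) := by
    have e2 : (2 : ℝ≥0∞) ^ i = ENNReal.ofReal (2 ^ i) := by
      rw [ENNReal.ofReal_pow (by norm_num), show ENNReal.ofReal 2 = 2 by norm_num]
    rw [e2, ← ENNReal.ofReal_mul (by positivity), ← ENNReal.ofReal_mul (by positivity)]
    congr 1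
    unfold stb
    ring
  have hkk : ENNReal.ofReal S.kq ≤ 12 * ENNReal.ofReal S.kq := by
    calc ENNReal.ofReal S.kq = 1 * ENNReal.ofReal S.kq := (one_mul _).symm
      _ ≤ _ := by gcongr; norm_num
  rw [e1]
  calc ENNReal.ofReal (640 * S.mv.ph m) * 2 ^ i * ENNReal.ofReal (1 + |⟪θ, x⟫|) *
        ((12 * ENNReal.ofReal S.kq) ^ a * ENNReal.ofReal S.kq) *
          S.Dk c R m x ^ (1 / 2 : ℝ)
      ≤ ENNReal.ofReal (640 * S.mv.ph m) * 2 ^ i * ENNReal.ofReal (1 + |⟪θ, x⟫|) *
        ((12 * ENNReal.ofReal S.kq) ^ a * (12 * ENNReal.ofReal S.kq)) *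
          S.Dk c R m x ^ (1 / 2 : ℝ) := by gcongr
    _ = _ := by rw [pow_succ]; ring

lemma kq12 (S : Sys E) (n : ℕ) : ENNReal.ofReal ((3072 * S.kap ^ (1 / 2 : ℝ)) ^ n) =
    (12 * ENNReal.ofReal S.kq) ^ n := by
  have hkp : (0:ℝ) ≤ S.kap ^ (1 / 2 : ℝ) := Real.rpow_nonneg S.hkap.le _
  rw [show (12 : ℝ≥0∞) * ENNReal.ofReal S.kq = ENNReal.ofReal (3072 * S.kap ^ (1 / 2 : ℝ)) by
    rw [show (3072 : ℝ) * S.kap ^ (1 / 2 : ℝ) = 12 * S.kq by unfold kq; ring,
      ENNReal.ofReal_mul (by norm_num), show ENNReal.ofReal 12 = 12 by norm_num],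
    ← ENNReal.ofReal_pow (by positivity)]

/-- **own direction of the level `|q| + i + 1`, any start node `r0` above it, any label** -/
theorem own_pt {m : ℕ} (hm : S.mv.tm m < S.T) (hrot : S.mv.IsRot m) (hth : S.th = 1 / 2)
    (hk : S.kq ≤ 1) {q : List ℕ} (hq : S.mv.jj m = q) {θ : E} {b : List ℕ → E}
    (H : S.RotB m q θ b) (o : Bool) {ε : ℝ} (hε : ε ∈ sg) {r0 : List ℕ} (hr0 : q <:+ r0)
    {n i : ℕ} (h1 : r0.length - q.length ≤ i) (h2 : i < r0.length - q.length + n) (y : E) :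
    H711.tau (S.fam m) (S.gO m b θ q o ε i) n r0 y ≤
      ENNReal.ofReal (640 * S.mv.ph m) * 2 ^ i *
        ENNReal.ofReal ((3072 * S.kap ^ (1 / 2 : ℝ)) ^ n) *
        (ENNReal.ofReal (1 + |⟪θ, y⟫|) * S.Dk (S.kl r0 m y) r0 m y ^ (1 / 2 : ℝ)) := by
  have hlen := hr0.length_le
  -- `n = k + (a + 1)`, `k` levels down to the parent of the level `|q| + i + 1`
  obtain ⟨k, hk1⟩ : ∃ k, i = r0.length - q.length + k := ⟨_, (Nat.add_sub_cancel' h1).symm⟩
  obtain ⟨a, ha⟩ : ∃ a, n = k + (a + 1) := ⟨n - k - 1, by omega⟩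
  have hchain := chain_sys (S := S) hm hth hk (q := q)
    (u := fun y => ENNReal.ofReal (1 + |⟪θ, y⟫|)) (fun r hr => inv_one_add_c hr H.mem)
    (L := q.length + i)
    (g := fun R y => H711.tau (S.fam m) (S.gO m b θ q o ε i) (a + 1) R y)
    (C := ENNReal.ofReal (640 * S.mv.ph m) * 2 ^ i * (12 * ENNReal.ofReal S.kq) ^ (a + 1))
    (fun R x hR hl => own_parent hm hrot hth hk hq H o hε hR hl a x) k r0 y hr0 (by omega)
  rw [ha, H962.tau_add]
  refine hchain.trans ?_
  rw [kq12]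
  have hkk : ENNReal.ofReal (256 * S.kap ^ (1 / 2 : ℝ)) ≤ 12 * ENNReal.ofReal S.kq := by
    calc ENNReal.ofReal (256 * S.kap ^ (1 / 2 : ℝ)) = 1 * ENNReal.ofReal S.kq := (one_mul _).symm
      _ ≤ _ := by gcongr; norm_num
  calc ENNReal.ofReal (640 * S.mv.ph m) * 2 ^ i * (12 * ENNReal.ofReal S.kq) ^ (a + 1) *
        ENNReal.ofReal (256 * S.kap ^ (1 / 2 : ℝ)) ^ k *
        (ENNReal.ofReal (1 + |⟪θ, y⟫|) * S.Dk (S.kl r0 m y) r0 m y ^ (1 / 2 : ℝ))
      ≤ ENNReal.ofReal (640 * S.mv.ph m) * 2 ^ i * (12 * ENNReal.ofReal S.kq) ^ (a + 1) *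
        (12 * ENNReal.ofReal S.kq) ^ k *
        (ENNReal.ofReal (1 + |⟪θ, y⟫|) * S.Dk (S.kl r0 m y) r0 m y ^ (1 / 2 : ℝ)) := by gcongr
    _ = _ := by rw [pow_add]; ring

/-- **all own directions below the start node** -/
theorem own_pts {m : ℕ} (hm : S.mv.tm m < S.T) (hrot : S.mv.IsRot m) (hth : S.th = 1 / 2)
    (hk : S.kq ≤ 1) {q : List ℕ} (hq : S.mv.jj m = q) {θ : E} {b : List ℕ → E}
    (H : S.RotB m q θ b) (o : Bool) {ε : ℝ} (hε : ε ∈ sg) {r0 : List ℕ} (hr0 : q <:+ r0)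
    (n : ℕ) (y : E) :
    H711.tau (S.fam m) (fun r y => ∑ i ∈ Finset.Ico (r0.length - q.length)
        (r0.length - q.length + n), S.gO m b θ q o ε i r y) n r0 y ≤
      ENNReal.ofReal (640 * S.mv.ph m) * 2 ^ (r0.length - q.length + n) *
        ENNReal.ofReal ((3072 * S.kap ^ (1 / 2 : ℝ)) ^ n) *
        (ENNReal.ofReal (1 + |⟪θ, y⟫|) * S.Dk (S.kl r0 m y) r0 m y ^ (1 / 2 : ℝ)) := by
  have hstr := fam_str (S := S) hm q
  rw [H837.tau_finset hstr (Finset.Ico (r0.length - q.length) (r0.length - q.length + n))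
    (g := fun i => S.gO m b θ q o ε i) (fun i r => gO_meas m b θ _ o ε i r)]
  refine (Finset.sum_le_sum fun i hi => own_pt hm hrot hth hk hq H o hε hr0
    (Finset.mem_Ico.1 hi).1 (Finset.mem_Ico.1 hi).2 y).trans ?_
  rw [← Finset.sum_mul, ← Finset.sum_mul, ← Finset.mul_sum]
  gcongr
  refine (Finset.sum_le_sum_of_subset ?_).trans
    (H941.sum_two_pow_le (r0.length - q.length + n))
  intro i hi
  exact Finset.mem_range.2 (Finset.mem_Ico.1 hi).2

end Vale.Agent.P262.M2.Sys
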