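import Vale.Agent.P262.H941.OneDir2

/-!
# Bobkov's functional isoperimetric inequality, from Ehrhard's inequality
-/

set_option linter.unusedSectionVars false

namespace Vale.Agent.P262.H941

open MeasureTheory ProbabilityTheory Set Filter Topology
open scoped RealInnerProductSpace
open Vale.Agent.P262.H847 Vale.Agent.P262.H912

variable {E : Type*} [NormedAddCommGroup E] [InnerProductSpace ℝ E] [FiniteDimensional ℝ E]
  [MeasurableSpace E] [BorelSpace E]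

lemma Phi_up' (σ : ℝ) {ε ε' : ℝ} (h0 : 0 ≤ ε') (h1 : ε' ≤ ε) (h2 : ε ≤ 1 / 2) :
    Phi ((1 - ε ^ 2) * σ + ε') ≤ Phi σ + ε' * phi σ + 7 * ε ^ 2 := by
  have hb0 : 0 ≤ ε ^ 2 := sq_nonneg _
  have hb1 : ε ^ 2 ≤ 1 / 2 := by nlinarith
  have h3 := Phi_shrink σ _ hb0 hb1
  have h4 := phi_shrink σ _ hb0 hb1
  have h5 := (abs_le.mp (Phi_taylor ((1 - ε ^ 2) * σ) ((1 - ε ^ 2) * σ + ε'))).2
  have e : (1 - ε ^ 2) * σ + ε' - (1 - ε ^ 2) * σ = ε' := by ring
  rw [e] at h5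
  have h6 : ε' ^ 2 ≤ ε ^ 2 := by nlinarith
  nlinarith [mul_le_mul_of_nonneg_left h4 h0]

lemma Phi_neg_le_exp {x : ℝ} (hx : 0 ≤ x) : Phi (-x) ≤ 2 * Real.exp (-(x ^ 2 / 2)) := by
  rcases le_or_gt 1 x with h | h
  · refine (Phi_neg_le h).trans ?_
    rw [phi_eq]
    have h3 : (Real.sqrt (2 * Real.pi))⁻¹ ≤ 1 := by
      apply inv_le_one_of_one_le₀
      rw [Real.one_le_sqrt]
      nlinarith [Real.pi_gt_three]
    have h4 : -(x ^ 2) / 2 = -(x ^ 2 / 2) := by ring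
    rw [h4]
    have := Real.exp_pos (-(x ^ 2 / 2))
    nlinarith
  · have h1 := Phi_le_one (-x)
    have h2 := Real.add_one_le_exp (-(x ^ 2 / 2))
    nlinarith

/-- the ball function -/
private noncomputable def gR (R : ℝ) (y : E) : ℝ :=
  (Metric.closedBall (0:E) R).indicator (fun y => Phi (Real.sqrt (R ^ 2 - ‖y‖ ^ 2))) y

private lemma gR_UI (R : ℝ) : UI (gR (E := E) R) := by
  refine ⟨?_, fun x => indicator_nonneg (fun _ _ => Phi_nonneg _) x,
    fun x => indicator_apply_le' (fun _ => Phi_le_one _) (fun _ => zero_le_one)⟩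
  apply Measurable.indicator _ Metric.isClosed_closedBall.measurableSet
  exact continuous_Phi.measurable.comp (by fun_prop)

private lemma gR_lemma {κ : ℝ} (hκ : 0 < κ) (hκ1 : κ < 1) :
    ∀ᶠ R : ℝ in atTop, Phi ((1 - κ) * R) ≤ ∫ y, gR (E := E) R y ∂(stdGaussian E) := by
  set θ := ((1 - κ) ^ 2 + 1) / 2 with hθ
  have hk2 : (1 - κ) ^ 2 < 1 := by nlinarith
  have hθ1 : θ < 1 := by linarith
  have hθ0 : 0 < θ := by have := sq_nonneg (1 - κ); linarith
  have hθ2 : (1 - κ) ^ 2 < θ := by linarith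
  set I := ∫ x : E, Real.exp (θ * ‖x‖ ^ 2 / 2) ∂(stdGaussian E) with hI
  have hI0 : 0 ≤ I := integral_nonneg fun x => (Real.exp_pos _).le
  filter_upwards [exp_compare (C := 1 + 2 * I) (by linarith) hκ hκ1 hθ2, eventually_ge_atTop 1]
    with R hR hR1
  have hpt : ∀ y : E, 1 - gR R y ≤ 2 * Real.exp (-(θ * R ^ 2 / 2)) * Real.exp (θ * ‖y‖ ^ 2 / 2) := by
    intro y
    have e1 : 2 * Real.exp (-(θ * R ^ 2 / 2)) * Real.exp (θ * ‖y‖ ^ 2 / 2)
        = 2 * Real.exp (-(θ * (R ^ 2 - ‖y‖ ^ 2) / 2)) := by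
      rw [mul_assoc, ← Real.exp_add]; congr 2; ring
    rw [e1]
    unfold gR
    by_cases hy : y ∈ Metric.closedBall (0:E) R
    · rw [indicator_of_mem hy]
      rw [mem_closedBall_zero_iff] at hy
      have h1 : 0 ≤ R ^ 2 - ‖y‖ ^ 2 := by nlinarith [norm_nonneg y]
      have h2 := Phi_neg_le_exp (Real.sqrt_nonneg (R ^ 2 - ‖y‖ ^ 2))
      rw [Phi_neg, Real.sq_sqrt h1] at h2
      refine h2.trans ?_
      apply mul_le_mul_of_nonneg_left _ (by norm_num)
      apply Real.exp_le_exp.mpr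
      nlinarith
    · rw [indicator_of_notMem hy]
      rw [mem_closedBall_zero_iff, not_le] at hy
      have h1 : 0 ≤ -(θ * (R ^ 2 - ‖y‖ ^ 2) / 2) := by
        have : R ^ 2 - ‖y‖ ^ 2 ≤ 0 := by nlinarith
        nlinarith
      have := Real.one_le_exp h1
      linarith
  have hgi := (gR_UI (E := E) R).integrable (stdGaussian E)
  have h1 : 1 - ∫ y, gR (E := E) R y ∂(stdGaussian E)
      ≤ 2 * Real.exp (-(θ * R ^ 2 / 2)) * I := by
    have h2 : ∫ y : E, (1 - gR R y) ∂(stdGaussian E)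
        ≤ ∫ y : E, 2 * Real.exp (-(θ * R ^ 2 / 2)) * Real.exp (θ * ‖y‖ ^ 2 / 2)
          ∂(stdGaussian E) :=
      integral_mono ((integrable_const _).sub hgi) ((integrable_exp_sq hθ1).const_mul _) hpt
    rw [integral_const_mul, integral_sub (integrable_const _) hgi] at h2
    simpa using h2
  have h3 : phi ((1 - κ) * R + 1) ≤ Phi (-((1 - κ) * R)) :=
    Phi_neg_ge (mul_nonneg (by linarith) (by linarith))
  rw [Phi_neg] at h3
  have h4 := Real.exp_pos (-(θ * R ^ 2 / 2))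
  nlinarith

section

variable {h D : E → ℝ} {B L : ℝ}

private noncomputable def q' (ε : ℝ) (z : E) : ℝ := (1 + ε * ‖z‖) / (1 - ε ^ 2)

private lemma q'_bound {ε : ℝ} (h0 : 0 ≤ ε) (h1 : ε ≤ 1 / 2) (z : E) :
    0 ≤ q' ε z ∧ q' ε z ≤ 2 * (1 + ‖z‖) := by
  have h2 : 3 / 4 ≤ 1 - ε ^ 2 := by nlinarith
  have h3 := norm_nonneg z
  unfold q'
  constructor
  · positivity
  · rw [div_le_iff₀ (by linarith)]
    nlinarith [mul_nonneg h0 h3]

/-- first order part -/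
private noncomputable def JJ (h D : E → ℝ) (L ε : ℝ) (z : E) : ℝ :=
  Ip (h z) + 2 * Real.sqrt (ε * (D z * q' ε z) + ε ^ 2 * (L * q' ε z ^ 2))

private noncomputable def GG (h D : E → ℝ) (L ε : ℝ) (z : E) : ℝ :=
  Real.sqrt ((D z * q' ε z) ^ 2 + JJ h D L ε z ^ 2)
    + ε * (L * q' ε z ^ 2 + 2 * D z * ‖z‖ + 7)

private lemma measurable_q' (ε : ℝ) : Measurable (q' (E := E) ε) := by
  unfold q'; fun_prop

private lemma measurable_JJ (hh : Measurable h) (hD : Measurable D) (L ε : ℝ) :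
    Measurable (JJ h D L ε) := by
  unfold JJ
  exact (measurable_Ip.comp hh).add ((Real.continuous_sqrt.measurable.comp
    (((hD.mul (measurable_q' ε)).const_mul ε).add
      ((((measurable_q' ε).pow_const 2).const_mul L).const_mul (ε ^ 2)))).const_mul 2)

private lemma measurable_GG (hh : Measurable h) (hD : Measurable D) (L ε : ℝ) :
    Measurable (GG h D L ε) := by
  unfold GG
  exact (Real.continuous_sqrt.measurable.comp (((hD.mul (measurable_q' ε)).pow_const 2).add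
    ((measurable_JJ hh hD L ε).pow_const 2))).add
    ((((((measurable_q' ε).pow_const 2).const_mul L).add
      ((hD.const_mul 2).mul measurable_norm)).add measurable_const).const_mul ε)

private lemma GG_bound (hD0 : ∀ x, 0 ≤ D x) (hDB : ∀ x, D x ≤ B) (hL : 0 ≤ L)
    {ε : ℝ} (h0 : 0 ≤ ε) (h1 : ε ≤ 1 / 2) (z : E) :
    0 ≤ GG h D L ε z ∧ GG h D L ε z ≤ (10 * B + 20 * L + 20) * (1 + ‖z‖) ^ 2 := by
  have hB : 0 ≤ B := (hD0 0).trans (hDB 0)
  obtain ⟨h2, h3⟩ := q'_bound (E := E) h0 h1 z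
  have h4 := norm_nonneg z
  have h5 := hD0 z
  have h6 := hDB z
  have hJ0 : 0 ≤ JJ h D L ε z := by
    unfold JJ
    exact add_nonneg (Ip_nonneg _) (by positivity)
  set w := (1 + ‖z‖) ^ 2 with hw
  have hw1 : 1 + ‖z‖ ≤ w := by rw [hw]; nlinarith
  have hw2 : 1 ≤ w := by rw [hw]; nlinarith
  have a1 : D z * q' ε z ≤ 2 * B * w := by
    calc D z * q' ε z ≤ B * (2 * (1 + ‖z‖)) := mul_le_mul h6 h3 h2 hB
      _ = 2 * B * (1 + ‖z‖) := by ring
      _ ≤ 2 * B * w := mul_le_mul_of_nonneg_left hw1 (by linarith)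
  have a2 : q' ε z ^ 2 ≤ 4 * w := by rw [hw]; nlinarith
  have a3 : L * q' ε z ^ 2 ≤ 4 * L * w := by nlinarith
  have a4 : 0 ≤ D z * q' ε z := mul_nonneg h5 h2
  have a5 : 0 ≤ L * q' ε z ^ 2 := by positivity
  have a6 : ε * (D z * q' ε z) + ε ^ 2 * (L * q' ε z ^ 2) ≤ B * w + L * w := by
    have b1 : ε * (D z * q' ε z) ≤ 1 / 2 * (D z * q' ε z) := mul_le_mul_of_nonneg_right h1 a4
    have b2 : ε ^ 2 * (L * q' ε z ^ 2) ≤ 1 / 4 * (L * q' ε z ^ 2) :=
      mul_le_mul_of_nonneg_right (by nlinarith) a5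
    linarith
  have a7 : Real.sqrt (ε * (D z * q' ε z) + ε ^ 2 * (L * q' ε z ^ 2)) ≤ 1 + (B * w + L * w) := by
    rw [Real.sqrt_le_left (by positivity)]
    have : 0 ≤ B * w + L * w := by positivity
    nlinarith
  have a8 : JJ h D L ε z ≤ 1 + 2 * (1 + (B * w + L * w)) := by
    unfold JJ
    have := Ip_le_one (h z)
    linarith
  have a9 : Real.sqrt ((D z * q' ε z) ^ 2 + JJ h D L ε z ^ 2) ≤ D z * q' ε z + JJ h D L ε z := by
    rw [Real.sqrt_le_left (by positivity)]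
    nlinarith [mul_nonneg a4 hJ0]
  have a10 : D z * ‖z‖ ≤ B * w := by
    calc D z * ‖z‖ ≤ B * (1 + ‖z‖) := mul_le_mul h6 (by linarith) h4 hB
      _ ≤ B * w := mul_le_mul_of_nonneg_left hw1 hB
  constructor
  · unfold GG
    have := mul_nonneg h5 h4
    positivity
  · unfold GG
    have a11 : ε * (L * q' ε z ^ 2 + 2 * D z * ‖z‖ + 7) ≤ 1 / 2 * (4 * L * w + 2 * (B * w) + 7) := by
      have := mul_nonneg h5 h4
      apply mul_le_mul h1 _ (by positivity) (by norm_num)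
      linarith
    nlinarith

private lemma integrable_GG (hh : UI h) (hDm : Measurable D) (hD0 : ∀ x, 0 ≤ D x)
    (hDB : ∀ x, D x ≤ B) (hL : 0 ≤ L) {ε : ℝ} (h0 : 0 ≤ ε) (h1 : ε ≤ 1 / 2) :
    Integrable (GG h D L ε) (stdGaussian E) := by
  refine ((integrable_one_add_sq (E := E)).const_mul (10 * B + 20 * L + 20)).mono'
    (measurable_GG hh.meas hDm L ε).aestronglyMeasurable (Eventually.of_forall fun z => ?_)
  obtain ⟨h2, h3⟩ := GG_bound (h := h) hD0 hDB hL h0 h1 z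
  rw [Real.norm_eq_abs, abs_of_nonneg h2]
  exact h3

private lemma GG_tendsto (hh : UI h) (hDm : Measurable D) (hD0 : ∀ x, 0 ≤ D x)
    (hDB : ∀ x, D x ≤ B) (hL : 0 ≤ L) :
    Tendsto (fun ε => ∫ z, GG h D L ε z ∂(stdGaussian E)) (𝓝[>] 0)
      (𝓝 (∫ z, Real.sqrt (D z ^ 2 + Ip (h z) ^ 2) ∂(stdGaussian E))) := by
  apply tendsto_integral_filter_of_dominated_convergence
    (fun z => (10 * B + 20 * L + 20) * (1 + ‖z‖) ^ 2)
  · exact Eventually.of_forall fun ε => (measurable_GG hh.meas hDm L ε).aestronglyMeasurable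
  · filter_upwards [Ioo_mem_nhdsGT (show (0:ℝ) < 1 / 2 by norm_num)] with ε hε
    refine Eventually.of_forall fun z => ?_
    obtain ⟨h2, h3⟩ := GG_bound (h := h) hD0 hDB hL hε.1.le hε.2.le z
    rw [Real.norm_eq_abs, abs_of_nonneg h2]
    exact h3
  · exact (integrable_one_add_sq (E := E)).const_mul _
  · refine Eventually.of_forall fun z => ?_
    have hq : ContinuousAt (fun ε : ℝ => q' ε z) 0 := by
      unfold q'
      apply ContinuousAt.div (by fun_prop) (by fun_prop)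
      norm_num
    have hJ : ContinuousAt (fun ε : ℝ => JJ h D L ε z) 0 := by
      unfold JJ
      fun_prop
    have hF : ContinuousAt (fun ε : ℝ => GG h D L ε z) 0 := by
      unfold GG
      fun_prop
    have e : GG h D L 0 z = Real.sqrt (D z ^ 2 + Ip (h z) ^ 2) := by
      simp [GG, JJ, q']
    have := hF.tendsto
    rw [e] at this
    exact this.mono_left nhdsWithin_le_nhds

/-- Cauchy-Schwarz in the plane -/
private lemma cs_plane {r a b : ℝ} (hr : r ≤ 1) (hr0 : 0 ≤ r) (_ha : 0 ≤ a) (_hb : 0 ≤ b) :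
    r * a + Real.sqrt (1 - r ^ 2) * b ≤ Real.sqrt (a ^ 2 + b ^ 2) := by
  have h1 : 0 ≤ 1 - r ^ 2 := by nlinarith
  set u := Real.sqrt (1 - r ^ 2) with hu
  have hu2 : u ^ 2 = 1 - r ^ 2 := Real.sq_sqrt h1
  have hu0 : 0 ≤ u := Real.sqrt_nonneg _
  apply Real.le_sqrt_of_sq_le
  have h2 : a ^ 2 + b ^ 2 - (r * a + u * b) ^ 2 = (u * a - r * b) ^ 2
      + (a ^ 2 + b ^ 2) * (1 - r ^ 2 - u ^ 2) := by ring
  have h3 : 0 ≤ (u * a - r * b) ^ 2 := sq_nonneg _
  rw [hu2] at h2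
  nlinarith

/-- the pointwise condition of Ehrhard's inequality -/
private lemma pt_cond (hh : UI h) (hD0 : ∀ x, 0 ≤ D x)
    (hL : 0 ≤ L) (hT : ∀ x z, h (x + z) ≤ h x + D x * ‖z‖ + L * ‖z‖ ^ 2) {ε : ℝ} (hε0 : 0 < ε)
    (hε2 : ε ≤ 1 / 2) (x y : E) (s' t : ℝ) (hs' : Phi s' ≤ h x) (ht : Phi t ≤ gR ε⁻¹ y) :
    Phi ((1 - ε ^ 2) * s' + ε ^ 2 * t)
      ≤ min 1 (h ((1 - ε ^ 2) • x + ε ^ 2 • y)
        + ε * GG h D L ε ((1 - ε ^ 2) • x + ε ^ 2 • y)) := by
  have ha34 : 3 / 4 ≤ 1 - ε ^ 2 := by nlinarith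
  have ha : 0 < 1 - ε ^ 2 := by linarith
  have hy : y ∈ Metric.closedBall (0:E) ε⁻¹ := by
    by_contra hy
    unfold gR at ht
    rw [indicator_of_notMem hy] at ht
    exact absurd ht (not_le.mpr (Phi_pos t))
  unfold gR at ht
  rw [indicator_of_mem hy, strictMono_Phi.le_iff_le] at ht
  rw [mem_closedBall_zero_iff] at hy
  set r := ε * ‖y‖ with hr
  have hr0 : 0 ≤ r := by positivity
  have hr1 : r ≤ 1 := by
    rw [hr]
    calc ε * ‖y‖ ≤ ε * ε⁻¹ := mul_le_mul_of_nonneg_left hy hε0.le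
      _ = 1 := mul_inv_cancel₀ hε0.ne'
  set ε' := ε * Real.sqrt (1 - r ^ 2) with hε'
  have hε'0 : 0 ≤ ε' := by positivity
  have hε'1 : ε' ≤ ε := by
    rw [hε']
    apply mul_le_of_le_one_right hε0.le
    rw [Real.sqrt_le_left (by norm_num)]
    nlinarith
  have ht2 : ε ^ 2 * t ≤ ε' := by
    have h5 : Real.sqrt ((ε⁻¹) ^ 2 - ‖y‖ ^ 2) = ε⁻¹ * Real.sqrt (1 - r ^ 2) := by
      have : (ε⁻¹) ^ 2 - ‖y‖ ^ 2 = (ε⁻¹) ^ 2 * (1 - r ^ 2) := by
        rw [hr]; field_simp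
      rw [this, Real.sqrt_mul (by positivity), Real.sqrt_sq (by positivity)]
    rw [h5] at ht
    calc ε ^ 2 * t ≤ ε ^ 2 * (ε⁻¹ * Real.sqrt (1 - r ^ 2)) :=
          mul_le_mul_of_nonneg_left ht (sq_nonneg ε)
      _ = ε' := by rw [hε']; field_simp
  set z := (1 - ε ^ 2) • x + ε ^ 2 • y with hz
  set ρ := ε * ((r + ε * ‖z‖) / (1 - ε ^ 2)) with hρ
  have hρ0 : 0 ≤ ρ := by have := norm_nonneg z; positivity
  have hxz : ‖x - z‖ ≤ ρ := by
    have e1 : (1 - ε ^ 2) • (x - z) = ε ^ 2 • (z - y) := by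
      rw [hz]; module
    have e2 : (1 - ε ^ 2) * ‖x - z‖ = ε ^ 2 * ‖z - y‖ := by
      rw [← abs_of_pos ha, ← Real.norm_eq_abs, ← norm_smul, e1, norm_smul,
        Real.norm_eq_abs, abs_of_nonneg (sq_nonneg ε)]
    have e3 : ‖z - y‖ ≤ ‖z‖ + ‖y‖ := norm_sub_le _ _
    have e4 : ρ = ε ^ 2 * (‖z‖ + ‖y‖) / (1 - ε ^ 2) := by
      rw [hρ, hr]; field_simp; ring
    rw [e4, le_div_iff₀ ha, mul_comm, e2]
    exact mul_le_mul_of_nonneg_left e3 (sq_nonneg ε)
  have hρq : ρ ≤ ε * q' ε z := by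
    rw [hρ]
    apply mul_le_mul_of_nonneg_left _ hε0.le
    unfold q'
    apply div_le_div_of_nonneg_right _ ha.le
    linarith
  have hρr : ρ ≤ ε * (r * q' ε z) + ε ^ 2 * (2 * ‖z‖) := by
    have hz0 := norm_nonneg z
    have h5 : ρ = ε * (r / (1 - ε ^ 2)) + ε ^ 2 * (‖z‖ / (1 - ε ^ 2)) := by
      rw [hρ]; field_simp
    rw [h5]
    apply add_le_add
    · apply mul_le_mul_of_nonneg_left _ hε0.le
      unfold q'
      rw [← mul_div_assoc]
      apply div_le_div_of_nonneg_right _ ha.le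
      have := mul_nonneg hε0.le hz0
      nlinarith
    · apply mul_le_mul_of_nonneg_left _ (sq_nonneg ε)
      rw [div_le_iff₀ ha]
      nlinarith
  have hDz := hD0 z
  have hqz := (q'_bound (E := E) hε0.le hε2 z).1
  set m := h z + D z * ρ + L * ρ ^ 2 with hm
  have hx : h x ≤ m := by
    have e1 := hT z (x - z)
    rw [add_sub_cancel] at e1
    have e2 : D z * ‖x - z‖ ≤ D z * ρ := mul_le_mul_of_nonneg_left hxz hDz
    have e3 : L * ‖x - z‖ ^ 2 ≤ L * ρ ^ 2 :=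
      mul_le_mul_of_nonneg_left (pow_le_pow_left₀ (norm_nonneg _) hxz 2) hL
    linarith
  have hρ2 : L * ρ ^ 2 ≤ ε ^ 2 * (L * q' ε z ^ 2) := by
    have : ρ ^ 2 ≤ (ε * q' ε z) ^ 2 := pow_le_pow_left₀ hρ0 hρq 2
    calc L * ρ ^ 2 ≤ L * (ε * q' ε z) ^ 2 := mul_le_mul_of_nonneg_left this hL
      _ = _ := by ring
  have hmz : m - h z ≤ ε * (D z * q' ε z) + ε ^ 2 * (L * q' ε z ^ 2) := by
    have : D z * ρ ≤ D z * (ε * q' ε z) := mul_le_mul_of_nonneg_left hρq hDz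
    rw [hm]; linarith [mul_left_comm (D z) ε (q' ε z)]
  have hJ0 : 0 ≤ JJ h D L ε z := by
    unfold JJ
    exact add_nonneg (Ip_nonneg _) (by positivity)
  have hDq : 0 ≤ D z * q' ε z := mul_nonneg hDz hqz
  have hcs := cs_plane hr1 hr0 hDq hJ0
  have hm1 : m ≤ h z + ε * (r * (D z * q' ε z))
      + ε ^ 2 * (L * q' ε z ^ 2 + 2 * D z * ‖z‖) := by
    have b1 : D z * ρ ≤ D z * (ε * (r * q' ε z) + ε ^ 2 * (2 * ‖z‖)) :=
      mul_le_mul_of_nonneg_left hρr hDz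
    have b2 : D z * (ε * (r * q' ε z) + ε ^ 2 * (2 * ‖z‖))
        = ε * (r * (D z * q' ε z)) + ε ^ 2 * (2 * D z * ‖z‖) := by ring
    have b3 : ε ^ 2 * (L * q' ε z ^ 2 + 2 * D z * ‖z‖)
        = ε ^ 2 * (L * q' ε z ^ 2) + ε ^ 2 * (2 * D z * ‖z‖) := by ring
    rw [hm, b3]
    linarith
  have hsm := hs'.trans hx
  apply le_min (Phi_le_one _)
  have hGG : h z + ε * (r * (D z * q' ε z) + Real.sqrt (1 - r ^ 2) * JJ h D L ε z)
      + ε ^ 2 * (L * q' ε z ^ 2 + 2 * D z * ‖z‖ + 7) ≤ h z + ε * GG h D L ε z := by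
    unfold GG
    have b1 := mul_le_mul_of_nonneg_left hcs hε0.le
    have b2 : ∀ S K : ℝ, ε * (S + ε * K) = ε * S + ε ^ 2 * K := by intro S K; ring
    rw [b2]
    linarith
  refine le_trans ?_ hGG
  have b4 : ε * (r * (D z * q' ε z) + Real.sqrt (1 - r ^ 2) * JJ h D L ε z)
      = ε * (r * (D z * q' ε z)) + ε * (Real.sqrt (1 - r ^ 2) * JJ h D L ε z) := by ring
  have b5 : ε ^ 2 * (L * q' ε z ^ 2 + 2 * D z * ‖z‖ + 7)
      = ε ^ 2 * (L * q' ε z ^ 2 + 2 * D z * ‖z‖) + 7 * ε ^ 2 := by ring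
  rw [b4, b5]
  rcases le_or_gt 1 m with hm2 | hm2
  · have := Phi_le_one ((1 - ε ^ 2) * s' + ε ^ 2 * t)
    have h8 : 0 ≤ ε * (Real.sqrt (1 - r ^ 2) * JJ h D L ε z) := by positivity
    have h9 : 0 ≤ 7 * ε ^ 2 := by positivity
    linarith
  · have hm0' : 0 < m := lt_of_lt_of_le (Phi_pos _) hsm
    obtain ⟨σ, hσ⟩ := exists_Phi_eq hm0' hm2
    have hsσ : s' ≤ σ := by rwa [← hσ, strictMono_Phi.le_iff_le] at hsm
    have h10 : Phi ((1 - ε ^ 2) * s' + ε ^ 2 * t) ≤ Phi ((1 - ε ^ 2) * σ + ε') := by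
      apply strictMono_Phi.monotone
      have := mul_le_mul_of_nonneg_left hsσ ha.le
      linarith
    have h11 := Phi_up' σ hε'0 hε'1 hε2
    rw [hσ, ← Ip_Phi, hσ] at h11
    have h12 : Ip m ≤ JJ h D L ε z := by
      have h13 : 0 ≤ m - h z := by
        rw [hm]
        have := mul_nonneg hDz hρ0
        have := mul_nonneg hL (sq_nonneg ρ)
        linarith
      have h14 := Ip_add_le (hh.nonneg z) h13 (by linarith)
      rw [add_sub_cancel] at h14
      have h15 := Ip_le_sqrt (m - h z)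
      rw [abs_of_nonneg h13] at h15
      have h16 := Real.sqrt_le_sqrt hmz
      unfold JJ
      linarith
    have h17 : ε' * Ip m ≤ ε * (Real.sqrt (1 - r ^ 2) * JJ h D L ε z) := by
      calc ε' * Ip m ≤ ε' * JJ h D L ε z := mul_le_mul_of_nonneg_left h12 hε'0
        _ = _ := by rw [hε']; ring
    have h18 := h10.trans h11
    linarith

/-- **Bobkov's functional isoperimetric inequality.** -/
theorem bobkov (hh : UI h) (hDm : Measurable D) (hD0 : ∀ x, 0 ≤ D x) (hDB : ∀ x, D x ≤ B)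
    (hL : 0 ≤ L) (hT : ∀ x z, h (x + z) ≤ h x + D x * ‖z‖ + L * ‖z‖ ^ 2) :
    Ip (∫ x, h x ∂(stdGaussian E)) ≤ ∫ x, Real.sqrt (D x ^ 2 + Ip (h x) ^ 2) ∂(stdGaussian E) := by
  have hB : 0 ≤ B := (hD0 0).trans (hDB 0)
  have hRHS : 0 ≤ ∫ x, Real.sqrt (D x ^ 2 + Ip (h x) ^ 2) ∂(stdGaussian E) :=
    integral_nonneg fun x => Real.sqrt_nonneg _
  by_cases hp : 0 < ∫ x, h x ∂(stdGaussian E) ∧ ∫ x, h x ∂(stdGaussian E) < 1
  swap
  · rw [Ip, if_neg hp]
    exact hRHS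
  obtain ⟨s, hs⟩ := exists_Phi_eq hp.1 hp.2
  rw [← hs, Ip_Phi]
  have hmain : ∀ κ : ℝ, 0 < κ → κ < 1 →
      (1 - κ) * phi s ≤ ∫ x, Real.sqrt (D x ^ 2 + Ip (h x) ^ 2) ∂(stdGaussian E) := by
    intro κ hκ hκ1
    have hb : ∀ᶠ ε : ℝ in 𝓝[>] 0, Phi ((1 - κ) * ε⁻¹)
      ≤ ∫ y, gR (E := E) ε⁻¹ y ∂(stdGaussian E) :=
      tendsto_inv_nhdsGT_zero.eventually (gR_lemma (E := E) hκ hκ1)
    have hkey : ∀ᶠ ε : ℝ in 𝓝[>] 0,
        ε⁻¹ * (Phi ((1 - ε ^ 2) * s + (1 - κ) * ε) - Phi s)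
          ≤ ∫ z, GG h D L ε z ∂(stdGaussian E) := by
      filter_upwards [hb, Ioo_mem_nhdsGT (show (0:ℝ) < 1 / 2 by norm_num)] with ε hε1 hε
      have hε0 : 0 < ε := hε.1
      have ha : 0 < 1 - ε ^ 2 := by nlinarith [hε.2]
      have hGm := measurable_GG hh.meas hDm L ε
      set H : E → ℝ := fun z => min 1 (h z + ε * GG h D L ε z) with hH
      have hG0 : ∀ z, 0 ≤ GG h D L ε z := fun z => (GG_bound (h := h) hD0 hDB hL hε.1.le hε.2.le z).1
      have hHm : UI H := by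
        refine ⟨?_, fun x => ?_, fun x => min_le_left _ _⟩
        · exact measurable_const.min (hh.meas.add (hGm.const_mul ε))
        · apply le_min zero_le_one
          have := hG0 x
          have := hh.nonneg x
          positivity
      have h1 := Ehr.stdGaussian E (1 - ε ^ 2) (ε ^ 2) ha (by positivity) (by ring) h
        (gR ε⁻¹) H hh (gR_UI _) hHm ?_ s ((1 - κ) * ε⁻¹) (by rw [hs]) hε1
      · have h2 : (1 - ε ^ 2) * s + ε ^ 2 * ((1 - κ) * ε⁻¹)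
            = (1 - ε ^ 2) * s + (1 - κ) * ε := by
          field_simp
        rw [h2] at h1
        have hGi := integrable_GG hh hDm hD0 hDB hL hε.1.le hε.2.le
        have h3 : ∫ z, H z ∂(stdGaussian E) ≤ ∫ z, (h z + ε * GG h D L ε z) ∂(stdGaussian E) :=
          integral_mono (hHm.integrable _) ((hh.integrable _).add (hGi.const_mul ε))
            (fun z => min_le_right _ _)
        rw [integral_add (hh.integrable _) (hGi.const_mul ε), integral_const_mul, ← hs] at h3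
        rw [inv_mul_le_iff₀ hε0]
        linarith
      · exact fun x y s' t hs' ht => pt_cond hh hD0 hL hT hε0 hε.2.le x y s' t hs' ht
    -- the limit
    have hlim1 : Tendsto (fun ε : ℝ => ε⁻¹ * (Phi ((1 - ε ^ 2) * s + (1 - κ) * ε) - Phi s))
        (𝓝[>] 0) (𝓝 ((1 - κ) * phi s)) := by
      have hd : HasDerivAt (fun ε : ℝ => Phi ((1 - ε ^ 2) * s + (1 - κ) * ε))
          ((1 - κ) * phi s) 0 := by
        have h1 : HasDerivAt (fun ε : ℝ => (1 - ε ^ 2) * s + (1 - κ) * ε) (1 - κ) 0 := by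
          have h2 := (((hasDerivAt_pow 2 (0:ℝ)).const_sub 1).mul_const s).add
            ((hasDerivAt_id (0:ℝ)).const_mul (1 - κ))
          exact h2.congr_deriv (by simp)
        have h3 := (hasDerivAt_Phi ((1 - (0:ℝ) ^ 2) * s + (1 - κ) * 0)).comp (0:ℝ) h1
        refine h3.congr_deriv ?_
        simp [mul_comm]
      have h4 := hd.tendsto_slope_zero_right
      refine h4.congr (fun ε => ?_)
      simp
    exact le_of_tendsto_of_tendsto hlim1 (GG_tendsto hh hDm hD0 hDB hL) hkey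
  apply le_of_forall_pos_le_add
  intro κ hκ
  rcases lt_or_ge κ 1 with h1 | h1
  · have h2 := hmain κ hκ h1
    have := phi_le_one s
    have := phi_pos s
    nlinarith
  · have h2 := phi_le_one s
    linarith

end

end Vale.Agent.P262.H941
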