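import Vale.Agent.P262.H941.Step

/-!
# Multiscale isoperimetry, dyadic form
-/

set_option linter.unusedSectionVars false

namespace Vale.Agent.P262.H941

open MeasureTheory ProbabilityTheory Set Filter Topology
open scoped RealInnerProductSpace BoundedContinuousFunction
open Vale.Agent.P262.H847 Vale.Agent.P262.H912

/-! ### Modulus of continuity of the profile -/

lemma Ip_mul_le {l b : ℝ} (hl : 0 ≤ l) (hl1 : l ≤ 1) (hb : 0 ≤ b) (hb1 : b ≤ 1) :
    l * Ip b ≤ Ip (l * b) := by
  have h0 : 0 ≤ l * b := mul_nonneg hl hb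
  have h1 : l * b ≤ 1 := by nlinarith
  rcases h0.eq_or_lt with h | h0
  · rcases mul_eq_zero.mp h.symm with h | h
    · rw [h]; simp [Ip_of_nonpos le_rfl]
    · rw [h]; simp [Ip_of_nonpos le_rfl]
  rcases h1.eq_or_lt with h | h1
  · have hb2 : b = 1 := by nlinarith
    rw [hb2, Ip_of_one_le le_rfl, mul_zero]
    exact Ip_nonneg _
  obtain ⟨z, hz⟩ := exists_Phi_eq h0 h1
  have h2 := Ip_tangent hb hb1 z
  have h3 := mills z
  rw [← hz, Ip_Phi]
  have h4 := mul_le_mul_of_nonneg_left h2 hl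
  have h5 := mul_le_mul_of_nonneg_left h3 (sub_nonneg.mpr hl1)
  have h6 : z * (l * b) = z * Phi z := by rw [hz]
  nlinarith

lemma Ip_add_le {a d : ℝ} (ha : 0 ≤ a) (hd : 0 ≤ d) (h : a + d ≤ 1) :
    Ip (a + d) ≤ Ip a + Ip d := by
  rcases (add_nonneg ha hd).eq_or_lt with h0 | h0
  · rw [← h0, Ip_of_nonpos le_rfl]
    exact add_nonneg (Ip_nonneg _) (Ip_nonneg _)
  have h1 := Ip_mul_le (l := a / (a + d)) (b := a + d) (by positivity)
    (by rw [div_le_one h0]; linarith) h0.le h
  have h2 := Ip_mul_le (l := d / (a + d)) (b := a + d) (by positivity)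
    (by rw [div_le_one h0]; linarith) h0.le h
  rw [div_mul_cancel₀ _ h0.ne'] at h1 h2
  have h3 : a / (a + d) + d / (a + d) = 1 := by
    rw [← add_div, div_self h0.ne']
  nlinarith [Ip_nonneg (a + d)]

lemma Ip_sub_le {a b : ℝ} (ha : 0 ≤ a) (ha1 : a ≤ 1) (hb : 0 ≤ b) (hb1 : b ≤ 1) :
    Ip b ≤ Ip a + Ip |b - a| := by
  rcases le_total a b with h | h
  · rw [abs_of_nonneg (by linarith)]
    have := Ip_add_le ha (sub_nonneg.mpr h) (by linarith)
    rwa [add_sub_cancel] at this
  · rw [abs_of_nonpos (by linarith), ← Ip_symm b, ← Ip_symm a]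
    have := Ip_add_le (a := 1 - a) (d := a - b) (by linarith) (by linarith) (by linarith)
    have e1 : 1 - a + (a - b) = 1 - b := by ring
    have e2 : -(b - a) = a - b := by ring
    rwa [e1, ← e2] at this

variable {E : Type*} [NormedAddCommGroup E] [InnerProductSpace ℝ E] [FiniteDimensional ℝ E]
  [MeasurableSpace E] [BorelSpace E]

lemma UI.Ip {Ω : Type*} [MeasurableSpace Ω] {f : Ω → ℝ} (hf : UI f) : UI (fun x => Ip (f x)) :=
  ⟨measurable_Ip.comp hf.meas, fun _ => Ip_nonneg _, fun _ => Ip_le_one _⟩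

/-- the `Ip` functional is continuous in `L¹` -/
lemma integral_Ip_sub_le {Ω : Type*} [MeasurableSpace Ω] {μ : Measure Ω} [IsProbabilityMeasure μ]
    {u v : Ω → ℝ} (hu : UI u) (hv : UI v) :
    ∫ x, Ip (u x) ∂μ ≤ ∫ x, Ip (v x) ∂μ + 2 * Real.sqrt (∫ x, |u x - v x| ∂μ) := by
  have hd : UI (fun x => |u x - v x|) := by
    refine ⟨(hu.meas.sub hv.meas).abs, fun x => abs_nonneg _, fun x => ?_⟩
    rw [abs_le]
    have := hu.nonneg x; have := hu.le_one x; have := hv.nonneg x; have := hv.le_one x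
    constructor <;> linarith
  have h1 : ∫ x, Ip (u x) ∂μ ≤ ∫ x, (Ip (v x) + Ip |u x - v x|) ∂μ := by
    apply integral_mono ((UI.Ip hu).integrable μ)
      (((UI.Ip hv).integrable μ).add ((UI.Ip hd).integrable μ))
    intro x
    exact Ip_sub_le (hv.nonneg x) (hv.le_one x) (hu.nonneg x) (hu.le_one x)
  rw [integral_add ((UI.Ip hv).integrable μ) ((UI.Ip hd).integrable μ)] at h1
  have h2 := Ip_jensen (μ := μ) hd
  have h3 := Ip_le_sqrt (∫ x, |u x - v x| ∂μ)
  rw [abs_of_nonneg (integral_nonneg fun x => abs_nonneg _)] at h3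
  linarith

/-! ### Averages and first moments at scale `s` -/

/-- the average of `f` at scale `s` around `p` -/
noncomputable def avg (f : E → ℝ) (s : ℝ) (p : E) : ℝ := ∫ g, f (p + s • g) ∂(stdGaussian E)

/-- the first moment of `f` at scale `s` around `p` -/
noncomputable def mom (f : E → ℝ) (s : ℝ) (p : E) : E := ∫ g, f (p + s • g) • g ∂(stdGaussian E)

lemma UI.avg {f : E → ℝ} (hf : UI f) (s : ℝ) : UI (avg f s) :=
  UI.integral (E := E) (F := E) (f := fun p : E × E => f (p.1 + s • p.2))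
    (UI.comp hf (by fun_prop)) (stdGaussian E)

lemma measurable_mom {f : E → ℝ} (hf : UI f) (s : ℝ) : Measurable (mom f s) := by
  have : StronglyMeasurable (fun p : E × E => f (p.1 + s • p.2) • p.2) :=
    ((UI.comp hf (T := fun p : E × E => p.1 + s • p.2) (by fun_prop)).meas.smul
      measurable_snd).stronglyMeasurable
  exact (StronglyMeasurable.integral_prod_right (f := fun x y => f (x + s • y) • y)
    this).measurable

lemma norm_mom_le' {f : E → ℝ} (hf : UI f) (s : ℝ) (p : E) :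
    ‖mom f s p‖ ≤ ∫ g : E, ‖g‖ ∂(stdGaussian E) := by
  have hfp : UI (fun g => f (p + s • g)) := UI.comp hf (by fun_prop)
  refine (norm_integral_le_integral_norm _).trans ?_
  apply integral_mono (UI.integrable_smul hfp).norm integrable_norm
  intro g
  simp only [norm_smul, Real.norm_eq_abs]
  rw [abs_of_nonneg (hfp.nonneg g)]
  exact mul_le_of_le_one_left (norm_nonneg g) (hfp.le_one g)

lemma integral_add_smul' {a b c : ℝ} (habc : a ^ 2 + b ^ 2 = c ^ 2) {F : E → ℝ}
    (hF : Measurable F) {B : ℝ} (hB : ∀ x, |F x| ≤ B) :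
    ∫ x, ∫ y, F (a • x + b • y) ∂(stdGaussian E) ∂(stdGaussian E)
      = ∫ x, F (c • x) ∂(stdGaussian E) := by
  have h1 : ∫ p : E × E, F (a • p.1 + b • p.2) ∂((stdGaussian E).prod (stdGaussian E))
      = ∫ x, F x ∂(((stdGaussian E).prod (stdGaussian E)).map
        (fun p : E × E => a • p.1 + b • p.2)) := by
    rw [integral_map (by fun_prop) hF.aestronglyMeasurable]
  rw [map_add_smul habc, integral_map (by fun_prop) hF.aestronglyMeasurable,
    integral_prod] at h1
  · exact h1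
  · exact Integrable.of_bound (hF.comp (by fun_prop)).aestronglyMeasurable B
      (Eventually.of_forall fun x => hB _)

/-- the local inequality between the scales `s` and `s/2`, at a fixed location -/
theorem step_local {f : E → ℝ} (hf : UI f) {s : ℝ} (hs : 0 < s) (p : E) :
    Ip (avg f s p) ≤ ∫ y, Ip (avg f (s / 2) (p + (Real.sqrt 3 / 2 * s) • y)) ∂(stdGaussian E)
      + Real.sqrt 3 * ∫ y, ‖mom f (s / 2) (p + (Real.sqrt 3 / 2 * s) • y)‖ ∂(stdGaussian E) := by
  have h3 : Real.sqrt 3 ^ 2 = 3 := Real.sq_sqrt (by norm_num)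
  have h := one_step hf p (α := Real.sqrt 3 / 2 * s) (β := s / 2) (by positivity) (by positivity)
  rw [integral_add_smul (c := s) (by rw [mul_pow, div_pow, h3]; ring) hf] at h
  have e : Real.sqrt 3 / 2 * s / (s / 2) = Real.sqrt 3 := by field_simp
  rw [e] at h
  exact h

/-- one dyadic step -/
theorem dyadic_step {f : E → ℝ} (hf : UI f) {s : ℝ} (hs : 0 < s) (hs1 : s ≤ 1) :
    ∫ y, Ip (avg f s (Real.sqrt (1 - s ^ 2) • y)) ∂(stdGaussian E)
      ≤ ∫ y, Ip (avg f (s / 2) (Real.sqrt (1 - (s / 2) ^ 2) • y)) ∂(stdGaussian E)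
        + Real.sqrt 3 * ∫ y, ‖mom f (s / 2) (Real.sqrt (1 - (s / 2) ^ 2) • y)‖
          ∂(stdGaussian E) := by
  have h3 : Real.sqrt 3 ^ 2 = 3 := Real.sq_sqrt (by norm_num)
  have hsq1 : Real.sqrt (1 - s ^ 2) ^ 2 = 1 - s ^ 2 := Real.sq_sqrt (by nlinarith)
  have hsq2 : Real.sqrt (1 - (s / 2) ^ 2) ^ 2 = 1 - (s / 2) ^ 2 := Real.sq_sqrt (by nlinarith)
  have habc : Real.sqrt (1 - s ^ 2) ^ 2 + (Real.sqrt 3 / 2 * s) ^ 2
      = Real.sqrt (1 - (s / 2) ^ 2) ^ 2 := by
    rw [hsq1, hsq2, mul_pow, div_pow, h3]; ring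
  have hU := UI.Ip (UI.avg hf (s / 2))
  set B0 := ∫ g : E, ‖g‖ ∂(stdGaussian E) with hB0
  have hmB : ∀ x : E, |‖mom f (s / 2) x‖| ≤ B0 := fun x => by
    rw [abs_of_nonneg (norm_nonneg _)]; exact norm_mom_le' hf _ _
  rw [← integral_add_smul' habc hU.meas (B := 1) (fun x => by
      rw [abs_of_nonneg (hU.nonneg x)]; exact hU.le_one x),
    ← integral_add_smul' habc (measurable_mom hf (s / 2)).norm hmB]
  have hi1 : Integrable (fun x : E => ∫ y, Ip (avg f (s / 2)
      (Real.sqrt (1 - s ^ 2) • x + (Real.sqrt 3 / 2 * s) • y)) ∂(stdGaussian E))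
      (stdGaussian E) := by
    apply Integrable.integral_prod_left (f := fun p : E × E => Ip (avg f (s / 2)
      (Real.sqrt (1 - s ^ 2) • p.1 + (Real.sqrt 3 / 2 * s) • p.2)))
    exact (UI.comp hU (T := fun p : E × E => Real.sqrt (1 - s ^ 2) • p.1
      + (Real.sqrt 3 / 2 * s) • p.2) (by fun_prop)).integrable _
  have hi2 : Integrable (fun x : E => ∫ y, ‖mom f (s / 2)
      (Real.sqrt (1 - s ^ 2) • x + (Real.sqrt 3 / 2 * s) • y)‖ ∂(stdGaussian E))
      (stdGaussian E) := by
    apply Integrable.integral_prod_left (f := fun p : E × E => ‖mom f (s / 2)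
      (Real.sqrt (1 - s ^ 2) • p.1 + (Real.sqrt 3 / 2 * s) • p.2)‖)
    exact Integrable.of_bound ((measurable_mom hf (s / 2)).norm.comp
      (by fun_prop)).aestronglyMeasurable B0 (Eventually.of_forall fun x => by
        rw [Real.norm_eq_abs]; exact hmB _)
  rw [← integral_const_mul, ← integral_add hi1 (hi2.const_mul _)]
  apply integral_mono
  · exact (UI.comp (UI.Ip (UI.avg hf s)) (T := fun y : E => Real.sqrt (1 - s ^ 2) • y)
      (by fun_prop)).integrable _
  · exact hi1.add (hi2.const_mul _)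
  · intro x
    exact step_local hf hs (Real.sqrt (1 - s ^ 2) • x)

/-- the sum of the first moments over the dyadic scales `2^{-1},…,2^{-n}` -/
noncomputable def momSum (f : E → ℝ) (n : ℕ) : ℝ :=
  ∑ k ∈ Finset.range n, ∫ y, ‖mom f ((1 / 2 : ℝ) ^ (k + 1))
    (Real.sqrt (1 - ((1 / 2 : ℝ) ^ (k + 1)) ^ 2) • y)‖ ∂(stdGaussian E)

theorem dyadic_sum {f : E → ℝ} (hf : UI f) (n : ℕ) :
    Ip (∫ x, f x ∂(stdGaussian E))
      ≤ ∫ y, Ip (avg f ((1 / 2 : ℝ) ^ n) (Real.sqrt (1 - ((1 / 2 : ℝ) ^ n) ^ 2) • y))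
          ∂(stdGaussian E) + Real.sqrt 3 * momSum f n := by
  induction n with
  | zero =>
    simp [momSum, avg]
  | succ n ih =>
    have h := dyadic_step hf (s := (1 / 2 : ℝ) ^ n) (by positivity)
      (pow_le_one₀ (by norm_num) (by norm_num))
    have e : (1 / 2 : ℝ) ^ n / 2 = (1 / 2 : ℝ) ^ (n + 1) := by rw [pow_succ]; ring
    rw [e] at h
    rw [momSum, Finset.sum_range_succ, ← momSum, mul_add]
    linarith

/-! ### The limit -/

lemma avg_tendsto {f : E → ℝ} (hf : UI f) (hc : Continuous f) (y : E) :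
    Tendsto (fun s : ℝ => avg f s (Real.sqrt (1 - s ^ 2) • y)) (𝓝 0) (𝓝 (f y)) := by
  have h : Tendsto (fun s : ℝ => ∫ g, f (Real.sqrt (1 - s ^ 2) • y + s • g) ∂(stdGaussian E))
      (𝓝 0) (𝓝 (∫ _g : E, f y ∂(stdGaussian E))) := by
    apply tendsto_integral_filter_of_dominated_convergence (fun _ => (1:ℝ))
    · exact Eventually.of_forall fun s =>
        (hf.meas.comp (by fun_prop)).aestronglyMeasurable
    · refine Eventually.of_forall fun s => Eventually.of_forall fun g => ?_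
      rw [Real.norm_eq_abs, abs_of_nonneg (hf.nonneg _)]; exact hf.le_one _
    · exact integrable_const _
    · refine Eventually.of_forall fun g => ?_
      have : Continuous (fun s : ℝ => f (Real.sqrt (1 - s ^ 2) • y + s • g)) := by
        apply hc.comp; fun_prop
      have h1 := this.tendsto 0
      simpa using h1
  simp only [integral_const, probReal_univ, smul_eq_mul, one_mul] at h
  exact h

lemma Ip_avg_tendsto {f : E → ℝ} (hf : UI f) (hc : Continuous f) :
    Tendsto (fun s : ℝ => ∫ y, Ip (avg f s (Real.sqrt (1 - s ^ 2) • y)) ∂(stdGaussian E)) (𝓝 0)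
      (𝓝 (∫ y, Ip (f y) ∂(stdGaussian E))) := by
  apply tendsto_integral_filter_of_dominated_convergence (fun _ => (1:ℝ))
  · exact Eventually.of_forall fun s =>
      ((UI.Ip (UI.avg hf s)).meas.comp (by fun_prop)).aestronglyMeasurable
  · refine Eventually.of_forall fun s => Eventually.of_forall fun g => ?_
    rw [Real.norm_eq_abs, abs_of_nonneg (Ip_nonneg _)]; exact Ip_le_one _
  · exact integrable_const _
  · refine Eventually.of_forall fun y => ?_
    exact (continuous_Ip.tendsto _).comp (avg_tendsto hf hc y)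

lemma avg_sub_le {f g : E → ℝ} (hf : UI f) (hg : UI g) {s : ℝ} (hs0 : 0 ≤ s) (hs : s ≤ 1) :
    ∫ y, |avg f s (Real.sqrt (1 - s ^ 2) • y) - avg g s (Real.sqrt (1 - s ^ 2) • y)|
      ∂(stdGaussian E) ≤ ∫ x, |f x - g x| ∂(stdGaussian E) := by
  have hd : UI (fun x => |f x - g x|) := by
    refine ⟨(hf.meas.sub hg.meas).abs, fun x => abs_nonneg _, fun x => ?_⟩
    rw [abs_le]
    have := hf.nonneg x; have := hf.le_one x; have := hg.nonneg x; have := hg.le_one x
    constructor <;> linarith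
  have hsq : Real.sqrt (1 - s ^ 2) ^ 2 + s ^ 2 = (1:ℝ) ^ 2 := by
    rw [Real.sq_sqrt (by nlinarith)]; ring
  have h1 := integral_add_smul' hsq hd.meas (B := 1) (fun x => by
      rw [abs_of_nonneg (hd.nonneg x)]; exact hd.le_one x)
  simp only [one_smul] at h1
  rw [← h1]
  apply integral_mono
  · refine Integrable.of_bound (((UI.avg hf s).meas.comp (by fun_prop)).sub
      ((UI.avg hg s).meas.comp (by fun_prop))).abs.aestronglyMeasurable 1
      (Eventually.of_forall fun y => ?_)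
    rw [Real.norm_eq_abs, abs_abs, abs_le]
    have hy1 := (UI.avg hf s).nonneg (Real.sqrt (1 - s ^ 2) • y)
    have hy2 := (UI.avg hf s).le_one (Real.sqrt (1 - s ^ 2) • y)
    have hy3 := (UI.avg hg s).nonneg (Real.sqrt (1 - s ^ 2) • y)
    have hy4 := (UI.avg hg s).le_one (Real.sqrt (1 - s ^ 2) • y)
    constructor <;> linarith
  · apply Integrable.integral_prod_left (f := fun p : E × E =>
      |f (Real.sqrt (1 - s ^ 2) • p.1 + s • p.2) - g (Real.sqrt (1 - s ^ 2) • p.1 + s • p.2)|)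
    exact (UI.comp hd (T := fun p : E × E => Real.sqrt (1 - s ^ 2) • p.1 + s • p.2)
      (by fun_prop)).integrable _
  · intro y
    simp only [avg]
    rw [← integral_sub ((UI.comp hf (by fun_prop)).integrable _)
      ((UI.comp hg (by fun_prop)).integrable _)]
    exact abs_integral_le_integral_abs

/-- **Multiscale isoperimetry (dyadic).** -/
theorem multiscale {f : E → ℝ} (hf : UI f) {S : ℝ} (hS : ∀ n, momSum f n ≤ S) :
    Ip (∫ x, f x ∂(stdGaussian E)) ≤ ∫ x, Ip (f x) ∂(stdGaussian E) + Real.sqrt 3 * S := by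
  apply le_of_forall_pos_le_add
  intro ε hε
  set δ := (ε / 5) ^ 2 with hδ
  have hδ0 : 0 < δ := by positivity
  obtain ⟨g0, hg0, hg0i⟩ := (hf.integrable (stdGaussian E)).exists_boundedContinuous_integral_sub_le
    hδ0
  set g : E → ℝ := fun x => max 0 (min 1 (g0 x)) with hg
  have hgc : Continuous g := continuous_const.max (continuous_const.min g0.continuous)
  have hgU : UI g := ⟨hgc.measurable, fun x => le_max_left _ _,
    fun x => max_le zero_le_one (min_le_left _ _)⟩
  have hfg : ∫ x, |f x - g x| ∂(stdGaussian E) ≤ δ := by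
    refine le_trans (integral_mono ?_ ?_ ?_) hg0
    · exact ((hf.integrable _).sub (hgU.integrable _)).abs
    · exact ((hf.integrable _).sub hg0i).norm
    · intro x
      simp only [Real.norm_eq_abs, hg]
      have h0 := hf.nonneg x
      have h1 := hf.le_one x
      rcases le_total (g0 x) 1 with ha | ha
      · rw [min_eq_right ha]
        rcases le_total 0 (g0 x) with hb | hb
        · rw [max_eq_right hb]
        · rw [max_eq_left hb, abs_of_nonneg (by linarith), abs_of_nonneg (by linarith)]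
          linarith
      · rw [min_eq_left ha, max_eq_right zero_le_one, abs_of_nonpos (by linarith),
          abs_of_nonpos (by linarith)]
        linarith
  have hsq : Real.sqrt δ = ε / 5 := Real.sqrt_sq (by positivity)
  have hlim : Tendsto (fun n : ℕ => ∫ y, Ip (avg g ((1 / 2 : ℝ) ^ n)
      (Real.sqrt (1 - ((1 / 2 : ℝ) ^ n) ^ 2) • y)) ∂(stdGaussian E)) atTop
      (𝓝 (∫ y, Ip (g y) ∂(stdGaussian E))) :=
    (Ip_avg_tendsto hgU hgc).comp
      (tendsto_pow_atTop_nhds_zero_of_lt_one (by norm_num) (by norm_num))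
  obtain ⟨n, hn⟩ := (hlim.eventually_lt_const
    (show ∫ y, Ip (g y) ∂(stdGaussian E) < ∫ y, Ip (g y) ∂(stdGaussian E) + ε / 5 by
      linarith)).exists
  have hs1 : ((1 / 2 : ℝ) ^ n) ≤ 1 := pow_le_one₀ (by norm_num) (by norm_num)
  have h1 := dyadic_sum hf n
  have h2 := integral_Ip_sub_le (μ := stdGaussian E)
    (UI.comp (UI.avg hf ((1 / 2 : ℝ) ^ n)) (T := fun y : E =>
      Real.sqrt (1 - ((1 / 2 : ℝ) ^ n) ^ 2) • y) (by fun_prop))
    (UI.comp (UI.avg hgU ((1 / 2 : ℝ) ^ n)) (T := fun y : E =>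
      Real.sqrt (1 - ((1 / 2 : ℝ) ^ n) ^ 2) • y) (by fun_prop))
  have h3 := avg_sub_le hf hgU (s := (1 / 2 : ℝ) ^ n) (by positivity) hs1
  have h4 := integral_Ip_sub_le (μ := stdGaussian E) hgU hf
  have e5 : ∫ x, |g x - f x| ∂(stdGaussian E) = ∫ x, |f x - g x| ∂(stdGaussian E) := by
    congr 1; funext x; exact abs_sub_comm _ _
  rw [e5] at h4
  have h6 : Real.sqrt (∫ x, |f x - g x| ∂(stdGaussian E)) ≤ ε / 5 := by
    rw [← hsq]; exact Real.sqrt_le_sqrt hfg
  have h7 := Real.sqrt_le_sqrt (h3.trans hfg)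
  rw [hsq] at h7
  have h8 := mul_le_mul_of_nonneg_left (hS n) (Real.sqrt_nonneg 3)
  linarith

end Vale.Agent.P262.H941
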