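import Vale.Agent.P262.H941.Level

/-!
# The gain-cost lemma for visible fields (711 #10332), healthy labels
-/

set_option linter.unusedSectionVars false

namespace Vale.Agent.P262.H941

open MeasureTheory ProbabilityTheory Set Filter Topology Module
open scoped RealInnerProductSpace
open Vale.Agent.P262.H847 Vale.Agent.P262.H912
open Vale.Agent.P262.H274 (Slow SlowEx PivotAt Cost Gam)

variable {E : Type*} [NormedAddCommGroup E] [InnerProductSpace ℝ E] [FiniteDimensional ℝ E]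
  [MeasurableSpace E] [BorelSpace E]

noncomputable section

/-- the gain of one step: flux in direction `v t` plus change of the field -/
def gain (F : ℕ → ℝ) (f : ℕ → E → ℝ) (t : ℕ) : ℝ :=
  F t + ∫ x, |f (t + 1) x - f t x| ∂(stdGaussian E)

lemma slow_zero (v : ℕ → E) {N : ℝ} (hN : 0 ≤ N) (a b : ℕ) : Slow v N 0 a b := by
  refine ⟨0, le_rfl, fun _ => ⊥, fun _ => finrank_bot ℝ E, ?_⟩
  have : ∀ t ∈ Finset.Ico a b, (‖(⊥ : Submodule ℝ E).starProjection (v t)‖
      + ‖(⊥ : Submodule ℝ E).starProjection - (⊥ : Submodule ℝ E).starProjection‖) = 0 := by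
    intro t _
    rw [Submodule.starProjection_bot]; simp
  rw [Finset.sum_congr rfl this]; simpa using hN

/-- telescoping of the changes of the field -/
lemma change_le_gam {f : ℕ → E → ℝ} (hf : ∀ t, UI (f t)) {F : ℕ → ℝ} {t u : ℕ} (htu : t ≤ u)
    (hF0 : ∀ r, t ≤ r → r < u → 0 ≤ F r) :
    ∫ x, |f t x - f u x| ∂(stdGaussian E) ≤ Gam (gain F f) t u := by
  induction u, htu using Nat.le_induction with
  | base => simp [Gam]
  | succ u htu ih =>
    have h1 := ih (fun r h1 h2 => hF0 r h1 (by omega))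
    have h2 := hF0 u htu (by omega)
    have hi1 : Integrable (fun x => |f t x - f u x|) (stdGaussian E) :=
      (((hf t).integrable _).sub ((hf u).integrable _)).abs
    have hi2 : Integrable (fun x => |f (u + 1) x - f u x|) (stdGaussian E) :=
      (((hf (u + 1)).integrable _).sub ((hf u).integrable _)).abs
    have h3 : ∫ x, |f t x - f (u + 1) x| ∂(stdGaussian E)
        ≤ ∫ x, |f t x - f u x| ∂(stdGaussian E) + ∫ x, |f (u + 1) x - f u x| ∂(stdGaussian E) := by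
      rw [← integral_add hi1 hi2]
      apply integral_mono (((hf t).integrable _).sub ((hf (u + 1)).integrable _)).abs (hi1.add hi2)
      intro x
      show |f t x - f (u + 1) x| ≤ |f t x - f u x| + |f (u + 1) x - f u x|
      have e : f t x - f (u + 1) x = (f t x - f u x) - (f (u + 1) x - f u x) := by ring
      rw [e]; exact abs_sub _ _
    unfold Gam at h1 ⊢
    rw [Finset.sum_Ico_succ_top htu]
    have h4 : ∫ x, |f (u + 1) x - f u x| ∂(stdGaussian E) ≤ gain F f u := by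
      unfold gain; linarith
    linarith

lemma gam_mono {g : ℕ → ℝ} {a b l u : ℕ} (hg : ∀ t, a ≤ t → t < b → 0 ≤ g t) (hal : a ≤ l)
    (hub : u ≤ b) : Gam g l u ≤ Gam g a b := by
  unfold Gam
  apply Finset.sum_le_sum_of_subset_of_nonneg (Finset.Ico_subset_Ico hal hub)
  intro t ht _
  rw [Finset.mem_Ico] at ht
  exact hg t ht.1 ht.2

/-- constants of the levels -/
lemma level_const {c : ℝ} (hc0 : 0 < c) (hc1 : c ≤ 1) {k : ℕ} (hk : 1 ≤ k) :
    2 * 81 ^ k * (324 * c * (1 / 162) ^ k) + 53 * c ^ 2 * (1 / 9) ^ k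
      + 6 * k * c * (324 * c * (1 / 162) ^ k) / c + 5 * c * (1 / 2) ^ k
      ≤ 3000 * c * (1 / 2) ^ k := by
  have e1 : (81:ℝ) ^ k * (1 / 162) ^ k = (1 / 2) ^ k := by rw [← mul_pow]; norm_num
  have e2 : ((1:ℝ) / 9) ^ k ≤ (1 / 2) ^ k := pow_le_pow_left₀ (by norm_num) (by norm_num) k
  have e3 : (k:ℝ) * (1 / 162) ^ k ≤ (1 / 2) ^ k := by
    have h1 : (k:ℝ) ≤ 81 ^ k := by
      have : k ≤ 81 ^ k := (Nat.lt_pow_self (by norm_num)).le
      exact_mod_cast this
    calc (k:ℝ) * (1 / 162) ^ k ≤ 81 ^ k * (1 / 162) ^ k :=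
          mul_le_mul_of_nonneg_right h1 (by positivity)
      _ = _ := e1
  have h2 : (0:ℝ) < (1 / 2) ^ k := by positivity
  have h3 : c ^ 2 ≤ c := by nlinarith
  have e4 : 6 * k * c * (324 * c * (1 / 162) ^ k) / c = 1944 * c * (k * (1 / 162) ^ k) := by
    field_simp; ring
  have e5 : 2 * 81 ^ k * (324 * c * (1 / 162) ^ k) = 648 * c * (81 ^ k * (1 / 162) ^ k) := by ring
  rw [e4, e5, e1]
  have h4 : 53 * c ^ 2 * (1 / 9) ^ k ≤ 53 * c * (1 / 2) ^ k :=
    mul_le_mul (by linarith) e2 (by positivity) (by positivity)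
  have h5 : 1944 * c * (k * (1 / 162) ^ k) ≤ 1944 * c * (1 / 2) ^ k :=
    mul_le_mul_of_nonneg_left e3 (by positivity)
  nlinarith [mul_pos hc0 h2]

/-- one level: an interval `[l,u)` with the pivot property and small gain -/
theorem level_bound {f : ℕ → E → ℝ} (hf : ∀ t, UI (f t)) {v : ℕ → E} {F : ℕ → ℝ} {N : ℝ}
    (hN : 0 < N) {l u t k : ℕ} (hk : 1 ≤ k) (hlt : l ≤ t) (htu : t ≤ u)
    (hF : ∀ r, l ≤ r → r < u → FluxLe (f r) (v r) (F r)) {V : Submodule ℝ E}
    (hV : PivotAt v N k l u V) {D c : ℝ} (hD0 : 0 < D) (hD1 : D ≤ 1) (hc0 : 0 < c) (hc1 : c ≤ 1)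
    (hNc : N * Real.sqrt (1 - Real.log D) ≤ c)
    (hΓ : Gam (gain F f) l u ≤ 324 * c * (1 / 162) ^ k * (N * LL D))
    (hu : ∫ x, f u x ∂(stdGaussian E) ≤ 4 * D) {s : ℝ} (hs : 0 < s) (hs1 : s ≤ 1) :
    lev (fun p => ‖(ContinuousLinearMap.id ℝ E - V.starProjection) (mom (f t) s p)‖) s
      ≤ 3000 * c * (1 / 2) ^ k * LL D := by
  have hlu : l + (u - l) = u := by omega
  have hF0 : ∀ r, l ≤ r → r < u → 0 ≤ F r := fun r h1 h2 => (hF r h1 h2).nonneg
  have hP1 : ∀ x, ‖(ContinuousLinearMap.id ℝ E - V.starProjection) x‖ ≤ ‖x‖ := by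
    intro x
    have h1 : (ContinuousLinearMap.id ℝ E - V.starProjection) x = Vᗮ.starProjection x := by
      rw [Submodule.starProjection_orthogonal]
    rw [h1]
    exact Submodule.norm_starProjection_apply_le _ _
  have h1 := lev_many (e := fun r => f (l + r)) (fun r => hf (l + r)) (v := fun r => v (l + r))
    (F := fun r => F (l + r)) (u - l)
    (fun r hr => hF (l + r) (by omega) (by omega)) hN hP1 hk hV.2 (hf t) (D := D) (c0 := c)
    (G := 324 * c * (1 / 162) ^ k) (q := c) hD0 hD1 (by positivity) hNc hc0 hc1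
    (by
      have e : Gam (gain F f) l u = ∑ r ∈ Finset.range (u - l),
          (F (l + r) + ∫ x, |f (l + (r + 1)) x - f (l + r) x| ∂(stdGaussian E)) := by
        unfold Gam
        rw [Finset.sum_Ico_eq_sum_range]
        rfl
      rw [← e]; exact hΓ)
    (by
      show ∫ x, |f t x - f (l + (u - l)) x| ∂(stdGaussian E) ≤ _
      rw [hlu]
      refine (change_le_gam hf htu (fun r h1 h2 => hF0 r (by omega) h2)).trans ?_
      refine le_trans (gam_mono (fun r h1 h2 => ?_) hlt le_rfl) hΓ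
      exact add_nonneg (hF0 r h1 h2) (integral_nonneg fun _ => abs_nonneg _))
    (by
      show ∫ x, f (l + (u - l)) x ∂(stdGaussian E) ≤ _
      rw [hlu]; exact hu) hs hs1
  refine h1.trans ?_
  exact mul_le_mul_of_nonneg_right (level_const hc0 hc1 hk) (LL_nonneg hD0.le)

/-- complement mass -/
def Dm (K : Set E) : ℝ := (stdGaussian E).real Kᶜ

/-- **The data of all levels at one common time.** -/
theorem levels {f h : ℕ → E → ℝ} (hf : ∀ t, UI (f t)) (hh : ∀ t, UI (h t)) {K : ℕ → Set E}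
    (hKm : ∀ t, MeasurableSet (K t))
    (hfh : ∀ t x, f t x + h t x = (K t)ᶜ.indicator (fun _ => (1:ℝ)) x)
    {v : ℕ → E} {F : ℕ → ℝ} {N c ρ : ℝ} (hN0 : 0 < N) (hN1 : N ≤ 1) (hc0 : 0 < c)
    (hc1 : c ≤ 1 / 8) (hρ0 : 0 < ρ) (hρ1 : ρ ≤ 1 / 162) {a b : ℕ} (hab : a < b)
    (hF : ∀ t, a ≤ t → t < b → FluxLe (f t) (v t) (F t))
    (hD0 : ∀ t, a ≤ t → t ≤ b → 0 < Dm (K t))
    (hNc : ∀ t, a ≤ t → t ≤ b → N * Real.sqrt (1 - Real.log (Dm (K t))) ≤ c)
    (hhid : ∀ t, a ≤ t → t ≤ b → ∫ x, h t x ∂(stdGaussian E) ≤ 1 / 8 * Dm (K t))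
    (hS : ¬ Slow v N 1 a b) {t0 : ℕ} (ht0a : a ≤ t0) (ht0b : t0 ≤ b)
    (hlt : Gam (gain F f) a b < c * (N * LL (Dm (K t0))) * Cost (Slow v N) ρ a b) :
    ∃ t, a ≤ t ∧ t ≤ b ∧ ∀ k, 1 ≤ k → ∃ V : Submodule ℝ E, finrank ℝ V ≤ 2 * (k - 1) ∧
      ∀ s, 0 < s → s ≤ 1 →
        lev (fun p => ‖(ContinuousLinearMap.id ℝ E - V.starProjection) (mom (f t) s p)‖) s
          ≤ 3000 * c * (1 / 2) ^ k * LL (Dm (K t)) := by
  have hc1' : c ≤ 1 := by linarith
  have hD1 : ∀ t, Dm (K t) ≤ 1 := fun t => measureReal_le_one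
  have hcost1 : Cost (Slow v N) ρ a b ≤ 1 := by
    have := Vale.Agent.P262.H274.cost_le_pow (S := Slow v N) hρ0.le hab (slow_zero v hN0.le a b)
    simpa using this
  have hcost0 : 0 ≤ Cost (Slow v N) ρ a b := Vale.Agent.P262.H274.cost_nonneg hρ0.le a b
  have hF0 : ∀ r, a ≤ r → r < b → 0 ≤ F r := fun r h1 h2 => (hF r h1 h2).nonneg
  have hg0 : ∀ r, a ≤ r → r < b → 0 ≤ gain F f r := fun r h1 h2 =>
    add_nonneg (hF0 r h1 h2) (integral_nonneg fun _ => abs_nonneg _)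
  set D0 := Dm (K t0) with hD0def
  have hD00 : 0 < D0 := hD0 t0 ht0a ht0b
  have hD01 : D0 ≤ 1 := hD1 t0
  set C := c * (N * LL D0) with hC
  have hLL0 : 0 < LL D0 := LL_pos hD00 hD01
  have hC0 : 0 < C := by positivity
  have hΓC : Gam (gain F f) a b ≤ C := by
    have : C * Cost (Slow v N) ρ a b ≤ C * 1 := mul_le_mul_of_nonneg_left hcost1 hC0.le
    linarith
  -- `C ≤ c² D0 ≤ D0 / 8`
  have hNL : N * LL D0 ≤ c * D0 := by
    have := hNc t0 ht0a ht0b
    calc N * LL D0 = (N * Real.sqrt (1 - Real.log D0)) * D0 := by unfold LL; ring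
      _ ≤ c * D0 := mul_le_mul_of_nonneg_right this hD00.le
  have hCD : C ≤ 1 / 8 * D0 := by
    have h1 : C ≤ c * (c * D0) := mul_le_mul_of_nonneg_left hNL hc0.le
    have h2 : c * (c * D0) ≤ 1 / 8 * (1 * D0) := by
      apply mul_le_mul hc1 _ (by positivity) (by norm_num)
      exact mul_le_mul_of_nonneg_right hc1' hD00.le
    linarith
  -- masses
  have hI : ∀ t, ∫ x, f t x ∂(stdGaussian E) + ∫ x, h t x ∂(stdGaussian E) = Dm (K t) := by
    intro t
    rw [← integral_add ((hf t).integrable _) ((hh t).integrable _)]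
    have : (fun x => f t x + h t x) = (K t)ᶜ.indicator (fun _ => (1:ℝ)) := funext (hfh t)
    rw [this, integral_indicator_const _ (hKm t).compl]
    simp [Dm]
  have hh0 : ∀ t, 0 ≤ ∫ x, h t x ∂(stdGaussian E) := fun t => integral_nonneg fun x => (hh t).nonneg x
  have hIdiff : ∀ t u, a ≤ t → t ≤ u → u ≤ b →
      |∫ x, f t x ∂(stdGaussian E) - ∫ x, f u x ∂(stdGaussian E)| ≤ C := by
    intro t u h1 h2 h3
    rw [← integral_sub ((hf t).integrable _) ((hf u).integrable _)]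
    refine (abs_integral_le_integral_abs).trans ?_
    refine (change_le_gam hf h2 (fun r h4 h5 => hF0 r (by omega) (by omega))).trans ?_
    exact (gam_mono hg0 h1 h3).trans hΓC
  have hIdiff' : ∀ t, a ≤ t → t ≤ b →
      |∫ x, f t x ∂(stdGaussian E) - ∫ x, f t0 x ∂(stdGaussian E)| ≤ C := by
    intro t h1 h2
    rcases le_total t t0 with h | h
    · exact hIdiff t t0 h1 h ht0b
    · rw [abs_sub_comm]; exact hIdiff t0 t ht0a h h2
  have hDle : ∀ t, a ≤ t → t ≤ b → Dm (K t) ≤ 2 * D0 := by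
    intro t h1 h2
    have h3 := abs_le.mp (hIdiff' t h1 h2)
    have h4 := hI t
    have h5 := hI t0
    have h6 := hhid t h1 h2
    have h7 := hh0 t0
    rw [← hD0def] at h5
    linarith [h3.2]
  have hDge : ∀ t, a ≤ t → t ≤ b → D0 ≤ 2 * Dm (K t) := by
    intro t h1 h2
    have h3 := abs_le.mp (hIdiff' t h1 h2)
    have h4 := hI t
    have h5 := hI t0
    have h6 := hhid t0 ht0a ht0b
    have h7 := hh0 t
    rw [← hD0def] at h5 h6
    linarith [h3.1]
  have hLLt : ∀ t, a ≤ t → t ≤ b → LL D0 ≤ 2 * LL (Dm (K t)) := fun t h1 h2 =>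
    LL_le_two hD00 hD01 (hD0 t h1 h2) (hD1 t) (hDge t h1 h2)
  have hfu : ∀ t u, a ≤ t → t ≤ b → a ≤ u → u ≤ b →
      ∫ x, f u x ∂(stdGaussian E) ≤ 4 * Dm (K t) := by
    intro t u h1 h2 h3 h4
    have h5 := hI u
    have h6 := hh0 u
    have h7 := hDle u h3 h4
    have h8 := hDge t h1 h2
    linarith
  -- the first level
  have key1 : ∀ t, a ≤ t → t ≤ b → ∃ V : Submodule ℝ E, finrank ℝ V ≤ 0 ∧
      ∀ s, 0 < s → s ≤ 1 →
        lev (fun p => ‖(ContinuousLinearMap.id ℝ E - V.starProjection) (mom (f t) s p)‖) s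
          ≤ 3000 * c * (1 / 2) ^ 1 * LL (Dm (K t)) := by
    intro t h1 h2
    obtain ⟨V, hV⟩ := Vale.Agent.P262.H274.pivot_adm v hN0 hN1 le_rfl hab.le
      (fun hs => hS ⟨1, le_rfl, hs⟩)
    refine ⟨V, by have := hV.1; omega, fun s hs hs1 => ?_⟩
    apply level_bound hf hN0 le_rfl h1 h2 hF hV (hD0 t h1 h2) (hD1 t) hc0 hc1' (hNc t h1 h2) _
      (hfu t b h1 h2 hab.le le_rfl) hs hs1
    have h3 : C ≤ 2 * c * (N * LL (Dm (K t))) := by
      calc C = c * N * LL D0 := by rw [hC]; ring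
        _ ≤ c * N * (2 * LL (Dm (K t))) := mul_le_mul_of_nonneg_left (hLLt t h1 h2) (by positivity)
        _ = _ := by ring
    have e : 324 * c * (1 / 162) ^ 1 * (N * LL (Dm (K t))) = 2 * c * (N * LL (Dm (K t))) := by ring
    rw [e]
    exact hΓC.trans h3
  -- truncated gains
  set g' : ℕ → ℝ := fun t => if a ≤ t ∧ t < b then gain F f t else 0 with hg'
  have hg'0 : ∀ t, 0 ≤ g' t := by
    intro t
    simp only [hg']
    split_ifs with h1
    · exact hg0 t h1.1 h1.2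
    · exact le_rfl
  have hg'G : ∀ l u, a ≤ l → u ≤ b → Gam g' l u = Gam (gain F f) l u := by
    intro l u h1 h2
    unfold Gam
    apply Finset.sum_congr rfl
    intro t ht
    rw [Finset.mem_Ico] at ht
    simp only [hg']
    rw [if_pos ⟨by omega, by omega⟩]
  have hcc : Gam g' a b ≤ C * Cost (Slow v N) ρ a b := by
    rw [hg'G a b le_rfl le_rfl]; exact hlt.le
  obtain ⟨l, u, h1, h2, t, h3⟩ := Vale.Agent.P262.H274.deterministic_half_adm v hN0 hN1 hρ0
    (by linarith) hg'0 hab hS hcc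
  -- the common time
  obtain ⟨t', ht'a, ht'b, ht'⟩ : ∃ t', a ≤ t' ∧ t' ≤ b ∧ ∀ k, k + 1 ≤ finrank ℝ E →
      l k ≤ t' ∧ t' < u k := by
    rcases Nat.eq_zero_or_pos (finrank ℝ E) with h | h
    · exact ⟨a, le_rfl, hab.le, fun k hk => by omega⟩
    · have h4 := h3 0 (by omega)
      have h5 := h1 0
      exact ⟨t, by omega, by omega, h3⟩
  refine ⟨t', ht'a, ht'b, fun k hk => ?_⟩
  rcases Nat.lt_or_ge k 2 with hk2 | hk2
  · have : k = 1 := by omega
    subst this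
    exact key1 t' ht'a ht'b
  rcases Nat.lt_or_ge k (finrank ℝ E) with hkm | hkm
  · obtain ⟨h4, h5, V, hV⟩ := h2 k hk (by omega)
    have h6 := h1 k
    have h7 := ht' k (by omega)
    refine ⟨V, by have := hV.1; omega, fun s hs hs1 => ?_⟩
    have hla : a ≤ l k := h6.1
    have hub : u k ≤ b := h6.2.1
    apply level_bound hf hN0 hk h7.1 h7.2.le (fun r h8 h9 => hF r (by omega) (by omega)) hV
      (hD0 t' ht'a ht'b) (hD1 t') hc0 hc1' (hNc t' ht'a ht'b) _
      (hfu t' (u k) ht'a ht'b (by omega) hub) hs hs1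
    rw [← hg'G (l k) (u k) hla hub]
    refine h5.trans ?_
    have h8 : ρ ^ k ≤ (1 / 162) ^ k := pow_le_pow_left₀ hρ0.le hρ1 k
    have hLLp : 0 < LL (Dm (K t')) := LL_pos (hD0 t' ht'a ht'b) (hD1 t')
    calc 3 * ρ ^ k * C ≤ 3 * (1 / 162) ^ k * C := by gcongr
      _ = 3 * (1 / 162) ^ k * (c * N) * LL D0 := by rw [hC]; ring
      _ ≤ 3 * (1 / 162) ^ k * (c * N) * (2 * LL (Dm (K t'))) :=
        mul_le_mul_of_nonneg_left (hLLt t' ht'a ht'b) (by positivity)
      _ = 6 * (c * (1 / 162) ^ k * (N * LL (Dm (K t')))) := by ring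
      _ ≤ 324 * (c * (1 / 162) ^ k * (N * LL (Dm (K t')))) :=
        mul_le_mul_of_nonneg_right (by norm_num) (by positivity)
      _ = _ := by ring
  · refine ⟨⊤, by rw [finrank_top]; omega, fun s hs hs1 => ?_⟩
    have hLLp : 0 < LL (Dm (K t')) := LL_pos (hD0 t' ht'a ht'b) (hD1 t')
    have : ∀ p, ‖(ContinuousLinearMap.id ℝ E - (⊤ : Submodule ℝ E).starProjection)
        (mom (f t') s p)‖ = 0 := by
      intro p
      rw [Submodule.starProjection_top]; simp
    have e : lev (fun p => ‖(ContinuousLinearMap.id ℝ E - (⊤ : Submodule ℝ E).starProjection)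
        (mom (f t') s p)‖) s = 0 := by
      unfold lev
      simp only [this]
      simp
    rw [e]; positivity

/-- the level used at scale `2^{-j}` -/
def kk (j : ℕ) : ℕ := if j ≤ 16 then 1 else j - 15

/-- the bound of the contribution of one scale -/
def Bj (j : ℕ) : ℝ := 3 / 10 ^ 6 * (1 / 2) ^ (kk j) + 16 * ((kk j : ℝ) - 1) * (1 / 2) ^ j

lemma one_le_kk (j : ℕ) : 1 ≤ kk j := by unfold kk; split_ifs <;> omega

lemma Bj_nonneg (j : ℕ) : 0 ≤ Bj j := by
  have : (1:ℝ) ≤ kk j := by exact_mod_cast one_le_kk j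
  unfold Bj
  have h1 : 0 ≤ (kk j : ℝ) - 1 := by linarith
  positivity

lemma Bj_small {j : ℕ} (h : j ≤ 16) : Bj j = 3 / 2 / 10 ^ 6 := by
  unfold Bj kk; rw [if_pos h]; norm_num

lemma Bj_big (i : ℕ) : Bj (16 + i + 1) = 3 / 10 ^ 6 * (1 / 2) ^ (i + 2)
    + 16 * (i + 1) * (1 / 2) ^ (16 + i + 1) := by
  unfold Bj kk
  rw [if_neg (by omega)]
  have : 16 + i + 1 - 15 = i + 2 := by omega
  rw [this]; push_cast; ring

lemma Bj_sum16 : ∑ j ∈ Finset.range 16, Bj (j + 1) = 24 / 10 ^ 6 := by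
  rw [Finset.sum_congr rfl (fun j hj => Bj_small (j := j + 1)
    (by rw [Finset.mem_range] at hj; omega))]
  simp; norm_num

lemma Bj_sum_big (i : ℕ) : ∑ j ∈ Finset.range (16 + i), Bj (j + 1)
    ≤ 24 / 10 ^ 6 + 3 / 2 / 10 ^ 6 * (1 - (1 / 2) ^ i) + 1 / 2 ^ 12 * (2 - (i + 2) * (1 / 2) ^ i) := by
  induction i with
  | zero => rw [add_zero, Bj_sum16]; norm_num
  | succ i ih =>
    rw [← add_assoc, Finset.sum_range_succ, Bj_big]
    have e : (1 / 2 : ℝ) ^ (16 + i + 1) = 1 / 2 ^ 17 * (1 / 2) ^ i := by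
      rw [pow_add, pow_add]; norm_num; ring
    have e2 : (1 / 2 : ℝ) ^ (i + 2) = 1 / 4 * (1 / 2) ^ i := by rw [pow_add]; norm_num; ring
    have e3 : (1 / 2 : ℝ) ^ (i + 1) = 1 / 2 * (1 / 2) ^ i := by rw [pow_succ]; ring
    rw [e, e2, e3]
    push_cast
    have : (0:ℝ) < (1 / 2) ^ i := by positivity
    nlinarith

lemma Bj_sum (n : ℕ) : ∑ j ∈ Finset.range n, Bj (j + 1) ≤ 6 / 10 ^ 4 := by
  have h1 : ∑ j ∈ Finset.range n, Bj (j + 1) ≤ ∑ j ∈ Finset.range (16 + n), Bj (j + 1) := by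
    apply Finset.sum_le_sum_of_subset_of_nonneg
    · intro x hx; rw [Finset.mem_range] at hx ⊢; omega
    · intro j _ _; exact Bj_nonneg _
  have h2 := Bj_sum_big n
  have h3 : (0:ℝ) < (1 / 2) ^ n := by positivity
  have h4 : (0:ℝ) ≤ (n + 2) * (1 / 2) ^ n := by positivity
  have h5 : (1:ℝ) / 2 ^ 12 * (2 - (n + 2) * (1 / 2) ^ n) ≤ 1 / 2 ^ 12 * 2 := by
    apply mul_le_mul_of_nonneg_left _ (by positivity); linarith
  have h6 : (3:ℝ) / 2 / 10 ^ 6 * (1 - (1 / 2) ^ n) ≤ 3 / 2 / 10 ^ 6 * 1 := by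
    apply mul_le_mul_of_nonneg_left _ (by positivity); linarith
  norm_num at h5 h6 h2 ⊢
  linarith

end

end Vale.Agent.P262.H941
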