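import Vale.Agent.P262.H941.GainCost

/-!
# The gain-cost lemma for visible fields (711 #10332), healthy labels: final statement
-/

set_option linter.unusedSectionVars false

namespace Vale.Agent.P262.H941

open MeasureTheory ProbabilityTheory Set Filter Topology Module
open scoped RealInnerProductSpace
open Vale.Agent.P262.H847 Vale.Agent.P262.H912
open Vale.Agent.P262.H274 (Slow SlowEx PivotAt Cost Gam)

variable {E : Type*} [NormedAddCommGroup E] [InnerProductSpace ℝ E] [FiniteDimensional ℝ E]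
  [MeasurableSpace E] [BorelSpace E]

noncomputable section

/-- **GAIN-COST LEMMA (visible fields, healthy labels).**
`f t` is the visible part and `h t` the hidden part of the complement of the convex body `K t`;
`v t` are the steps, `F t` bounds the flux of `f t` in the direction `v t`; `N` is the threshold.
If the interval `[a,b)` is not `1`-slow then the total gain is at least `10⁻⁹ N LL(D)` times the
partition cost of `[a,b)`. -/
theorem gain_cost {f h : ℕ → E → ℝ} (hf : ∀ t, UI (f t)) (hh : ∀ t, UI (h t)) {K : ℕ → Set E}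
    (hK : ∀ t, Convex ℝ (K t)) (hKm : ∀ t, MeasurableSet (K t))
    (hfh : ∀ t x, f t x + h t x = (K t)ᶜ.indicator (fun _ => (1:ℝ)) x)
    {v : ℕ → E} {F : ℕ → ℝ} {N ρ : ℝ} (hN0 : 0 < N) (hN1 : N ≤ 1)
    (hρ0 : 0 < ρ) (hρ1 : ρ ≤ 1 / 162) {a b : ℕ} (hab : a < b)
    (hF : ∀ t, a ≤ t → t < b → FluxLe (f t) (v t) (F t))
    (hD0 : ∀ t, a ≤ t → t ≤ b → 0 < (stdGaussian E).real (K t)ᶜ)
    (hD1 : ∀ t, a ≤ t → t ≤ b → (stdGaussian E).real (K t)ᶜ ≤ 7 / 8)
    (hNc : ∀ t, a ≤ t → t ≤ b →
      N * Real.sqrt (1 - Real.log ((stdGaussian E).real (K t)ᶜ)) ≤ 1 / 10 ^ 9)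
    (hhid : ∀ t, a ≤ t → t ≤ b →
      ∫ x, h t x ∂(stdGaussian E) ≤ 1 / 10 ^ 10 * (stdGaussian E).real (K t)ᶜ)
    (hS : ¬ Slow v N 1 a b) {t0 : ℕ} (ht0a : a ≤ t0) (ht0b : t0 ≤ b) :
    1 / 10 ^ 9 * (N * LL ((stdGaussian E).real (K t0)ᶜ)) * Cost (Slow v N) ρ a b
      ≤ Gam (gain F f) a b := by
  by_contra hlt
  rw [not_le] at hlt
  obtain ⟨t, hta, htb, hlev⟩ := levels (c := 1 / 10 ^ 9) hf hh hKm hfh hN0 hN1 (by norm_num)
    (by norm_num) hρ0 hρ1 hab hF hD0 hNc (fun t h1 h2 => by
      have := hhid t h1 h2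
      have := hD0 t h1 h2
      unfold Dm
      linarith) hS ht0a ht0b hlt
  choose V hV1 hV2 using hlev
  set D := Dm (K t) with hD
  have hDpos : 0 < D := hD0 t hta htb
  have hD78 : D ≤ 7 / 8 := hD1 t hta htb
  have hD1' : D ≤ 1 := by linarith
  have hLL0 : 0 < LL D := LL_pos hDpos hD1'
  set W : ℕ → Submodule ℝ E := fun j => V (kk j) (one_le_kk j) with hW
  have hsc : ∀ j, sc j = (1 / 2 : ℝ) ^ j := fun j => rfl
  -- sum over the scales
  have hsum : ∀ n, ∑ j ∈ Finset.range n,
      (lev (fun p => ‖(ContinuousLinearMap.id ℝ E - (W (j + 1)).starProjection)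
          (mom (f t) (sc (j + 1)) p)‖) (sc (j + 1))
        + 2 * lev (fun p => ‖(W (j + 1)).starProjection
          (mom (fun x => f t x + h t x) (sc (j + 1)) p)‖) (sc (j + 1)))
      ≤ 6 / 10 ^ 4 * LL D := by
    intro n
    refine le_trans (Finset.sum_le_sum (g := fun j => Bj (j + 1) * LL D) fun j _ => ?_) ?_
    · have h1 := hV2 (kk (j + 1)) (one_le_kk _) (sc (j + 1)) (sc_pos _) (sc_le_one _)
      have h2 := lev_few (hK t) (hKm t) (W (j + 1)) (sc_pos (j + 1)) (sc_le_one (j + 1))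
      have e : (fun x => f t x + h t x) = (K t)ᶜ.indicator (fun _ => (1:ℝ)) := funext (hfh t)
      rw [e]
      have h3 : (finrank ℝ (W (j + 1)) : ℝ) ≤ 2 * ((kk (j + 1) : ℝ) - 1) := by
        have h4 := hV1 (kk (j + 1)) (one_le_kk _)
        have h5 := one_le_kk (j + 1)
        have h6 : (finrank ℝ (W (j + 1)) : ℝ) ≤ ((2 * (kk (j + 1) - 1) : ℕ) : ℝ) := by
          exact_mod_cast h4
        rw [Nat.cast_mul, Nat.cast_sub h5] at h6
        simpa using h6
      have h7 : Ip (D / 2) ≤ 2 * LL D := Ip_le_LL' (by linarith) (by linarith) hD1'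
      have h8 : 0 ≤ Ip (D / 2) := Ip_nonneg _
      have h9 : 0 < sc (j + 1) := sc_pos _
      have h10 : lev (fun p => ‖(W (j + 1)).starProjection
          (mom ((K t)ᶜ.indicator fun _ => (1:ℝ)) (sc (j + 1)) p)‖) (sc (j + 1))
          ≤ 2 * ((kk (j + 1) : ℝ) - 1) * (2 * sc (j + 1) * (2 * LL D)) := by
        refine h2.trans ?_
        exact mul_le_mul h3 (mul_le_mul_of_nonneg_left h7 (by positivity)) (by positivity)
          (le_trans (Nat.cast_nonneg _) h3)
      have e2 : Bj (j + 1) * LL D = 3000 * (1 / 10 ^ 9) * (1 / 2) ^ (kk (j + 1)) * LL D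
          + 2 * (2 * ((kk (j + 1) : ℝ) - 1) * (2 * sc (j + 1) * (2 * LL D))) := by
        rw [hsc]; unfold Bj; ring
      rw [e2]
      linarith
    · rw [← Finset.sum_mul]
      exact mul_le_mul_of_nonneg_right (Bj_sum n) hLL0.le
  have hfh1 : ∀ x, f t x + h t x ≤ 1 := by
    intro x; rw [hfh]
    exact indicator_le_self' (fun _ _ => zero_le_one) x |>.trans le_rfl
  have hvis := vis_multiscale (hf t) (hh t) hfh1
    (fun j => ContinuousLinearMap.id ℝ E - (W j).starProjection) (fun j => (W j).starProjection)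
    (fun j x => by simp) (fun j x => by
      have h1 : (ContinuousLinearMap.id ℝ E - (W j).starProjection) x = (W j)ᗮ.starProjection x := by
        rw [Submodule.starProjection_orthogonal]
      rw [h1]
      exact Submodule.norm_starProjection_apply_le _ _)
    (fun j x => Submodule.norm_starProjection_apply_le _ _) hsum
  -- masses
  set I := ∫ x, f t x ∂(stdGaussian E) with hI
  set H := ∫ x, h t x ∂(stdGaussian E) with hH
  have hIH : I + H = D := by
    rw [hI, hH, ← integral_add ((hf t).integrable _) ((hh t).integrable _)]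
    have : (fun x => f t x + h t x) = (K t)ᶜ.indicator (fun _ => (1:ℝ)) := funext (hfh t)
    rw [this, integral_indicator_const _ (hKm t).compl]
    simp [hD, Dm]
  have hH0 : 0 ≤ H := integral_nonneg fun x => (hh t).nonneg x
  have hH1 : H ≤ 1 / 10 ^ 10 * D := hhid t hta htb
  have hIpH : Ip H ≤ 2 / 10 ^ 5 * LL D := by
    have h1 : Ip H ≤ 2 * LL (1 / 10 ^ 10 * D) := Ip_le_LL' hH0 hH1 (by linarith)
    have h2 : LL (1 / 10 ^ 10 * D) ≤ LL (1 / 10 ^ 10) * LL D :=
      LL_mul_le (by norm_num) (by norm_num) hDpos hD1'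
    have h3 : LL (1 / 10 ^ 10) ≤ 1 / 10 ^ 5 := by
      refine (LL_le_sqrt (by norm_num)).trans ?_
      rw [Real.sqrt_le_left (by norm_num)]; norm_num
    have h4 : LL (1 / 10 ^ 10) * LL D ≤ 1 / 10 ^ 5 * LL D := mul_le_mul_of_nonneg_right h3 hLL0.le
    linarith
  have hIpf : ∫ x, Ip (f t x) ∂(stdGaussian E) ≤ Ip H := by
    have h1 : ∀ x, Ip (f t x) = Ip (h t x) := by
      intro x
      by_cases hx : x ∈ (K t)ᶜ
      · have h2 := hfh t x
        rw [indicator_of_mem hx] at h2
        rw [← Ip_symm, ← h2]; congr 1; ring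
      · have h2 := hfh t x
        rw [indicator_of_notMem hx] at h2
        have h3 := (hf t).nonneg x
        have h4 := (hh t).nonneg x
        rw [show f t x = 0 by linarith, show h t x = 0 by linarith]
    simp only [h1]
    exact Ip_jensen (hh t)
  have hIpI : LL D ≤ 96 * Ip I := by
    have h1 : LL I ≤ 48 * Ip I := LL_le_Ip (by linarith) (by linarith)
    have h2 : 1 / 2 * LL D ≤ LL (1 / 2 * D) := mul_LL_le (by norm_num) (by norm_num) hDpos hD1'
    have h3 : LL (1 / 2 * D) ≤ LL I := LL_mono (by linarith) (by linarith) (by linarith)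
    linarith
  linarith

end

end Vale.Agent.P262.H941
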