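import Vale.Agent.P262.H941.Vis3

/-!
# Multiscale isoperimetry with two hidden fields (two-sided visible fields)
-/

set_option linter.unusedSectionVars false

namespace Vale.Agent.P262.H941

open MeasureTheory ProbabilityTheory Set Filter Topology
open scoped RealInnerProductSpace BoundedContinuousFunction
open Vale.Agent.P262.H847 Vale.Agent.P262.H912

variable {E : Type*} [NormedAddCommGroup E] [InnerProductSpace ℝ E] [FiniteDimensional ℝ E]
  [MeasurableSpace E] [BorelSpace E]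

lemma child_ineq2 {F : Type*} [NormedAddCommGroup F] [NormedSpace ℝ F] {fv hv rv : ℝ}
    {Mf Mh Mr : F} (hf0 : 0 ≤ fv) (hh0 : 0 ≤ hv) (hr0 : 0 ≤ rv) (hfh : fv + hv ≤ 1)
    (hfr : fv + rv ≤ 1) (hMf : ‖Mf‖ ≤ Ip fv) (hMh : ‖Mh‖ ≤ Ip hv) (hMr : ‖Mr‖ ≤ Ip rv)
    (P Q : F →L[ℝ] F) (hPQ : ∀ x, P x + Q x = x) (hP : ∀ x, ‖P x‖ ≤ ‖x‖)
    (hQ : ∀ x, ‖Q x‖ ≤ ‖x‖) :
    Real.sqrt (3 * ‖Mf‖ ^ 2 + Ip fv ^ 2) ≤ max (Ip fv - 2 * Ip hv - 2 * Ip rv) 0
      + 2 * Ip hv + 2 * Ip rv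
      + (12 * (‖P (Mf + Mr)‖ + ‖Q (Mf + Mh)‖) + 6 * (‖Mh‖ ^ 2 / Ip hv + ‖Mr‖ ^ 2 / Ip rv)) := by
  set a := Ip fv with ha
  set b := Ip hv with hb
  set c := Ip rv with hc
  have ha0 : 0 ≤ a := Ip_nonneg _
  have hb0 : 0 ≤ b := Ip_nonneg _
  have hc0 : 0 ≤ c := Ip_nonneg _
  have hR0 : 0 ≤ 12 * (‖P (Mf + Mr)‖ + ‖Q (Mf + Mh)‖) + 6 * (‖Mh‖ ^ 2 / b + ‖Mr‖ ^ 2 / c) := by
    positivity
  have hmax : a - 2 * b - 2 * c ≤ max (a - 2 * b - 2 * c) 0 := le_max_left _ _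
  have hmax0 : 0 ≤ max (a - 2 * b - 2 * c) 0 := le_max_right _ _
  have h2a : Real.sqrt (3 * ‖Mf‖ ^ 2 + a ^ 2) ≤ 2 * a := by
    rw [Real.sqrt_le_left (by positivity)]
    have := pow_le_pow_left₀ (norm_nonneg Mf) hMf 2
    nlinarith
  rcases le_or_gt fv hv with h | h
  · have h1 : a ≤ b := Ip_mono_sym hf0 h hfh
    linarith
  rcases le_or_gt fv rv with h' | h'
  · have h1 : a ≤ c := Ip_mono_sym hf0 h' hfr
    linarith
  have h1 : b ≤ a := Ip_mono_sym hh0 h.le (by linarith)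
  have h1' : c ≤ a := Ip_mono_sym hr0 h'.le (by linarith)
  rcases ha0.eq_or_lt with ha' | ha'
  · have h2 : ‖Mf‖ = 0 := le_antisymm (by rw [ha']; exact hMf) (norm_nonneg _)
    linarith
  have h2 : Real.sqrt (3 * ‖Mf‖ ^ 2 + a ^ 2) ≤ a + 3 * ‖Mf‖ ^ 2 / (2 * a) := by
    rw [Real.sqrt_le_left (by positivity)]
    have h3 : (a + 3 * ‖Mf‖ ^ 2 / (2 * a)) ^ 2
        = a ^ 2 + 3 * ‖Mf‖ ^ 2 + (3 * ‖Mf‖ ^ 2 / (2 * a)) ^ 2 := by field_simp; ring
    rw [h3]
    have : 0 ≤ (3 * ‖Mf‖ ^ 2 / (2 * a)) ^ 2 := sq_nonneg _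
    linarith
  have h4 : Mf = P (Mf + Mr) + Q (Mf + Mh) - P Mr - Q Mh := by
    rw [map_add, map_add]
    have := hPQ Mf
    nth_rw 1 [← this]
    abel
  have h5 : ‖Mf‖ ≤ ‖P (Mf + Mr)‖ + ‖Q (Mf + Mh)‖ + ‖P Mr‖ + ‖Q Mh‖ := by
    nth_rw 1 [h4]
    exact (norm_sub_le _ _).trans (add_le_add_left ((norm_sub_le _ _).trans
      (add_le_add_left (norm_add_le _ _) _)) _)
  have h6 : ‖Mf‖ ^ 2 ≤ 4 * (‖P (Mf + Mr)‖ ^ 2 + ‖Q (Mf + Mh)‖ ^ 2 + ‖P Mr‖ ^ 2 + ‖Q Mh‖ ^ 2) := by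
    have h7 : ‖Mf‖ ^ 2 ≤ (‖P (Mf + Mr)‖ + ‖Q (Mf + Mh)‖ + ‖P Mr‖ + ‖Q Mh‖) ^ 2 :=
      pow_le_pow_left₀ (norm_nonneg _) h5 2
    nlinarith [sq_nonneg (‖P (Mf + Mr)‖ - ‖Q (Mf + Mh)‖), sq_nonneg (‖P (Mf + Mr)‖ - ‖P Mr‖),
      sq_nonneg (‖P (Mf + Mr)‖ - ‖Q Mh‖), sq_nonneg (‖Q (Mf + Mh)‖ - ‖P Mr‖),
      sq_nonneg (‖Q (Mf + Mh)‖ - ‖Q Mh‖), sq_nonneg (‖P Mr‖ - ‖Q Mh‖)]
  have h8 : ‖P (Mf + Mr)‖ ^ 2 ≤ ‖P (Mf + Mr)‖ * (2 * a) := by
    rw [sq]
    apply mul_le_mul_of_nonneg_left _ (norm_nonneg _)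
    refine (hP _).trans ((norm_add_le _ _).trans ?_)
    linarith
  have h9 : ‖Q (Mf + Mh)‖ ^ 2 ≤ ‖Q (Mf + Mh)‖ * (2 * a) := by
    rw [sq]
    apply mul_le_mul_of_nonneg_left _ (norm_nonneg _)
    refine (hQ _).trans ((norm_add_le _ _).trans ?_)
    linarith
  have hen : ∀ {M : F} {b : ℝ} (R : F →L[ℝ] F), (∀ x, ‖R x‖ ≤ ‖x‖) → 0 ≤ b → b ≤ a → ‖M‖ ≤ b →
      ‖R M‖ ^ 2 ≤ (‖M‖ ^ 2 / b) * a := by
    intro M b R hR hb0 hba hMb
    have h11 : ‖R M‖ ^ 2 ≤ ‖M‖ ^ 2 := pow_le_pow_left₀ (norm_nonneg _) (hR _) 2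
    rcases hb0.eq_or_lt with hb' | hb'
    · have : ‖M‖ = 0 := le_antisymm (by rw [hb']; exact hMb) (norm_nonneg _)
      rw [this] at h11 ⊢
      simpa using h11
    · refine h11.trans ?_
      rw [div_mul_eq_mul_div, le_div_iff₀ hb']
      exact mul_le_mul_of_nonneg_left hba (sq_nonneg _)
  have h10 := hen Q hQ hb0 h1 hMh
  have h10' := hen P hP hc0 h1' hMr
  have h12 : 3 * ‖Mf‖ ^ 2 / (2 * a)
      ≤ 12 * (‖P (Mf + Mr)‖ + ‖Q (Mf + Mh)‖) + 6 * (‖Mh‖ ^ 2 / b + ‖Mr‖ ^ 2 / c) := by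
    rw [div_le_iff₀ (by positivity)]
    nlinarith
  linarith

section

variable {f h r : E → ℝ}

noncomputable def phr (f h r : E → ℝ) (k : ℕ) (p : E) : ℝ :=
  max (Ip (avg f (sc k) p) - 2 * Ip (avg h (sc k) p) - 2 * Ip (avg r (sc k) p)) 0

lemma phr_UI (hf : UI f) (hh : UI h) (hr : UI r) (k : ℕ) : UI (phr f h r k) := by
  refine ⟨(((UI.Ip (UI.avg hf _)).meas.sub ((UI.Ip (UI.avg hh _)).meas.const_mul 2)).sub
    ((UI.Ip (UI.avg hr _)).meas.const_mul 2)).max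
    measurable_const, fun p => le_max_right _ _, fun p => max_le ?_ zero_le_one⟩
  have := Ip_le_one (avg f (sc k) p)
  have := Ip_nonneg (avg h (sc k) p)
  have := Ip_nonneg (avg r (sc k) p)
  linarith

/-- the error density of one scale -/
noncomputable def err2 (f h r : E → ℝ) (P Q : E →L[ℝ] E) (s : ℝ) (q : E) : ℝ :=
  12 * (‖P (mom f s q + mom r s q)‖ + ‖Q (mom f s q + mom h s q)‖) + 6 * (en h s q + en r s q)

lemma err2_nonneg (f h r : E → ℝ) (P Q : E →L[ℝ] E) (s : ℝ) (q : E) : 0 ≤ err2 f h r P Q s q := by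
  have := en_nonneg h s q
  have := en_nonneg r s q
  unfold err2
  positivity

lemma err2_meas (hf : UI f) (hh : UI h) (hr : UI r) (P Q : E →L[ℝ] E) (s : ℝ) :
    Measurable (err2 f h r P Q s) :=
  (((P.continuous.measurable.comp ((measurable_mom hf s).add (measurable_mom hr s))).norm.add
    (Q.continuous.measurable.comp
      ((measurable_mom hf s).add (measurable_mom hh s))).norm).const_mul 12).add
    (((UI.en hh s).meas.add (UI.en hr s).meas).const_mul 6)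

lemma err2_le (hf : UI f) (hh : UI h) (hr : UI r) (P Q : E →L[ℝ] E) (hP : ∀ x, ‖P x‖ ≤ ‖x‖)
    (hQ : ∀ x, ‖Q x‖ ≤ ‖x‖) (s : ℝ) (q : E) : err2 f h r P Q s q ≤ 60 := by
  have h1 : ‖P (mom f s q + mom r s q)‖ ≤ 2 := by
    refine (hP _).trans ((norm_add_le _ _).trans ?_)
    have := norm_mom_le_one2 hf s q
    have := norm_mom_le_one2 hr s q
    linarith
  have h2 : ‖Q (mom f s q + mom h s q)‖ ≤ 2 := by
    refine (hQ _).trans ((norm_add_le _ _).trans ?_)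
    have := norm_mom_le_one2 hf s q
    have := norm_mom_le_one2 hh s q
    linarith
  have h3 := (UI.en hh s).le_one q
  have h4 := (UI.en hr s).le_one q
  unfold err2
  linarith

/-- local telescoping -/
lemma phr_local (hf : UI f) (hh : UI h) (hr : UI r) (hfh : ∀ x, f x + h x ≤ 1)
    (hfr : ∀ x, f x + r x ≤ 1) (P Q : E →L[ℝ] E)
    (hPQ : ∀ x, P x + Q x = x) (hP : ∀ x, ‖P x‖ ≤ ‖x‖) (hQ : ∀ x, ‖Q x‖ ≤ ‖x‖) (k : ℕ) (p : E) :
    phr f h r k p ≤ ∫ y, (phr f h r (k + 1) (p + (Real.sqrt 3 / 2 * sc k) • y)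
      + err2 f h r P Q (sc (k + 1)) (p + (Real.sqrt 3 / 2 * sc k) • y)) ∂(stdGaussian E) := by
  set ρ := Real.sqrt 3 / 2 * sc k with hρ
  have i1 := integrable_child (phr_UI hf hh hr (k + 1)).meas (B := 1) (fun x => by
    rw [abs_of_nonneg ((phr_UI hf hh hr (k + 1)).nonneg x)]
    exact (phr_UI hf hh hr (k + 1)).le_one x) p ρ
  have i2 := integrable_child (err2_meas hf hh hr P Q (sc (k + 1))) (B := 60) (fun x => by
    rw [abs_of_nonneg (err2_nonneg _ _ _ _ _ _ _)]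
    exact err2_le hf hh hr P Q hP hQ _ _) p ρ
  have i5 : Integrable (fun y => Ip (avg h (sc (k + 1)) (p + ρ • y))) (stdGaussian E) :=
    integrable_child (UI.Ip (UI.avg hh _)).meas (B := 1) (fun x => by
      rw [abs_of_nonneg (Ip_nonneg _)]; exact Ip_le_one _) p ρ
  have i6 : Integrable (fun y => Ip (avg r (sc (k + 1)) (p + ρ • y))) (stdGaussian E) :=
    integrable_child (UI.Ip (UI.avg hr _)).meas (B := 1) (fun x => by
      rw [abs_of_nonneg (Ip_nonneg _)]; exact Ip_le_one _) p ρ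
  have h0 : 0 ≤ ∫ y, (phr f h r (k + 1) (p + ρ • y)
      + err2 f h r P Q (sc (k + 1)) (p + ρ • y)) ∂(stdGaussian E) := by
    apply integral_nonneg
    intro y
    exact add_nonneg ((phr_UI hf hh hr (k + 1)).nonneg _) (err2_nonneg _ _ _ _ _ _ _)
  unfold phr
  apply max_le _ h0
  have h1 := step_b hf (sc_pos k) p
  rw [sc_succ, ← hρ] at h1
  have h2 : ∫ y, Real.sqrt (3 * ‖mom f (sc (k + 1)) (p + ρ • y)‖ ^ 2
      + Ip (avg f (sc (k + 1)) (p + ρ • y)) ^ 2) ∂(stdGaussian E)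
      ≤ ∫ y, (((phr f h r (k + 1) (p + ρ • y)
      + err2 f h r P Q (sc (k + 1)) (p + ρ • y)) + 2 * Ip (avg h (sc (k + 1)) (p + ρ • y)))
      + 2 * Ip (avg r (sc (k + 1)) (p + ρ • y))) ∂(stdGaussian E) := by
    apply integral_mono_of_nonneg (Eventually.of_forall fun y => Real.sqrt_nonneg _)
      (((i1.add i2).add (i5.const_mul 2)).add (i6.const_mul 2))
    refine Eventually.of_forall fun y => ?_
    have := child_ineq2 ((UI.avg hf (sc (k + 1))).nonneg (p + ρ • y))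
      ((UI.avg hh (sc (k + 1))).nonneg (p + ρ • y)) ((UI.avg hr (sc (k + 1))).nonneg (p + ρ • y))
      (avg_add_le hf hh hfh _ _) (avg_add_le hf hr hfr _ _)
      (norm_mom_le hf (sc (k + 1)) (p + ρ • y)) (norm_mom_le hh (sc (k + 1)) (p + ρ • y))
      (norm_mom_le hr (sc (k + 1)) (p + ρ • y)) P Q hPQ hP hQ
    show Real.sqrt (3 * ‖mom f (sc (k + 1)) (p + ρ • y)‖ ^ 2
      + Ip (avg f (sc (k + 1)) (p + ρ • y)) ^ 2) ≤ ((phr f h r (k + 1) (p + ρ • y)
      + err2 f h r P Q (sc (k + 1)) (p + ρ • y)) + 2 * Ip (avg h (sc (k + 1)) (p + ρ • y)))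
      + 2 * Ip (avg r (sc (k + 1)) (p + ρ • y))
    unfold phr err2 en
    linarith
  have iA : Integrable (fun y => phr f h r (k + 1) (p + ρ • y)
      + err2 f h r P Q (sc (k + 1)) (p + ρ • y)) (stdGaussian E) := i1.add i2
  have iB : Integrable (fun y => (phr f h r (k + 1) (p + ρ • y)
      + err2 f h r P Q (sc (k + 1)) (p + ρ • y)) + 2 * Ip (avg h (sc (k + 1)) (p + ρ • y)))
      (stdGaussian E) := iA.add (i5.const_mul 2)
  rw [integral_add iB (i6.const_mul 2), integral_add iA (i5.const_mul 2), integral_const_mul,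
    integral_const_mul] at h2
  have h3 := lower_en hh (sc_pos k) p
  rw [sc_succ, ← hρ] at h3
  have h4 := en_nonneg h (sc k) p
  have h3' := lower_en hr (sc_pos k) p
  rw [sc_succ, ← hρ] at h3'
  have h4' := en_nonneg r (sc k) p
  have h5 : ∫ y, (phr f h r (k + 1) (p + ρ • y) + err2 f h r P Q (sc (k + 1)) (p + ρ • y))
      ∂(stdGaussian E) = ∫ y, (max (Ip (avg f (sc (k + 1)) (p + ρ • y))
        - 2 * Ip (avg h (sc (k + 1)) (p + ρ • y)) - 2 * Ip (avg r (sc (k + 1)) (p + ρ • y))) 0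
        + err2 f h r P Q (sc (k + 1)) (p + ρ • y)) ∂(stdGaussian E) := rfl
  linarith

/-- one scale in the levels -/
lemma lev_err2 (hf : UI f) (hh : UI h) (hr : UI r) (P Q : E →L[ℝ] E)
    (hP : ∀ x, ‖P x‖ ≤ ‖x‖) (hQ : ∀ x, ‖Q x‖ ≤ ‖x‖) (s : ℝ) :
    lev (err2 f h r P Q s) s
      = 12 * (lev (fun p => ‖P (mom (fun x => f x + r x) s p)‖) s
        + lev (fun p => ‖Q (mom (fun x => f x + h x) s p)‖) s)
        + 6 * (lev (en h s) s + lev (en r s) s) := by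
  have hm1 := measurable_mom hf s
  have hm2 := measurable_mom hh s
  have hm3 := measurable_mom hr s
  have b2 : ∀ x, |‖P (mom f s x + mom r s x)‖| ≤ 2 := fun x => by
    rw [abs_norm]
    refine (hP _).trans ((norm_add_le _ _).trans ?_)
    have := norm_mom_le_one2 hf s x
    have := norm_mom_le_one2 hr s x
    linarith
  have b3 : ∀ x, |‖Q (mom f s x + mom h s x)‖| ≤ 2 := fun x => by
    rw [abs_norm]
    refine (hQ _).trans ((norm_add_le _ _).trans ?_)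
    have := norm_mom_le_one2 hf s x
    have := norm_mom_le_one2 hh s x
    linarith
  have b4 : ∀ x, |en h s x| ≤ 1 := fun x => by
    rw [abs_of_nonneg ((UI.en hh _).nonneg x)]; exact (UI.en hh _).le_one x
  have b5 : ∀ x, |en r s x| ≤ 1 := fun x => by
    rw [abs_of_nonneg ((UI.en hr _).nonneg x)]; exact (UI.en hr _).le_one x
  have i2 := integrable_lev (K := fun q => ‖P (mom f s q + mom r s q)‖)
    (P.continuous.measurable.comp (hm1.add hm3)).norm b2 s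
  have i3 := integrable_lev (K := fun q => ‖Q (mom f s q + mom h s q)‖)
    (Q.continuous.measurable.comp (hm1.add hm2)).norm b3 s
  have i4 := integrable_lev (UI.en hh s).meas b4 s
  have i5 := integrable_lev (UI.en hr s).meas b5 s
  have e1 : lev (fun p => ‖P (mom (fun x => f x + r x) s p)‖) s
      = lev (fun q => ‖P (mom f s q + mom r s q)‖) s := by
    unfold lev
    congr 1; funext y
    show ‖P (mom (fun x => f x + r x) s (Real.sqrt (1 - s ^ 2) • y))‖ = _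
    rw [mom_add hf hr]
  have e2 : lev (fun p => ‖Q (mom (fun x => f x + h x) s p)‖) s
      = lev (fun q => ‖Q (mom f s q + mom h s q)‖) s := by
    unfold lev
    congr 1; funext y
    show ‖Q (mom (fun x => f x + h x) s (Real.sqrt (1 - s ^ 2) • y))‖ = _
    rw [mom_add hf hh]
  rw [e1, e2]
  unfold lev err2
  have iA : Integrable (fun y => ‖P (mom f s (Real.sqrt (1 - s ^ 2) • y)
      + mom r s (Real.sqrt (1 - s ^ 2) • y))‖ + ‖Q (mom f s (Real.sqrt (1 - s ^ 2) • y)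
      + mom h s (Real.sqrt (1 - s ^ 2) • y))‖) (stdGaussian E) := i2.add i3
  have iB : Integrable (fun y => en h s (Real.sqrt (1 - s ^ 2) • y)
      + en r s (Real.sqrt (1 - s ^ 2) • y)) (stdGaussian E) := i4.add i5
  rw [integral_add (iA.const_mul 12) (iB.const_mul 6), integral_const_mul,
    integral_const_mul, integral_add i4 i5, integral_add i2 i3]

/-- **Multiscale isoperimetry with two hidden fields**, finitely many scales. -/
theorem vis_sum2 (hf : UI f) (hh : UI h) (hr : UI r) (hfh : ∀ x, f x + h x ≤ 1)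
    (hfr : ∀ x, f x + r x ≤ 1) (P Q : ℕ → E →L[ℝ] E)
    (hPQ : ∀ k x, P k x + Q k x = x) (hP : ∀ k x, ‖P k x‖ ≤ ‖x‖) (hQ : ∀ k x, ‖Q k x‖ ≤ ‖x‖)
    (n : ℕ) :
    Ip (∫ x, f x ∂(stdGaussian E))
      ≤ lev (fun p => Ip (avg f (sc n) p)) (sc n) + 18 * Ip (∫ x, h x ∂(stdGaussian E))
        + 18 * Ip (∫ x, r x ∂(stdGaussian E))
        + 12 * ∑ k ∈ Finset.range n,
          (lev (fun p => ‖P (k + 1) (mom (fun x => f x + r x) (sc (k + 1)) p)‖) (sc (k + 1))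
            + lev (fun p => ‖Q (k + 1) (mom (fun x => f x + h x) (sc (k + 1)) p)‖)
              (sc (k + 1))) := by
  have hstep : ∀ k, lev (phr f h r k) (sc k) ≤ lev (phr f h r (k + 1)) (sc (k + 1))
      + (12 * (lev (fun p => ‖P (k + 1) (mom (fun x => f x + r x) (sc (k + 1)) p)‖) (sc (k + 1))
            + lev (fun p => ‖Q (k + 1) (mom (fun x => f x + h x) (sc (k + 1)) p)‖)
              (sc (k + 1))) + 6 * (lev (en h (sc (k + 1))) (sc (k + 1))
            + lev (en r (sc (k + 1))) (sc (k + 1)))) := by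
    intro k
    rw [← lev_err2 hf hh hr (P (k + 1)) (Q (k + 1)) (hP _) (hQ _)]
    have m1 := (phr_UI hf hh hr (k + 1)).meas
    have b1 : ∀ x, |phr f h r (k + 1) x| ≤ 1 := fun x => by
      rw [abs_of_nonneg ((phr_UI hf hh hr (k + 1)).nonneg x)]
      exact (phr_UI hf hh hr (k + 1)).le_one x
    have m2 := err2_meas hf hh hr (P (k + 1)) (Q (k + 1)) (sc (k + 1))
    have b2 : ∀ x, |err2 f h r (P (k + 1)) (Q (k + 1)) (sc (k + 1)) x| ≤ 60 := fun x => by
      rw [abs_of_nonneg (err2_nonneg _ _ _ _ _ _ _)]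
      exact err2_le hf hh hr _ _ (hP _) (hQ _) _ _
    have h1 := lev_le (phr_UI hf hh hr k).meas (m1.add m2) (B1 := 1) (B2 := 61) (fun x => by
      rw [abs_of_nonneg ((phr_UI hf hh hr k).nonneg x)]
      exact (phr_UI hf hh hr k).le_one x) (fun x => by
      have a1 := abs_le.mp (b1 x)
      have a2 := abs_le.mp (b2 x)
      show |phr f h r (k + 1) x + err2 f h r (P (k + 1)) (Q (k + 1)) (sc (k + 1)) x| ≤ 61
      rw [abs_le]
      constructor <;> linarith [a1.1, a1.2, a2.1, a2.2]) (sc_pos k) (sc_le_one k)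
      (fun p => phr_local hf hh hr hfh hfr (P (k + 1)) (Q (k + 1)) (hPQ (k + 1)) (hP (k + 1))
        (hQ (k + 1)) k p)
    rw [sc_succ] at h1
    refine h1.trans (le_of_eq ?_)
    unfold lev
    exact integral_add (integrable_lev m1 b1 (sc (k + 1))) (integrable_lev m2 b2 (sc (k + 1)))
  have hsum : ∀ n : ℕ, lev (phr f h r 0) (sc 0) ≤ lev (phr f h r n) (sc n)
      + 12 * ∑ k ∈ Finset.range n,
          (lev (fun p => ‖P (k + 1) (mom (fun x => f x + r x) (sc (k + 1)) p)‖) (sc (k + 1))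
            + lev (fun p => ‖Q (k + 1) (mom (fun x => f x + h x) (sc (k + 1)) p)‖)
              (sc (k + 1)))
      + 6 * (∑ k ∈ Finset.range n, lev (en h (sc (k + 1))) (sc (k + 1))
        + ∑ k ∈ Finset.range n, lev (en r (sc (k + 1))) (sc (k + 1))) := by
    intro n
    induction n with
    | zero => simp
    | succ n ih =>
      have h1 := hstep n
      rw [Finset.sum_range_succ, Finset.sum_range_succ, Finset.sum_range_succ]
      linarith
  have h1 := hsum n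
  have h2 := lev_en_sum hh n
  have h2' := lev_en_sum hr n
  have h3 : Ip (∫ x, f x ∂(stdGaussian E)) - 2 * Ip (∫ x, h x ∂(stdGaussian E))
      - 2 * Ip (∫ x, r x ∂(stdGaussian E)) ≤ lev (phr f h r 0) (sc 0) := by
    rw [lev_zero_scale]
    unfold phr
    rw [avg_zero, avg_zero, avg_zero]
    exact le_max_left _ _
  have h4 : lev (phr f h r n) (sc n) ≤ lev (fun p => Ip (avg f (sc n) p)) (sc n) := by
    unfold lev
    apply integral_mono (integrable_lev (phr_UI hf hh hr n).meas (B := 1) (fun x => by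
      rw [abs_of_nonneg ((phr_UI hf hh hr n).nonneg x)]
      exact (phr_UI hf hh hr n).le_one x) (sc n))
      (integrable_lev (K := fun p => Ip (avg f (sc n) p)) (UI.Ip (UI.avg hf _)).meas (B := 1)
        (fun x => by rw [abs_of_nonneg (Ip_nonneg _)]; exact Ip_le_one _) (sc n))
    intro y
    unfold phr
    apply max_le _ (Ip_nonneg _)
    have := Ip_nonneg (avg h (sc n) (Real.sqrt (1 - sc n ^ 2) • y))
    have := Ip_nonneg (avg r (sc n) (Real.sqrt (1 - sc n ^ 2) • y))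
    linarith
  linarith

/-- **Multiscale isoperimetry for two-sided visible fields.** `f` = visible part, `h` = hidden
part of the complement, `r` = part of the field inside the body. -/
theorem vis_multiscale2 (hf : UI f) (hh : UI h) (hr : UI r) (hfh : ∀ x, f x + h x ≤ 1)
    (hfr : ∀ x, f x + r x ≤ 1) (P Q : ℕ → E →L[ℝ] E)
    (hPQ : ∀ k x, P k x + Q k x = x) (hP : ∀ k x, ‖P k x‖ ≤ ‖x‖) (hQ : ∀ k x, ‖Q k x‖ ≤ ‖x‖)
    {S : ℝ} (hS : ∀ n, ∑ k ∈ Finset.range n,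
          (lev (fun p => ‖P (k + 1) (mom (fun x => f x + r x) (sc (k + 1)) p)‖) (sc (k + 1))
            + lev (fun p => ‖Q (k + 1) (mom (fun x => f x + h x) (sc (k + 1)) p)‖)
              (sc (k + 1))) ≤ S) :
    Ip (∫ x, f x ∂(stdGaussian E))
      ≤ ∫ x, Ip (f x) ∂(stdGaussian E) + 18 * Ip (∫ x, h x ∂(stdGaussian E))
        + 18 * Ip (∫ x, r x ∂(stdGaussian E)) + 12 * S := by
  apply le_of_forall_pos_le_add
  intro ε hε
  obtain ⟨n0, hn0⟩ := lev_limit hf hε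
  have h1 := vis_sum2 hf hh hr hfh hfr P Q hPQ hP hQ n0
  have h2 := hn0 n0 le_rfl
  have h3 := hS n0
  unfold sc at h1 h3
  linarith

end

end Vale.Agent.P262.H941
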