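import Vale.Agent.P262.H941.GainCost3
import Vale.Agent.P262.H941.Vis4

/-!
# The gain-cost lemma with two-sided visible fields
-/

set_option linter.unusedSectionVars false

namespace Vale.Agent.P262.H941

open MeasureTheory ProbabilityTheory Set Filter Topology Module
open scoped RealInnerProductSpace
open Vale.Agent.P262.H847 Vale.Agent.P262.H912
open Vale.Agent.P262.H274 (Slow SlowEx PivotAt Cost Gam)

variable {E : Type*} [NormedAddCommGroup E] [InnerProductSpace ℝ E] [FiniteDimensional ℝ E]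
  [MeasurableSpace E] [BorelSpace E]

noncomputable section

/-- **The data of all levels at one common time**, two-sided version (only the masses matter). -/
theorem levels2 {f : ℕ → E → ℝ} (hf : ∀ t, UI (f t)) {D : ℕ → ℝ} {v : ℕ → E} {g : ℕ → ℝ} {N c ρ : ℝ} (hN0 : 0 < N) (hN1 : N ≤ 1) (hc0 : 0 < c)
    (hc1 : c ≤ 1 / 8) (hρ0 : 0 < ρ) (hρ1 : ρ ≤ 1 / 324) {a b : ℕ} (hab : a < b)
    (hB : ScaleBds f v g N a b)
    (hD0 : ∀ t, a ≤ t → t ≤ b → 0 < D t) (hD1 : ∀ t, a ≤ t → t ≤ b → D t ≤ 1)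
    (hNc : ∀ t, a ≤ t → t ≤ b → N * Real.sqrt (1 - Real.log (D t)) ≤ c)
    (hmass : ∀ t, a ≤ t → t ≤ b → |∫ x, f t x ∂(stdGaussian E) - D t| ≤ 1 / 8 * D t)
    (hS : ¬ Slow v N 1 a b) {t0 : ℕ} (ht0a : a ≤ t0) (ht0b : t0 ≤ b)
    (hlt : Gam g a b < c / 10 ^ 6 * (N * LL (D t0)) * Cost (Slow v N) ρ a b) :
    ∃ t, a ≤ t ∧ t ≤ b ∧ ∀ k, 1 ≤ k → ∃ V : Submodule ℝ E, finrank ℝ V ≤ 2 * (k - 1) ∧
      ∀ s, 0 < s → s ≤ 1 → 1 / s ≤ 2 ^ 16 * 2 ^ k →
        lev (fun p => ‖(ContinuousLinearMap.id ℝ E - V.starProjection) (mom (f t) s p)‖) s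
          ≤ 3000 * c * (1 / 2) ^ k * LL (D t) := by
  have hc1' : c ≤ 1 := by linarith
  have hcost1 : Cost (Slow v N) ρ a b ≤ 1 := by
    have := Vale.Agent.P262.H274.cost_le_pow (S := Slow v N) hρ0.le hab (slow_zero v hN0.le a b)
    simpa using this
  have hg0 := hB.nonneg
  set D0 := D t0 with hD0def
  have hD00 : 0 < D0 := hD0 t0 ht0a ht0b
  have hD01 : D0 ≤ 1 := hD1 t0 ht0a ht0b
  set C := c / 10 ^ 6 * (N * LL D0) with hC
  have hLL0 : 0 < LL D0 := LL_pos hD00 hD01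
  have hC0 : 0 < C := by positivity
  have hΓC : Gam g a b ≤ C := by
    have : C * Cost (Slow v N) ρ a b ≤ C * 1 := mul_le_mul_of_nonneg_left hcost1 hC0.le
    linarith
  -- `C ≤ c² D0 ≤ D0 / 8`
  have hNL : N * LL D0 ≤ c * D0 := by
    have := hNc t0 ht0a ht0b
    calc N * LL D0 = (N * Real.sqrt (1 - Real.log D0)) * D0 := by unfold LL; ring
      _ ≤ c * D0 := mul_le_mul_of_nonneg_right this hD00.le
  have hCD : C ≤ 1 / 8 * D0 := by
    have h1 : C ≤ c / 10 ^ 6 * (c * D0) := mul_le_mul_of_nonneg_left hNL (by positivity)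
    have h2 : c / 10 ^ 6 * (c * D0) ≤ 1 / 8 * (1 * D0) := by
      apply mul_le_mul _ _ (by positivity) (by norm_num)
      · rw [div_le_iff₀ (by norm_num)]; linarith
      · exact mul_le_mul_of_nonneg_right hc1' hD00.le
    linarith
  -- masses
  have hIdiff : ∀ t u, a ≤ t → t ≤ u → u ≤ b →
      |∫ x, f t x ∂(stdGaussian E) - ∫ x, f u x ∂(stdGaussian E)| ≤ C := by
    intro t u h1 h2 h3
    refine (hB.mass t u h1 h2 h3).trans ?_
    exact (gam_mono hg0 h1 h3).trans hΓC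
  have hIdiff' : ∀ t, a ≤ t → t ≤ b →
      |∫ x, f t x ∂(stdGaussian E) - ∫ x, f t0 x ∂(stdGaussian E)| ≤ C := by
    intro t h1 h2
    rcases le_total t t0 with h | h
    · exact hIdiff t t0 h1 h ht0b
    · rw [abs_sub_comm]; exact hIdiff t0 t ht0a h h2
  have hDle : ∀ t, a ≤ t → t ≤ b → D t ≤ 2 * D0 := by
    intro t h1 h2
    have h3 := abs_le.mp (hIdiff' t h1 h2)
    have h4 := abs_le.mp (hmass t h1 h2)
    have h5 := abs_le.mp (hmass t0 ht0a ht0b)
    rw [← hD0def] at h5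
    linarith [h3.2, h4.1, h5.2]
  have hDge' : ∀ t, a ≤ t → t ≤ b → D0 ≤ 3 / 2 * D t := by
    intro t h1 h2
    have h3 := abs_le.mp (hIdiff' t h1 h2)
    have h4 := abs_le.mp (hmass t h1 h2)
    have h5 := abs_le.mp (hmass t0 ht0a ht0b)
    rw [← hD0def] at h5
    linarith [h3.1, h4.2, h5.1]
  have hDge : ∀ t, a ≤ t → t ≤ b → D0 ≤ 2 * D t := by
    intro t h1 h2
    have h3 := hDge' t h1 h2
    have h4 := hD0 t h1 h2
    linarith
  have hLLt : ∀ t, a ≤ t → t ≤ b → LL D0 ≤ 2 * LL (D t) := fun t h1 h2 =>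
    LL_le_two hD00 hD01 (hD0 t h1 h2) (hD1 t h1 h2) (hDge t h1 h2)
  have hfu : ∀ t u, a ≤ t → t ≤ b → a ≤ u → u ≤ b →
      ∫ x, f u x ∂(stdGaussian E) ≤ 4 * D t := by
    intro t u h1 h2 h3 h4
    have h5 := abs_le.mp (hmass u h3 h4)
    have h7 := hDle u h3 h4
    have h8 := hDge' t h1 h2
    have h9 := hD0 t h1 h2
    linarith [h5.2]
  -- the gains at scale `s`
  have hscale : ∀ k : ℕ, ∀ s : ℝ, 0 < s → 1 / s ≤ 2 ^ 16 * 2 ^ k → 4 / s ≤ 2 ^ 18 * 2 ^ k := by
    intro k s hs h1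
    have : 4 / s = 4 * (1 / s) := by ring
    rw [this]
    calc 4 * (1 / s) ≤ 4 * (2 ^ 16 * 2 ^ k) := mul_le_mul_of_nonneg_left h1 (by norm_num)
      _ = _ := by ring
  have hCt : ∀ t, a ≤ t → t ≤ b → C ≤ 2 * (c / 10 ^ 6) * (N * LL (D t)) := by
    intro t h1 h2
    calc C = c / 10 ^ 6 * N * LL D0 := by rw [hC]; ring
      _ ≤ c / 10 ^ 6 * N * (2 * LL (D t)) :=
        mul_le_mul_of_nonneg_left (hLLt t h1 h2) (by positivity)
      _ = _ := by ring
  -- the first level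
  have key1 : ∀ t, a ≤ t → t ≤ b → ∃ V : Submodule ℝ E, finrank ℝ V ≤ 0 ∧
      ∀ s, 0 < s → s ≤ 1 → 1 / s ≤ 2 ^ 16 * 2 ^ 1 →
        lev (fun p => ‖(ContinuousLinearMap.id ℝ E - V.starProjection) (mom (f t) s p)‖) s
          ≤ 3000 * c * (1 / 2) ^ 1 * LL (D t) := by
    intro t h1 h2
    obtain ⟨V, hV⟩ := Vale.Agent.P262.H274.pivot_adm v hN0 hN1 le_rfl hab.le
      (fun hs => hS ⟨1, le_rfl, hs⟩)
    refine ⟨V, by have := hV.1; omega, fun s hs hs1 hss => ?_⟩
    apply level_bound' hf hN0 hB le_rfl le_rfl le_rfl h1 h2 hV (hD0 t h1 h2) (hD1 t h1 h2) hc0 hc1'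
      (hNc t h1 h2) (hfu t b h1 h2 hab.le le_rfl) hs hs1
    have h3 := hCt t h1 h2
    have h4 := hscale 1 s hs hss
    have hLLp : 0 < LL (D t) := LL_pos (hD0 t h1 h2) (hD1 t h1 h2)
    have hG0 : 0 ≤ Gam g a b := Finset.sum_nonneg fun r hr => by
      rw [Finset.mem_Ico] at hr; exact hg0 r hr.1 hr.2
    calc 4 / s * Gam g a b ≤ 2 ^ 18 * 2 ^ 1 * (2 * (c / 10 ^ 6) * (N * LL (D t))) :=
          mul_le_mul h4 (hΓC.trans h3) hG0 (by norm_num)
      _ = (2 ^ 20 / 10 ^ 6) * (c * (N * LL (D t))) := by ring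
      _ ≤ 2 * (c * (N * LL (D t))) := mul_le_mul_of_nonneg_right (by norm_num) (by positivity)
      _ = _ := by ring
  -- truncated gains
  set g' : ℕ → ℝ := fun t => if a ≤ t ∧ t < b then g t else 0 with hg'
  have hg'0 : ∀ t, 0 ≤ g' t := by
    intro t
    simp only [hg']
    split_ifs with h1
    · exact hg0 t h1.1 h1.2
    · exact le_rfl
  have hg'G : ∀ l u, a ≤ l → u ≤ b → Gam g' l u = Gam g l u := by
    intro l u h1 h2
    unfold Gam
    apply Finset.sum_congr rfl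
    intro t ht
    rw [Finset.mem_Ico] at ht
    simp only [hg']
    rw [if_pos ⟨by omega, by omega⟩]
  have hcc : Gam g' a b ≤ C * Cost (Slow v N) ρ a b := by
    rw [hg'G a b le_rfl le_rfl]; exact hlt.le
  obtain ⟨l, u, h1, h2, t, h3⟩ := Vale.Agent.P262.H274.deterministic_half_adm v hN0 hN1 hρ0
    (by linarith) hg'0 hab hS hcc
  -- the common time
  obtain ⟨t', ht'a, ht'b, ht'⟩ : ∃ t', a ≤ t' ∧ t' ≤ b ∧ ∀ k, k + 1 ≤ finrank ℝ E →
      l k ≤ t' ∧ t' < u k := by
    rcases Nat.eq_zero_or_pos (finrank ℝ E) with h | h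
    · exact ⟨a, le_rfl, hab.le, fun k hk => by omega⟩
    · have h4 := h3 0 (by omega)
      have h5 := h1 0
      exact ⟨t, by omega, by omega, h3⟩
  refine ⟨t', ht'a, ht'b, fun k hk => ?_⟩
  rcases Nat.lt_or_ge k 2 with hk2 | hk2
  · have : k = 1 := by omega
    subst this
    exact key1 t' ht'a ht'b
  rcases Nat.lt_or_ge k (finrank ℝ E) with hkm | hkm
  · obtain ⟨h4, h5, V, hV⟩ := h2 k hk (by omega)
    have h6 := h1 k
    have h7 := ht' k (by omega)
    refine ⟨V, by have := hV.1; omega, fun s hs hs1 hss => ?_⟩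
    have hla : a ≤ l k := h6.1
    have hub : u k ≤ b := h6.2.1
    apply level_bound' hf hN0 hB hk hla hub h7.1 h7.2.le hV
      (hD0 t' ht'a ht'b) (hD1 t' ht'a ht'b) hc0 hc1' (hNc t' ht'a ht'b)
      (hfu t' (u k) ht'a ht'b (by omega) hub) hs hs1
    have hG0 : 0 ≤ Gam g (l k) (u k) := Finset.sum_nonneg fun r hr => by
      rw [Finset.mem_Ico] at hr; exact hg0 r (by omega) (by omega)
    rw [hg'G (l k) (u k) hla hub] at h5
    have h8 : ρ ^ k ≤ (1 / 324) ^ k := pow_le_pow_left₀ hρ0.le hρ1 k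
    have hLLp : 0 < LL (D t') := LL_pos (hD0 t' ht'a ht'b) (hD1 t' ht'a ht'b)
    have h9 : Gam g (l k) (u k) ≤ 6 * (c / 10 ^ 6) * (1 / 324) ^ k * (N * LL (D t')) := by
      refine h5.trans ?_
      calc 3 * ρ ^ k * C ≤ 3 * (1 / 324) ^ k * C := by gcongr
        _ ≤ 3 * (1 / 324) ^ k * (2 * (c / 10 ^ 6) * (N * LL (D t'))) :=
          mul_le_mul_of_nonneg_left (hCt t' ht'a ht'b) (by positivity)
        _ = _ := by ring
    have e9 : (2:ℝ) ^ k * (1 / 324) ^ k = (1 / 162) ^ k := by rw [← mul_pow]; norm_num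
    calc 4 / s * Gam g (l k) (u k)
        ≤ 2 ^ 18 * 2 ^ k * (6 * (c / 10 ^ 6) * (1 / 324) ^ k * (N * LL (D t'))) :=
          mul_le_mul (hscale k s hs hss) h9 hG0 (by positivity)
      _ = (6 * 2 ^ 18 / 10 ^ 6) * (c * (2 ^ k * (1 / 324) ^ k) * (N * LL (D t'))) := by ring
      _ = (6 * 2 ^ 18 / 10 ^ 6) * (c * (1 / 162) ^ k * (N * LL (D t'))) := by rw [e9]
      _ ≤ 324 * (c * (1 / 162) ^ k * (N * LL (D t'))) :=
        mul_le_mul_of_nonneg_right (by norm_num) (by positivity)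
      _ = _ := by ring
  · refine ⟨⊤, by rw [finrank_top]; omega, fun s hs hs1 _ => ?_⟩
    have hLLp : 0 < LL (D t') := LL_pos (hD0 t' ht'a ht'b) (hD1 t' ht'a ht'b)
    have : ∀ p, ‖(ContinuousLinearMap.id ℝ E - (⊤ : Submodule ℝ E).starProjection)
        (mom (f t') s p)‖ = 0 := by
      intro p
      rw [Submodule.starProjection_top]; simp
    have e : lev (fun p => ‖(ContinuousLinearMap.id ℝ E - (⊤ : Submodule ℝ E).starProjection)
        (mom (f t') s p)‖) s = 0 := by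
      unfold lev
      simp only [this]
      simp
    rw [e]; positivity

/-- **GAIN-COST LEMMA, healthy labels, two-sided visible fields.** The field `f t` is only
required to be close in mean to the indicator of the complement of the convex body `K t`. -/
theorem gain_cost_two {f : ℕ → E → ℝ} (hf : ∀ t, UI (f t)) {K : ℕ → Set E}
    {v : ℕ → E} {g : ℕ → ℝ} {N ρ : ℝ} (hN0 : 0 < N) (hN1 : N ≤ 1)
    (hρ0 : 0 < ρ) (hρ1 : ρ ≤ 1 / 324) {a b : ℕ} (hab : a < b)
    (hB : ScaleBds f v g N a b)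
    (hK : ∀ t, a ≤ t → t ≤ b → Convex ℝ (K t))
    (hKm : ∀ t, a ≤ t → t ≤ b → MeasurableSet (K t))
    (hD0 : ∀ t, a ≤ t → t ≤ b → 0 < (stdGaussian E).real (K t)ᶜ)
    (hD1 : ∀ t, a ≤ t → t ≤ b → (stdGaussian E).real (K t)ᶜ ≤ 7 / 8)
    (hNc : ∀ t, a ≤ t → t ≤ b →
      N * Real.sqrt (1 - Real.log ((stdGaussian E).real (K t)ᶜ)) ≤ 1 / 10 ^ 9)
    (hhid : ∀ t, a ≤ t → t ≤ b →
      ∫ x, |f t x - (K t)ᶜ.indicator (fun _ => (1:ℝ)) x| ∂(stdGaussian E)
        ≤ 1 / 10 ^ 10 * (stdGaussian E).real (K t)ᶜ)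
    (hS : ¬ Slow v N 1 a b) {t0 : ℕ} (ht0a : a ≤ t0) (ht0b : t0 ≤ b) :
    1 / 10 ^ 15 * (N * LL ((stdGaussian E).real (K t0)ᶜ)) * Cost (Slow v N) ρ a b
      ≤ Gam g a b := by
  by_contra hlt
  rw [not_le] at hlt
  obtain ⟨t, hta, htb, hlev⟩ := levels2 (c := 1 / 10 ^ 9) (D := fun t => Dm (K t)) hf hN0 hN1
    (by norm_num) (by norm_num) hρ0 hρ1 hab hB hD0 (fun t _ _ => measureReal_le_one) hNc
    (fun t h1 h2 => by
      have h3 := hhid t h1 h2
      have h4 := hD0 t h1 h2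
      have h5 : Dm (K t) = ∫ x, (K t)ᶜ.indicator (fun _ => (1:ℝ)) x ∂(stdGaussian E) := by
        rw [integral_indicator_const _ (hKm t h1 h2).compl]; simp [Dm]
      have h6 : Integrable ((K t)ᶜ.indicator (fun _ => (1:ℝ))) (stdGaussian E) :=
        (UI.indicator (hKm t h1 h2).compl).integrable _
      have h7 : |∫ x, f t x ∂(stdGaussian E) - Dm (K t)|
          ≤ ∫ x, |f t x - (K t)ᶜ.indicator (fun _ => (1:ℝ)) x| ∂(stdGaussian E) := by
        rw [h5, ← integral_sub ((hf t).integrable _) h6]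
        exact abs_integral_le_integral_abs
      refine h7.trans (h3.trans ?_)
      unfold Dm
      linarith) hS ht0a ht0b (by
      have e : (1:ℝ) / 10 ^ 9 / 10 ^ 6 = 1 / 10 ^ 15 := by norm_num
      rw [e]; exact hlt)
  choose V hV1 hV2 using hlev
  have hKt := hK t hta htb
  have hKmt := hKm t hta htb
  set D := Dm (K t) with hD
  have hDpos : 0 < D := hD0 t hta htb
  have hD78 : D ≤ 7 / 8 := hD1 t hta htb
  have hD1' : D ≤ 1 := by linarith
  have hLL0 : 0 < LL D := LL_pos hDpos hD1'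
  set W : ℕ → Submodule ℝ E := fun j => V (kk j) (one_le_kk j) with hW
  have hsc : ∀ j, sc j = (1 / 2 : ℝ) ^ j := fun j => rfl
  -- the three fields
  set e : E → ℝ := (K t)ᶜ.indicator (fun _ => (1:ℝ)) with he
  have heU : UI e := UI.indicator hKmt.compl
  have he01 : ∀ x, e x = 0 ∨ e x = 1 := fun x => by
    rw [he]
    by_cases hx : x ∈ (K t)ᶜ
    · right; rw [indicator_of_mem hx]
    · left; rw [indicator_of_notMem hx]
  set f1 : E → ℝ := fun x => f t x * e x with hf1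
  set h1 : E → ℝ := fun x => (1 - f t x) * e x with hh1
  set r1 : E → ℝ := fun x => f t x * (1 - e x) with hr1
  have hfn := (hf t).nonneg
  have hfo := (hf t).le_one
  have f1U : UI f1 := ⟨(hf t).meas.mul heU.meas, fun x => mul_nonneg (hfn x) (heU.nonneg x),
    fun x => mul_le_one₀ (hfo x) (heU.nonneg x) (heU.le_one x)⟩
  have h1U : UI h1 := ⟨(measurable_const.sub (hf t).meas).mul heU.meas,
    fun x => mul_nonneg (by linarith [hfo x]) (heU.nonneg x),
    fun x => mul_le_one₀ (by linarith [hfn x]) (heU.nonneg x) (heU.le_one x)⟩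
  have r1U : UI r1 := ⟨(hf t).meas.mul (measurable_const.sub heU.meas),
    fun x => mul_nonneg (hfn x) (by linarith [heU.le_one x]),
    fun x => mul_le_one₀ (hfo x) (by linarith [heU.le_one x]) (by linarith [heU.nonneg x])⟩
  have efh : (fun x => f1 x + h1 x) = e := by
    funext x; simp only [hf1, hh1]; ring
  have efr : (fun x => f1 x + r1 x) = f t := by
    funext x; simp only [hf1, hr1]; ring
  have habs1 : ∀ x, h1 x + r1 x = |f t x - e x| := by
    intro x
    simp only [hh1, hr1]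
    rcases he01 x with h | h
    · rw [h, abs_of_nonneg (by rw [sub_zero]; exact hfn x)]; ring
    · rw [h, abs_of_nonpos (by linarith [hfo x])]; ring
  set I := ∫ x, f1 x ∂(stdGaussian E) with hI
  set H := ∫ x, h1 x ∂(stdGaussian E) with hH
  set R := ∫ x, r1 x ∂(stdGaussian E) with hR
  have hH0 : 0 ≤ H := integral_nonneg fun x => h1U.nonneg x
  have hR0 : 0 ≤ R := integral_nonneg fun x => r1U.nonneg x
  have hHR : H + R ≤ 1 / 10 ^ 10 * D := by
    rw [hH, hR, ← integral_add (h1U.integrable _) (r1U.integrable _)]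
    simp only [habs1]
    exact hhid t hta htb
  -- sum over the scales
  have hsum : ∀ n, ∑ j ∈ Finset.range n,
      (lev (fun p => ‖(ContinuousLinearMap.id ℝ E - (W (j + 1)).starProjection)
          (mom (fun x => f1 x + r1 x) (sc (j + 1)) p)‖) (sc (j + 1))
        + lev (fun p => ‖(W (j + 1)).starProjection
          (mom (fun x => f1 x + h1 x) (sc (j + 1)) p)‖) (sc (j + 1)))
      ≤ 6 / 10 ^ 4 * LL D := by
    intro n
    refine le_trans (Finset.sum_le_sum (g := fun j => Bj (j + 1) * LL D) fun j _ => ?_) ?_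
    · have h1 := hV2 (kk (j + 1)) (one_le_kk _) (sc (j + 1)) (sc_pos _) (sc_le_one _)
        (scale_kk (j + 1))
      have h2 := lev_few hKt hKmt (W (j + 1)) (sc_pos (j + 1)) (sc_le_one (j + 1))
      rw [efh, efr]
      have h3 : (finrank ℝ (W (j + 1)) : ℝ) ≤ 2 * ((kk (j + 1) : ℝ) - 1) := by
        have h4 := hV1 (kk (j + 1)) (one_le_kk _)
        have h5 := one_le_kk (j + 1)
        have h6 : (finrank ℝ (W (j + 1)) : ℝ) ≤ ((2 * (kk (j + 1) - 1) : ℕ) : ℝ) := by
          exact_mod_cast h4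
        rw [Nat.cast_mul, Nat.cast_sub h5] at h6
        simpa using h6
      have h7 : Ip (D / 2) ≤ 2 * LL D := Ip_le_LL' (by linarith) (by linarith) hD1'
      have h8 : 0 ≤ Ip (D / 2) := Ip_nonneg _
      have h9 : 0 < sc (j + 1) := sc_pos _
      have h12 : (1:ℝ) ≤ kk (j + 1) := by exact_mod_cast one_le_kk (j + 1)
      have h10 : lev (fun p => ‖(W (j + 1)).starProjection
          (mom ((K t)ᶜ.indicator fun _ => (1:ℝ)) (sc (j + 1)) p)‖) (sc (j + 1))
          ≤ 2 * ((kk (j + 1) : ℝ) - 1) * (2 * sc (j + 1) * (2 * LL D)) := by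
        refine h2.trans ?_
        exact mul_le_mul h3 (mul_le_mul_of_nonneg_left h7 (by positivity)) (by positivity)
          (le_trans (Nat.cast_nonneg _) h3)
      have h11 : 0 ≤ 2 * ((kk (j + 1) : ℝ) - 1) * (2 * sc (j + 1) * (2 * LL D)) := by
        have : 0 ≤ (kk (j + 1) : ℝ) - 1 := by linarith
        positivity
      have e2 : Bj (j + 1) * LL D = 3000 * (1 / 10 ^ 9) * (1 / 2) ^ (kk (j + 1)) * LL D
          + 2 * (2 * ((kk (j + 1) : ℝ) - 1) * (2 * sc (j + 1) * (2 * LL D))) := by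
        rw [hsc]; unfold Bj; ring
      rw [e2]
      linarith
    · rw [← Finset.sum_mul]
      exact mul_le_mul_of_nonneg_right (Bj_sum n) hLL0.le
  have hvis := vis_multiscale2 f1U h1U r1U
    (fun x => by
      have : f1 x + h1 x = e x := congrFun efh x
      rw [this]; exact heU.le_one x)
    (fun x => by
      have : f1 x + r1 x = f t x := congrFun efr x
      rw [this]; exact hfo x)
    (fun j => ContinuousLinearMap.id ℝ E - (W j).starProjection) (fun j => (W j).starProjection)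
    (fun j x => by simp) (fun j x => by
      have h1 : (ContinuousLinearMap.id ℝ E - (W j).starProjection) x = (W j)ᗮ.starProjection x := by
        rw [Submodule.starProjection_orthogonal]
      rw [h1]
      exact Submodule.norm_starProjection_apply_le _ _)
    (fun j x => Submodule.norm_starProjection_apply_le _ _) hsum
  -- masses
  have hIH : I + H = D := by
    rw [hI, hH, ← integral_add (f1U.integrable _) (h1U.integrable _), efh, he,
      integral_indicator_const _ hKmt.compl]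
    simp [hD, Dm]
  have hIpS : ∀ x, 0 ≤ x → x ≤ 1 / 10 ^ 10 * D → Ip x ≤ 2 / 10 ^ 5 * LL D := by
    intro x hx0 hx1
    have h1 : Ip x ≤ 2 * LL (1 / 10 ^ 10 * D) := Ip_le_LL' hx0 hx1 (by linarith)
    have h2 : LL (1 / 10 ^ 10 * D) ≤ LL (1 / 10 ^ 10) * LL D :=
      LL_mul_le (by norm_num) (by norm_num) hDpos hD1'
    have h3 : LL (1 / 10 ^ 10) ≤ 1 / 10 ^ 5 := by
      refine (LL_le_sqrt (by norm_num)).trans ?_
      rw [Real.sqrt_le_left (by norm_num)]; norm_num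
    have h4 : LL (1 / 10 ^ 10) * LL D ≤ 1 / 10 ^ 5 * LL D := mul_le_mul_of_nonneg_right h3 hLL0.le
    linarith
  have hIpH : Ip H ≤ 2 / 10 ^ 5 * LL D := hIpS H hH0 (by linarith)
  have hIpR : Ip R ≤ 2 / 10 ^ 5 * LL D := hIpS R hR0 (by linarith)
  have hIpf : ∫ x, Ip (f1 x) ∂(stdGaussian E) ≤ Ip H := by
    have h2 : ∀ x, Ip (f1 x) = Ip (h1 x) := by
      intro x
      simp only [hf1, hh1]
      rcases he01 x with h | h
      · rw [h, mul_zero, mul_zero]
      · rw [h, mul_one, mul_one, Ip_symm]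
    simp only [h2]
    exact Ip_jensen h1U
  have hIpI : LL D ≤ 96 * Ip I := by
    have h1 : LL I ≤ 48 * Ip I := LL_le_Ip (by linarith) (by linarith)
    have h2 : 1 / 2 * LL D ≤ LL (1 / 2 * D) := mul_LL_le (by norm_num) (by norm_num) hDpos hD1'
    have h3 : LL (1 / 2 * D) ≤ LL I := LL_mono (by linarith) (by linarith) (by linarith)
    linarith
  linarith

end

end Vale.Agent.P262.H941
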