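import Vale.Agent.P262.H941.GainCost4
import Vale.Agent.P262.H274.D9b
import Vale.Agent.P262.H174.Soft6

/-!
# The gain-cost lemma along a refined sequence of fields

Between two real times the field may pass through any number of intermediate fields (star step at
a middle field, rotations, reopenings, flips); convexity and closeness to an indicator are only
required at the real times.
-/

set_option linter.unusedSectionVars false

namespace Vale.Agent.P262.H941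

open MeasureTheory ProbabilityTheory Set Filter Topology Module
open scoped RealInnerProductSpace
open Vale.Agent.P262.H847 Vale.Agent.P262.H912
open Vale.Agent.P262.H274 (Slow SlowEx PivotAt Cost Gam mix dbl mix_even mix_odd mix_UI
  sum_Ico_double fluxLe_zero)
open Vale.Agent.P262.H174 (Soft scaleBds_of_soft)

variable {E : Type*} [NormedAddCommGroup E] [InnerProductSpace ℝ E] [FiniteDimensional ℝ E]
  [MeasurableSpace E] [BorelSpace E]

noncomputable section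

/-- a sum over a refined interval -/
lemma sum_ref {M : Type*} [AddCommMonoid M] (g : ℕ → M) {τ : ℕ → ℕ} (hτ : Monotone τ) {a b : ℕ}
    (hab : a ≤ b) : ∑ s ∈ Finset.Ico (τ a) (τ b), g s
      = ∑ t ∈ Finset.Ico a b, ∑ s ∈ Finset.Ico (τ t) (τ (t + 1)), g s := by
  induction b, hab using Nat.le_induction with
  | base => simp
  | succ b hab ih =>
    rw [Finset.sum_Ico_succ_top hab, ← ih]
    exact (Finset.sum_Ico_consecutive g (hτ hab) (hτ (Nat.le_succ b))).symm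

/-- the real time of a refined index -/
def stp (τ : ℕ → ℕ) (b s : ℕ) : ℕ := Nat.findGreatest (fun t => τ t ≤ s) b

lemma stp_eq {τ : ℕ → ℕ} (hτ : Monotone τ) {b t s : ℕ} (htb : t ≤ b) (h1 : τ t ≤ s)
    (h2 : s < τ (t + 1)) : stp τ b s = t := by
  unfold stp
  rw [Nat.findGreatest_eq_iff]
  refine ⟨htb, fun _ => h1, fun n hn _ hc => ?_⟩
  have := hτ (show t + 1 ≤ n by omega)
  omega

/-- the refined directions: `v t` at the index `σ t`, zero at all other indices -/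
def wref (v : ℕ → E) (τ σ : ℕ → ℕ) (b s : ℕ) : E :=
  if s = σ (stp τ b s) then v (stp τ b s) else 0

lemma wref_eq {v : ℕ → E} {τ σ : ℕ → ℕ} (hτ : Monotone τ) {b t s : ℕ} (htb : t ≤ b)
    (h1 : τ t ≤ s) (h2 : s < τ (t + 1)) :
    wref v τ σ b s = if s = σ t then v t else 0 := by
  unfold wref; rw [stp_eq hτ htb h1 h2]

/-- one real step of a weighted sum -/
lemma sum_wref_step {v : ℕ → E} {τ σ : ℕ → ℕ} (hτ : Monotone τ) {b t : ℕ} (htb : t ≤ b)
    (c : ℕ → ℝ) {n : ℕ} (hn : n ≤ τ (t + 1)) (hσ : τ t ≤ σ t) :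
    ∑ s ∈ Finset.Ico (τ t) n, c (stp τ b s) • wref v τ σ b s
      = if σ t < n then c t • v t else 0 := by
  have h1 : ∀ s ∈ Finset.Ico (τ t) n, c (stp τ b s) • wref v τ σ b s
      = if s = σ t then c t • v t else 0 := by
    intro s hs
    rw [Finset.mem_Ico] at hs
    rw [wref_eq hτ htb hs.1 (by omega), stp_eq hτ htb hs.1 (by omega)]
    split_ifs <;> simp
  rw [Finset.sum_congr rfl h1, Finset.sum_ite_eq']
  by_cases h : σ t < n
  · rw [if_pos h, if_pos (Finset.mem_Ico.2 ⟨hσ, h⟩)]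
  · rw [if_neg h, if_neg (fun h' => h (Finset.mem_Ico.1 h').2)]

/-- several real steps of a weighted sum -/
lemma sum_wref {v : ℕ → E} {τ σ : ℕ → ℕ} (hτ : Monotone τ) {l t b : ℕ} (hlt : l ≤ t)
    (htb : t ≤ b) (hσ : ∀ r, l ≤ r → r < t → τ r ≤ σ r ∧ σ r < τ (r + 1)) (c : ℕ → ℝ) :
    ∑ s ∈ Finset.Ico (τ l) (τ t), c (stp τ b s) • wref v τ σ b s
      = ∑ r ∈ Finset.Ico l t, c r • v r := by
  rw [sum_ref _ hτ hlt]
  apply Finset.sum_congr rfl
  intro r hr
  rw [Finset.mem_Ico] at hr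
  have h := hσ r hr.1 hr.2
  rw [sum_wref_step hτ (by omega) c le_rfl h.1, if_pos h.2]

/-- the refined index of an intermediate position -/
lemma exists_real {τ : ℕ → ℕ} {l u m : ℕ} (hlu : l ≤ u) (h1 : τ l ≤ m) (h2 : m < τ u) :
    ∃ t, l ≤ t ∧ t < u ∧ τ t ≤ m ∧ m < τ (t + 1) := by
  induction u, hlu using Nat.le_induction with
  | base => omega
  | succ u hlu ih =>
    rcases Nat.lt_or_ge m (τ u) with h | h
    · obtain ⟨t, h3, h4, h5⟩ := ih h
      exact ⟨t, h3, by omega, h5⟩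
    · exact ⟨u, hlu, by omega, h, h2⟩

/-- admissible coefficients of the real sequence give admissible coefficients of the refined one -/
lemma adm_ref {v : ℕ → E} {τ σ : ℕ → ℕ} (hτ : Monotone τ) {l u b : ℕ} (hlu : l ≤ u)
    (hub : u ≤ b) (hσ : ∀ r, l ≤ r → r < u → τ r ≤ σ r ∧ σ r < τ (r + 1)) {N : ℝ} {κ : ℕ → ℝ}
    (hκ : Adm (fun t => v (l + t)) (u - l) N κ) :
    ∃ κ', Adm (fun t => wref v τ σ b (τ l + t)) (τ u - τ l) N κ' ∧
      ∑ r ∈ Finset.range (τ u - τ l), κ' r • wref v τ σ b (τ l + r)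
        = ∑ r ∈ Finset.range (u - l), κ r • v (l + r) := by
  set c : ℕ → ℝ := fun t => κ (t - l) with hc
  have hreal : ∀ t, l ≤ t → ∑ r ∈ Finset.Ico l t, c r • v r
      = ∑ r ∈ Finset.range (t - l), κ r • v (l + r) := by
    intro t hlt
    rw [Finset.sum_Ico_eq_sum_range]
    apply Finset.sum_congr rfl
    intro r _
    simp only [hc]
    rw [Nat.add_sub_cancel_left]
  have hlu' : τ l ≤ τ u := hτ hlu
  have hIco : ∀ n, ∑ r ∈ Finset.range n, c (stp τ b (τ l + r)) • wref v τ σ b (τ l + r)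
      = ∑ s ∈ Finset.Ico (τ l) (τ l + n), c (stp τ b s) • wref v τ σ b s := by
    intro n
    rw [Finset.sum_Ico_eq_sum_range, Nat.add_sub_cancel_left]
  have hfull : ∑ r ∈ Finset.range (τ u - τ l), c (stp τ b (τ l + r)) • wref v τ σ b (τ l + r)
      = ∑ r ∈ Finset.range (u - l), κ r • v (l + r) := by
    rw [hIco, Nat.add_sub_cancel' hlu', sum_wref hτ hlu hub hσ c, hreal u hlu]
  refine ⟨fun r => c (stp τ b (τ l + r)), ⟨fun t => hκ.abs_le _, fun n hn => ?_, ?_⟩, hfull⟩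
  · rcases Nat.eq_or_lt_of_le hn with h | h
    · subst h
      rw [hfull]
      exact hκ.partial_le _ le_rfl
    · obtain ⟨t, h1, h2, h3, h4⟩ := exists_real hlu (show τ l ≤ τ l + n by omega)
        (show τ l + n < τ u by omega)
      have h5 := hσ t h1 h2
      rw [hIco, ← Finset.sum_Ico_consecutive _ (hτ h1) h3,
        sum_wref hτ h1 (by omega) (fun r h6 h7 => hσ r h6 (by omega)) c,
        sum_wref_step hτ (by omega) c h4.le h5.1]
      by_cases h6 : σ t < τ l + n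
      · rw [if_pos h6, ← Finset.sum_Ico_succ_top h1 (fun r => c r • v r), hreal (t + 1) (by omega)]
        exact hκ.partial_le _ (by omega)
      · rw [if_neg h6, add_zero, hreal t h1]
        exact hκ.partial_le _ (by omega)
  · show ‖∑ r ∈ Finset.range (τ u - τ l), c (stp τ b (τ l + r)) • wref v τ σ b (τ l + r)‖ ≤ N
    rw [hfull]
    exact hκ.final_le

lemma gam_ref (g : ℕ → ℝ) {τ : ℕ → ℕ} (hτ : Monotone τ) {a b : ℕ} (hab : a ≤ b) :
    Gam (fun t => Gam g (τ t) (τ (t + 1))) a b = Gam g (τ a) (τ b) :=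
  (sum_ref g hτ hab).symm

/-- **Scale bounds of the real sequence from those of a refined sequence.** -/
theorem ScaleBds.ref {e : ℕ → E → ℝ} {v : ℕ → E} {g : ℕ → ℝ} {N : ℝ} {τ σ : ℕ → ℕ}
    (hτ : Monotone τ) {a b : ℕ}
    (hσ : ∀ t, a ≤ t → t < b → τ t ≤ σ t ∧ σ t < τ (t + 1))
    (hB : ScaleBds e (wref v τ σ b) g N (τ a) (τ b)) :
    ScaleBds (fun t => e (τ t)) v (fun t => Gam g (τ t) (τ (t + 1))) N a b := by
  refine ⟨fun t h1 h2 => ?_, ?_, ?_, ?_⟩
  · apply Finset.sum_nonneg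
    intro s hs
    rw [Finset.mem_Ico] at hs
    exact hB.nonneg s ((hτ h1).trans hs.1) (hs.2.trans_le (hτ (by omega)))
  · intro l u hal hlu hub s hs hs1 P lam hP ε T hε hε1 hT
    have h := hB.flux (τ l) (τ u) (hτ hal) (hτ hlu) (hτ hub) s hs hs1 P lam (fun m δ hδ => by
      obtain ⟨κ, hκ, h1⟩ := hP m δ hδ
      obtain ⟨κ', hκ', h2⟩ := adm_ref (v := v) hτ hlu hub
        (fun r h3 h4 => hσ r (by omega) (by omega)) hκ
      exact ⟨κ', hκ', by rw [h2]; exact h1⟩) ε T hε hε1 hT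
    rw [gam_ref g hτ hlu]
    exact h
  · intro t u hat htu hub s hs hs1 T hT
    rw [gam_ref g hτ htu]
    exact hB.change (τ t) (τ u) (hτ hat) (hτ htu) (hτ hub) s hs hs1 T hT
  · intro t u hat htu hub
    rw [gam_ref g hτ htu]
    exact hB.mass (τ t) (τ u) (hτ hat) (hτ htu) (hτ hub)

/-- the scale bounds of the real sequence, all moves of the refined sequence being soft -/
theorem scaleBds_ref {e : ℕ → E → ℝ} (he : ∀ s, UI (e s)) {v : ℕ → E} {F α β : ℕ → ℝ} {N : ℝ}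
    (hN : 0 ≤ N) {τ σ : ℕ → ℕ} (hτ : Monotone τ) {a b : ℕ}
    (hσ : ∀ t, a ≤ t → t < b → τ t ≤ σ t ∧ σ t < τ (t + 1))
    (hF : ∀ t, a ≤ t → t < b → FluxLe (e (σ t)) (v t) (F t))
    (hso : ∀ s, τ a ≤ s → s < τ b → Soft (e s) (e (s + 1)) (α s) (β s))
    (hβ : ∀ s, τ a ≤ s → s < τ b → 0 ≤ β s) :
    ∃ G : ℕ → ℝ, ScaleBds (fun t => e (τ t)) v G N a b ∧
      ∀ l u, a ≤ l → l ≤ u → u ≤ b →
        Gam G l u = Gam F l u + Gam (fun s => α s + β s) (τ l) (τ u) := by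
  classical
  set F' : ℕ → ℝ := fun s => if s = σ (stp τ b s) then F (stp τ b s) else 0 with hF'
  have hF'eq : ∀ t s, t ≤ b → τ t ≤ s → s < τ (t + 1) → F' s = if s = σ t then F t else 0 := by
    intro t s h1 h2 h3
    simp only [hF']
    rw [stp_eq hτ h1 h2 h3]
  have hB : ScaleBds e (wref v τ σ b) (fun s => F' s + α s + β s) N (τ a) (τ b) := by
    refine scaleBds_of_soft he hN (fun s h1 h2 => ?_) hso hβ
    have hab : a ≤ b := by
      by_contra h
      have := hτ (show b ≤ a by omega)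
      omega
    obtain ⟨t, h3, h4, h5, h6⟩ := exists_real hab h1 h2
    rw [wref_eq hτ h4.le h5 h6, hF'eq t s h4.le h5 h6]
    by_cases h7 : s = σ t
    · rw [if_pos h7, if_pos h7, h7]
      exact hF t h3 h4
    · rw [if_neg h7, if_neg h7]
      exact fluxLe_zero
  refine ⟨_, hB.ref hτ hσ, fun l u h1 h2 h3 => ?_⟩
  rw [gam_ref _ hτ h2]
  have e1 : Gam (fun s => F' s + α s + β s) (τ l) (τ u)
      = Gam F' (τ l) (τ u) + Gam (fun s => α s + β s) (τ l) (τ u) := by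
    unfold Gam
    rw [← Finset.sum_add_distrib]
    exact Finset.sum_congr rfl fun s _ => by ring
  rw [e1]
  congr 1
  unfold Gam
  rw [sum_ref _ hτ h2]
  apply Finset.sum_congr rfl
  intro t ht
  rw [Finset.mem_Ico] at ht
  have h4 := hσ t (by omega) (by omega)
  have h5 : ∀ s ∈ Finset.Ico (τ t) (τ (t + 1)), F' s = if s = σ t then F t else 0 := by
    intro s hs
    rw [Finset.mem_Ico] at hs
    exact hF'eq t s (by omega) hs.1 hs.2
  rw [Finset.sum_congr rfl h5, Finset.sum_ite_eq', if_pos (Finset.mem_Ico.2 h4)]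

/-- **GAIN-COST LEMMA along a refined sequence, healthy labels, two-sided visible fields.**
`e s` are all the intermediate fields, `τ t` is the index of the real time `t`, `σ t` the index of
the field at which the flux in the direction `v t` is taken.  All moves `e s → e (s + 1)` are soft.
Convexity and closeness to the indicator of the complement of `K t` are required only at the real
times. -/
theorem gain_cost_ref {e : ℕ → E → ℝ} (he : ∀ s, UI (e s)) {K : ℕ → Set E}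
    {v : ℕ → E} {F α β : ℕ → ℝ} {N ρ : ℝ} (hN0 : 0 < N) (hN1 : N ≤ 1)
    (hρ0 : 0 < ρ) (hρ1 : ρ ≤ 1 / 324) {τ σ : ℕ → ℕ} (hτ : Monotone τ) {a b : ℕ} (hab : a < b)
    (hσ : ∀ t, a ≤ t → t < b → τ t ≤ σ t ∧ σ t < τ (t + 1))
    (hF : ∀ t, a ≤ t → t < b → FluxLe (e (σ t)) (v t) (F t))
    (hso : ∀ s, τ a ≤ s → s < τ b → Soft (e s) (e (s + 1)) (α s) (β s))
    (hβ : ∀ s, τ a ≤ s → s < τ b → 0 ≤ β s)
    (hK : ∀ t, a ≤ t → t ≤ b → Convex ℝ (K t))
    (hKm : ∀ t, a ≤ t → t ≤ b → MeasurableSet (K t))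
    (hD0 : ∀ t, a ≤ t → t ≤ b → 0 < (stdGaussian E).real (K t)ᶜ)
    (hD1 : ∀ t, a ≤ t → t ≤ b → (stdGaussian E).real (K t)ᶜ ≤ 7 / 8)
    (hNc : ∀ t, a ≤ t → t ≤ b →
      N * Real.sqrt (1 - Real.log ((stdGaussian E).real (K t)ᶜ)) ≤ 1 / 10 ^ 9)
    (hhid : ∀ t, a ≤ t → t ≤ b →
      ∫ x, |e (τ t) x - (K t)ᶜ.indicator (fun _ => (1:ℝ)) x| ∂(stdGaussian E)
        ≤ 1 / 10 ^ 10 * (stdGaussian E).real (K t)ᶜ)
    (hS : ¬ Slow v N 1 a b) {t0 : ℕ} (ht0a : a ≤ t0) (ht0b : t0 ≤ b) :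
    1 / 10 ^ 15 * (N * LL ((stdGaussian E).real (K t0)ᶜ)) * Cost (Slow v N) ρ a b
      ≤ Gam F a b + Gam (fun s => α s + β s) (τ a) (τ b) := by
  obtain ⟨G, hB, hG⟩ := scaleBds_ref he hN0.le hτ hσ hF hso hβ
  have h := gain_cost_two (f := fun t => e (τ t)) (fun t => he _) hN0 hN1 hρ0 hρ1 hab hB hK hKm
    hD0 hD1 hNc hhid hS ht0a ht0b
  rw [hG a b le_rfl hab.le le_rfl] at h
  exact h

/-- sums along the doubled sequence -/
lemma gam_mix_mix (α α' : ℕ → ℝ) {a b : ℕ} (hab : a ≤ b) :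
    Gam (mix α α') (2 * a) (2 * b) = Gam (fun t => α t + α' t) a b := by
  unfold Gam
  rw [sum_Ico_double _ hab]
  exact Finset.sum_congr rfl fun t _ => by rw [mix_even, mix_odd]

/-- **GAIN-COST LEMMA with one middle field per step.** -/
theorem gain_cost_mid_soft {f fh : ℕ → E → ℝ} (hf : ∀ t, UI (f t)) (hfh : ∀ t, UI (fh t))
    {K : ℕ → Set E} {v : ℕ → E} {F α β α' β' : ℕ → ℝ} {N ρ : ℝ} (hN0 : 0 < N) (hN1 : N ≤ 1)
    (hρ0 : 0 < ρ) (hρ1 : ρ ≤ 1 / 324) {a b : ℕ} (hab : a < b)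
    (hF : ∀ t, a ≤ t → t < b → FluxLe (fh t) (v t) (F t))
    (hso : ∀ t, a ≤ t → t < b → Soft (f t) (fh t) (α t) (β t))
    (hso' : ∀ t, a ≤ t → t < b → Soft (fh t) (f (t + 1)) (α' t) (β' t))
    (hβ : ∀ t, a ≤ t → t < b → 0 ≤ β t) (hβ' : ∀ t, a ≤ t → t < b → 0 ≤ β' t)
    (hK : ∀ t, a ≤ t → t ≤ b → Convex ℝ (K t))
    (hKm : ∀ t, a ≤ t → t ≤ b → MeasurableSet (K t))
    (hD0 : ∀ t, a ≤ t → t ≤ b → 0 < (stdGaussian E).real (K t)ᶜ)
    (hD1 : ∀ t, a ≤ t → t ≤ b → (stdGaussian E).real (K t)ᶜ ≤ 7 / 8)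
    (hNc : ∀ t, a ≤ t → t ≤ b →
      N * Real.sqrt (1 - Real.log ((stdGaussian E).real (K t)ᶜ)) ≤ 1 / 10 ^ 9)
    (hhid : ∀ t, a ≤ t → t ≤ b →
      ∫ x, |f t x - (K t)ᶜ.indicator (fun _ => (1:ℝ)) x| ∂(stdGaussian E)
        ≤ 1 / 10 ^ 10 * (stdGaussian E).real (K t)ᶜ)
    (hS : ¬ Slow v N 1 a b) {t0 : ℕ} (ht0a : a ≤ t0) (ht0b : t0 ≤ b) :
    1 / 10 ^ 15 * (N * LL ((stdGaussian E).real (K t0)ᶜ)) * Cost (Slow v N) ρ a b
      ≤ Gam (fun t => F t + (α t + α' t) + (β t + β' t)) a b := by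
  have hτ : Monotone (fun t : ℕ => 2 * t) := fun x y h => Nat.mul_le_mul_left 2 h
  have hsoft : ∀ s, 2 * a ≤ s → s < 2 * b →
      Soft (mix f fh s) (mix f fh (s + 1)) (mix α α' s) (mix β β' s) := by
    intro s hs1 hs2
    rcases Nat.even_or_odd' s with ⟨t, rfl | rfl⟩
    · simp only [mix_even, mix_odd]; exact hso t (by omega) (by omega)
    · rw [show 2 * t + 1 + 1 = 2 * (t + 1) by ring]
      simp only [mix_even, mix_odd]; exact hso' t (by omega) (by omega)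
  have h := gain_cost_ref (e := mix f fh) (mix_UI hf hfh) (K := K) (v := v) (F := F)
    (α := mix α α') (β := mix β β') hN0 hN1 hρ0 hρ1 (τ := fun t => 2 * t)
    (σ := fun t => 2 * t + 1) hτ hab (fun t _ _ => ⟨by omega, by omega⟩)
    (fun t h1 h2 => by
      show FluxLe (mix f fh (2 * t + 1)) (v t) (F t)
      rw [mix_odd]; exact hF t h1 h2) hsoft
    (fun s hs1 hs2 => by
      rcases Nat.even_or_odd' s with ⟨t, rfl | rfl⟩
      · rw [mix_even]; exact hβ t (by omega) (by omega)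
      · rw [mix_odd]; exact hβ' t (by omega) (by omega))
    hK hKm hD0 hD1 hNc
    (fun t h1 h2 => by
      show ∫ x, |mix f fh (2 * t) x - (K t)ᶜ.indicator (fun _ => (1:ℝ)) x| ∂(stdGaussian E) ≤ _
      rw [mix_even]; exact hhid t h1 h2) hS ht0a ht0b
  refine h.trans (le_of_eq ?_)
  have e1 : Gam (fun s => mix α α' s + mix β β' s) (2 * a) (2 * b)
      = Gam (mix α α') (2 * a) (2 * b) + Gam (mix β β') (2 * a) (2 * b) := by
    unfold Gam; rw [← Finset.sum_add_distrib]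
  show Gam F a b + Gam (fun s => mix α α' s + mix β β' s) (2 * a) (2 * b) = _
  rw [e1, gam_mix_mix α α' hab.le, gam_mix_mix β β' hab.le]
  unfold Gam
  rw [← Finset.sum_add_distrib, ← Finset.sum_add_distrib]
  exact Finset.sum_congr rfl fun t _ => by ring

end

end Vale.Agent.P262.H941
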