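import Vale.Agent.P262.H941.Prof

/-!
# The functional isoperimetric inequality (first order form of Ehrhard's inequality)
-/

set_option linter.unusedSectionVars false

namespace Vale.Agent.P262.H941

open MeasureTheory ProbabilityTheory Set Filter Topology
open Vale.Agent.P262.H847

/-! ### Gaussian tails -/

lemma integrable_exp_sq_line {θ : ℝ} (hθ : θ < 1) :
    Integrable (fun x : ℝ => Real.exp (θ * x ^ 2 / 2)) (gaussianReal 0 1) := by
  rw [gaussianReal_of_var_ne_zero 0 (by norm_num : (1 : NNReal) ≠ 0),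
    integrable_withDensity_iff (measurable_gaussianPDF 0 1)
      (Eventually.of_forall fun x => ENNReal.ofReal_lt_top)]
  have h := (integrable_exp_neg_mul_sq (b := (1 - θ) / 2) (by linarith)).const_mul
    ((Real.sqrt (2 * Real.pi))⁻¹)
  refine h.congr (Eventually.of_forall fun x => ?_)
  have e : (gaussianPDF 0 1 x).toReal = phi x := by
    rw [gaussianPDF, ENNReal.toReal_ofReal (gaussianPDFReal_nonneg 0 1 x)]; rfl
  simp only []
  rw [e, phi_eq, mul_left_comm, ← Real.exp_add]
  congr 2
  ring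

variable {E : Type*} [NormedAddCommGroup E] [InnerProductSpace ℝ E] [FiniteDimensional ℝ E]
  [MeasurableSpace E] [BorelSpace E]

lemma integrable_exp_sq {θ : ℝ} (hθ : θ < 1) :
    Integrable (fun x : E => Real.exp (θ * ‖x‖ ^ 2 / 2)) (stdGaussian E) := by
  rw [stdGaussian, integrable_map_measure (by fun_prop)
    (Measurable.aemeasurable (by fun_prop))]
  have h := Integrable.fintype_prod (μ := fun _ : Fin (Module.finrank ℝ E) => gaussianReal 0 1)
    (f := fun _ => fun x : ℝ => Real.exp (θ * x ^ 2 / 2)) (fun _ => integrable_exp_sq_line hθ)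
  refine h.congr (Eventually.of_forall fun x => ?_)
  simp only [Function.comp]
  rw [← Real.exp_sum]
  congr 1
  have h1 : ‖∑ i, x i • stdOrthonormalBasis ℝ E i‖ ^ 2 = ∑ i, x i ^ 2 := by
    have h2 := (stdOrthonormalBasis ℝ E).orthonormal.inner_sum x x Finset.univ
    rw [real_inner_self_eq_norm_sq] at h2
    rw [h2]
    apply Finset.sum_congr rfl
    intro i _
    simp [sq]
  rw [h1, Finset.mul_sum, Finset.sum_div]

lemma integrable_one_add_sq :
    Integrable (fun x : E => (1 + ‖x‖) ^ 2) (stdGaussian E) := by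
  have h := (integrable_exp_sq (E := E) (θ := 1 / 2) (by norm_num)).const_mul 8
  refine h.mono' (by fun_prop) (Eventually.of_forall fun x => ?_)
  rw [Real.norm_eq_abs, abs_of_nonneg (by positivity)]
  have h1 := Real.add_one_le_exp (1 / 2 * ‖x‖ ^ 2 / 2)
  nlinarith [sq_nonneg (‖x‖ - 1), norm_nonneg x]

lemma norm_tail {θ : ℝ} (hθ : θ < 1) (h0 : 0 < θ) : ∃ C : ℝ, 0 < C ∧ ∀ R : ℝ, 0 ≤ R →
    (stdGaussian E).real {x | R < ‖x‖} ≤ C * Real.exp (-(θ * R ^ 2 / 2)) := by
  set I := ∫ x, Real.exp (θ * ‖x‖ ^ 2 / 2) ∂(stdGaussian E) with hI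
  have hI0 : 0 ≤ I := integral_nonneg fun x => (Real.exp_pos _).le
  refine ⟨I + 1, by linarith, fun R hR => ?_⟩
  have h := mul_meas_ge_le_integral_of_nonneg (μ := stdGaussian E)
    (f := fun x => Real.exp (θ * ‖x‖ ^ 2 / 2))
    (Eventually.of_forall fun x => (Real.exp_pos _).le) (integrable_exp_sq hθ)
    (Real.exp (θ * R ^ 2 / 2))
  have h1 : (stdGaussian E).real {x | R < ‖x‖}
      ≤ (stdGaussian E).real {x | Real.exp (θ * R ^ 2 / 2) ≤ Real.exp (θ * ‖x‖ ^ 2 / 2)} := by
    apply measureReal_mono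
    · intro x hx
      have hx' : R < ‖x‖ := hx
      show Real.exp (θ * R ^ 2 / 2) ≤ Real.exp (θ * ‖x‖ ^ 2 / 2)
      apply Real.exp_le_exp.mpr
      have : R ^ 2 ≤ ‖x‖ ^ 2 := by nlinarith
      nlinarith
    · exact measure_ne_top _ _
  have hexp := Real.exp_pos (θ * R ^ 2 / 2)
  rw [Real.exp_neg, ← div_eq_mul_inv, le_div_iff₀ hexp]
  have h2 : Real.exp (θ * R ^ 2 / 2) * (stdGaussian E).real
      {x | Real.exp (θ * R ^ 2 / 2) ≤ Real.exp (θ * ‖x‖ ^ 2 / 2)} ≤ I := h
  calc (stdGaussian E).real {x | R < ‖x‖} * Real.exp (θ * R ^ 2 / 2)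
      ≤ (stdGaussian E).real {x | Real.exp (θ * R ^ 2 / 2) ≤ Real.exp (θ * ‖x‖ ^ 2 / 2)}
          * Real.exp (θ * R ^ 2 / 2) := mul_le_mul_of_nonneg_right h1 hexp.le
    _ ≤ I := by rw [mul_comm]; exact h2
    _ ≤ I + 1 := by linarith

lemma exp_compare {C θ κ : ℝ} (hC : 0 < C) (hκ : 0 < κ) (hκ1 : κ < 1) (hθ : (1 - κ) ^ 2 < θ) :
    ∀ᶠ R : ℝ in atTop, C * Real.exp (-(θ * R ^ 2 / 2)) ≤ phi ((1 - κ) * R + 1) := by
  set c := (Real.sqrt (2 * Real.pi))⁻¹ with hc
  have hc0 : 0 < c := by positivity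
  obtain ⟨K, hK⟩ : ∃ K : ℝ, C / c ≤ Real.exp K := by
    refine ⟨Real.log (C / c), ?_⟩
    rw [Real.exp_log (by positivity)]
  set δ := θ - (1 - κ) ^ 2 with hδ
  have hδ0 : 0 < δ := by linarith
  have e1 : Tendsto (fun R : ℝ => δ * R) atTop atTop := tendsto_id.const_mul_atTop hδ0
  filter_upwards [e1.eventually_ge_atTop (3 + 2 * |K|), eventually_ge_atTop 1] with R hR hR1
  rw [phi_eq, ← hc]
  have h1 : C ≤ c * Real.exp K := by
    rw [div_le_iff₀ hc0] at hK; linarith
  calc C * Real.exp (-(θ * R ^ 2 / 2)) ≤ c * Real.exp K * Real.exp (-(θ * R ^ 2 / 2)) :=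
        mul_le_mul_of_nonneg_right h1 (Real.exp_pos _).le
    _ = c * Real.exp (K - θ * R ^ 2 / 2) := by
        rw [mul_assoc, ← Real.exp_add]; congr 2
    _ ≤ c * Real.exp (-(((1 - κ) * R + 1) ^ 2) / 2) := by
        apply mul_le_mul_of_nonneg_left _ hc0.le
        apply Real.exp_le_exp.mpr
        have h2 : (3 + 2 * |K|) * R ≤ δ * R * R := mul_le_mul_of_nonneg_right hR (by linarith)
        have h3 : K ≤ |K| := le_abs_self K
        have h4 : |K| ≤ |K| * R := by nlinarith [abs_nonneg K]
        have h5 : (1 - κ) * R ≤ R := by nlinarith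
        have h6 : ((1 - κ) * R + 1) ^ 2 = (1 - κ) ^ 2 * R ^ 2 + 2 * ((1 - κ) * R) + 1 := by ring
        have h7 : θ * R ^ 2 = δ * R * R + (1 - κ) ^ 2 * R ^ 2 := by rw [hδ]; ring
        rw [h6]
        have : 2 * K + 2 * ((1 - κ) * R) + 1 ≤ δ * R * R := by
          calc 2 * K + 2 * ((1 - κ) * R) + 1 ≤ 2 * (|K| * R) + 2 * R + R := by linarith
            _ = (3 + 2 * |K|) * R := by ring
            _ ≤ _ := h2
        linarith

lemma ball_lemma {κ : ℝ} (hκ : 0 < κ) (hκ1 : κ < 1) :
    ∀ᶠ R : ℝ in atTop, Phi ((1 - κ) * R)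
      ≤ Phi R * (stdGaussian E).real (Metric.closedBall (0:E) R) := by
  set θ := ((1 - κ) ^ 2 + 1) / 2 with hθ
  have hk2 : (1 - κ) ^ 2 < 1 := by nlinarith
  have hθ1 : θ < 1 := by linarith
  have hθ0 : 0 < θ := by have := sq_nonneg (1 - κ); linarith
  have hθ2 : (1 - κ) ^ 2 < θ := by linarith
  obtain ⟨C, hC, hC2⟩ := norm_tail (E := E) hθ1 hθ0
  filter_upwards [exp_compare (C := 1 + C) (by linarith) hκ hκ1 hθ2, eventually_ge_atTop 1]
    with R hR hR1
  have h1 := hC2 R (by linarith)
  have h2 : Phi (-R) ≤ Real.exp (-(θ * R ^ 2 / 2)) := by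
    refine (Phi_neg_le hR1).trans ?_
    rw [phi_eq]
    have h3 : (Real.sqrt (2 * Real.pi))⁻¹ ≤ 1 := by
      apply inv_le_one_of_one_le₀
      rw [Real.one_le_sqrt]
      nlinarith [Real.pi_gt_three]
    calc (Real.sqrt (2 * Real.pi))⁻¹ * Real.exp (-(R ^ 2) / 2)
        ≤ 1 * Real.exp (-(R ^ 2) / 2) := mul_le_mul_of_nonneg_right h3 (Real.exp_pos _).le
      _ ≤ Real.exp (-(θ * R ^ 2 / 2)) := by
        rw [one_mul]
        apply Real.exp_le_exp.mpr
        nlinarith [sq_nonneg R]
  have h3 : phi ((1 - κ) * R + 1) ≤ Phi (-((1 - κ) * R)) :=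
    Phi_neg_ge (mul_nonneg (by linarith) (by linarith))
  rw [Phi_neg] at h3
  have h4 : (stdGaussian E).real (Metric.closedBall (0:E) R)
      = 1 - (stdGaussian E).real {x : E | R < ‖x‖} := by
    have h5 : {x : E | R < ‖x‖} = (Metric.closedBall (0:E) R)ᶜ := by
      ext x; simp
    rw [h5, probReal_compl_eq_one_sub Metric.isClosed_closedBall.measurableSet]
    ring
  rw [h4]
  rw [Phi_neg] at h2
  have hx0 : 0 ≤ (stdGaussian E).real {x : E | R < ‖x‖} := measureReal_nonneg
  have hR1' := Phi_le_one R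
  nlinarith

/-! ### The inequality -/

section

variable {h D : E → ℝ} {B L : ℝ}

private noncomputable def q (ε : ℝ) (z : E) : ℝ := (1 + ε * ‖z‖) / (1 - ε ^ 2)

private lemma q_bound {ε : ℝ} (h0 : 0 ≤ ε) (h1 : ε ≤ 1 / 2) (z : E) :
    0 ≤ q ε z ∧ q ε z ≤ 2 * (1 + ‖z‖) := by
  have h2 : 3 / 4 ≤ 1 - ε ^ 2 := by nlinarith
  have h3 := norm_nonneg z
  unfold q
  constructor
  · positivity
  · rw [div_le_iff₀ (by linarith)]
    nlinarith [mul_nonneg h0 h3]

private noncomputable def mm (h D : E → ℝ) (L ε : ℝ) (z : E) : ℝ :=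
  h z + ε * (D z * q ε z) + ε ^ 2 * (L * q ε z ^ 2)

private noncomputable def FF (h D : E → ℝ) (L ε : ℝ) (z : E) : ℝ :=
  D z * q ε z + ε * (L * q ε z ^ 2) + Ip (mm h D L ε z)

private lemma measurable_q (ε : ℝ) : Measurable (q (E := E) ε) := by
  unfold q; fun_prop

private lemma measurable_mm (hh : Measurable h) (hD : Measurable D) (L ε : ℝ) :
    Measurable (mm h D L ε) := by
  unfold mm
  exact (hh.add ((hD.mul (measurable_q ε)).const_mul ε)).add
    ((((measurable_q ε).pow_const 2).const_mul L).const_mul (ε ^ 2))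

private lemma measurable_FF (hh : Measurable h) (hD : Measurable D) (L ε : ℝ) :
    Measurable (FF h D L ε) := by
  unfold FF
  exact ((hD.mul (measurable_q ε)).add
    ((((measurable_q ε).pow_const 2).const_mul L).const_mul ε)).add
    (measurable_Ip.comp (measurable_mm hh hD L ε))

private lemma FF_tendsto (hh : UI h) (hDm : Measurable D) (hD0 : ∀ x, 0 ≤ D x)
    (hDB : ∀ x, D x ≤ B) (hL : 0 ≤ L) :
    Tendsto (fun ε => ∫ z, FF h D L ε z ∂(stdGaussian E)) (𝓝[>] 0)
      (𝓝 (∫ z, D z + Ip (h z) ∂(stdGaussian E))) := by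
  have hB : 0 ≤ B := (hD0 0).trans (hDB 0)
  apply tendsto_integral_filter_of_dominated_convergence
    (fun z => (2 * B + 4 * L) * (1 + ‖z‖) ^ 2 + 1)
  · exact Eventually.of_forall fun ε => (measurable_FF hh.meas hDm L ε).aestronglyMeasurable
  · filter_upwards [Ioo_mem_nhdsGT (show (0:ℝ) < 1 / 2 by norm_num)] with ε hε
    refine Eventually.of_forall fun z => ?_
    obtain ⟨h1, h2⟩ := q_bound (E := E) hε.1.le hε.2.le z
    have h3 := norm_nonneg z
    have h4 := hD0 z
    have h5 := hDB z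
    have hI := Ip_nonneg (mm h D L ε z)
    have hI1 := Ip_le_one (mm h D L ε z)
    have h6 : 0 ≤ FF h D L ε z := by
      unfold FF
      have : 0 ≤ ε := hε.1.le
      positivity
    rw [Real.norm_eq_abs, abs_of_nonneg h6]
    unfold FF
    have h7 : D z * q ε z ≤ 2 * B * (1 + ‖z‖) ^ 2 := by
      calc D z * q ε z ≤ B * (2 * (1 + ‖z‖)) := mul_le_mul h5 h2 h1 hB
        _ = 2 * B * (1 + ‖z‖) := by ring
        _ ≤ 2 * B * (1 + ‖z‖) ^ 2 := by
          apply mul_le_mul_of_nonneg_left _ (by linarith)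
          nlinarith
    have h8 : q ε z ^ 2 ≤ 4 * (1 + ‖z‖) ^ 2 := by nlinarith
    have h9 : ε * (L * q ε z ^ 2) ≤ 4 * L * (1 + ‖z‖) ^ 2 := by
      calc ε * (L * q ε z ^ 2) ≤ 1 * (L * q ε z ^ 2) :=
            mul_le_mul_of_nonneg_right (by linarith [hε.2]) (by positivity)
        _ ≤ 1 * (L * (4 * (1 + ‖z‖) ^ 2)) := by
            rw [one_mul, one_mul]; exact mul_le_mul_of_nonneg_left h8 hL
        _ = _ := by ring
    linarith
  · exact ((integrable_one_add_sq (E := E)).const_mul _).add (integrable_const _)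
  · refine Eventually.of_forall fun z => ?_
    have hq : ContinuousAt (fun ε : ℝ => q ε z) 0 := by
      unfold q
      apply ContinuousAt.div (by fun_prop) (by fun_prop)
      norm_num
    have hm : ContinuousAt (fun ε : ℝ => mm h D L ε z) 0 := by
      unfold mm
      fun_prop
    have hF : ContinuousAt (fun ε : ℝ => FF h D L ε z) 0 := by
      unfold FF
      apply ContinuousAt.add (by fun_prop)
      exact ContinuousAt.comp (f := fun ε : ℝ => mm h D L ε z) (g := Ip)
        continuous_Ip.continuousAt hm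
    have e : FF h D L 0 z = D z + Ip (h z) := by
      simp [FF, mm, q]
    have := hF.tendsto
    rw [e] at this
    exact this.mono_left nhdsWithin_le_nhds

/-- **Functional isoperimetric inequality** on Gauss space. -/
theorem iso (hh : UI h) (hDm : Measurable D) (hD0 : ∀ x, 0 ≤ D x) (hDB : ∀ x, D x ≤ B)
    (hL : 0 ≤ L) (hT : ∀ x z, h (x + z) ≤ h x + D x * ‖z‖ + L * ‖z‖ ^ 2) :
    Ip (∫ x, h x ∂(stdGaussian E))
      ≤ ∫ x, Ip (h x) ∂(stdGaussian E) + ∫ x, D x ∂(stdGaussian E) := by
  have hDi : Integrable D (stdGaussian E) :=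
    Integrable.of_bound hDm.aestronglyMeasurable B (Eventually.of_forall fun x => by
      rw [Real.norm_eq_abs, abs_of_nonneg (hD0 x)]; exact hDB x)
  have hIi : Integrable (fun x => Ip (h x)) (stdGaussian E) :=
    Integrable.of_bound (measurable_Ip.comp hh.meas).aestronglyMeasurable 1
      (Eventually.of_forall fun x => by
        rw [Real.norm_eq_abs, abs_of_nonneg (Ip_nonneg _)]; exact Ip_le_one _)
  have hB : 0 ≤ B := (hD0 0).trans (hDB 0)
  by_cases hp : 0 < ∫ x, h x ∂(stdGaussian E) ∧ ∫ x, h x ∂(stdGaussian E) < 1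
  swap
  · rw [Ip, if_neg hp]
    exact add_nonneg (integral_nonneg fun x => Ip_nonneg _) (integral_nonneg hD0)
  obtain ⟨s, hs⟩ := exists_Phi_eq hp.1 hp.2
  rw [← hs, Ip_Phi]
  have hmain : ∀ κ : ℝ, 0 < κ → κ < 1 →
      (1 - κ) * phi s ≤ ∫ x, D x + Ip (h x) ∂(stdGaussian E) := by
    intro κ hκ hκ1
    have hb : ∀ᶠ ε : ℝ in 𝓝[>] 0, Phi ((1 - κ) * ε⁻¹)
      ≤ Phi ε⁻¹ * (stdGaussian E).real (Metric.closedBall (0:E) ε⁻¹) :=
      tendsto_inv_nhdsGT_zero.eventually (ball_lemma (E := E) hκ hκ1)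
    have hkey : ∀ᶠ ε : ℝ in 𝓝[>] 0,
        ε⁻¹ * (Phi ((1 - ε ^ 2) * s + (1 - κ) * ε) - Phi s)
          ≤ ∫ z, FF h D L ε z ∂(stdGaussian E) + 7 * ε := by
      filter_upwards [hb, Ioo_mem_nhdsGT (show (0:ℝ) < 1 / 2 by norm_num)] with ε hε1 hε
      have hε0 : 0 < ε := hε.1
      have ha : 0 < 1 - ε ^ 2 := by nlinarith [hε.2]
      have hmm := measurable_mm hh.meas hDm L ε
      set H : E → ℝ := fun z => min 1 (mm h D L ε z + ε * Ip (mm h D L ε z) + 7 * ε ^ 2) with hH
      set g : E → ℝ := (Metric.closedBall (0:E) ε⁻¹).indicator (fun _ => Phi ε⁻¹) with hg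
      have hgm : UI g := ⟨measurable_const.indicator Metric.isClosed_closedBall.measurableSet,
        fun x => indicator_nonneg (fun _ _ => Phi_nonneg _) x,
        fun x => indicator_apply_le' (fun _ => Phi_le_one _) (fun _ => zero_le_one)⟩
      have hm0 : ∀ z, 0 ≤ mm h D L ε z := by
        intro z
        have := hh.nonneg z
        have := hD0 z
        have := (q_bound (E := E) hε.1.le hε.2.le z).1
        unfold mm; positivity
      have hHm : UI H := by
        refine ⟨?_, fun x => ?_, fun x => min_le_left _ _⟩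
        · exact measurable_const.min
            ((hmm.add ((measurable_Ip.comp hmm).const_mul ε)).add measurable_const)
        · apply le_min zero_le_one
          have := hm0 x
          have := Ip_nonneg (mm h D L ε x)
          positivity
      have h1 := Ehr.stdGaussian E (1 - ε ^ 2) (ε ^ 2) ha (by positivity) (by ring) h g H
        hh hgm hHm ?_ s ((1 - κ) * ε⁻¹) (by rw [hs]) ?_
      · have h2 : (1 - ε ^ 2) * s + ε ^ 2 * ((1 - κ) * ε⁻¹)
            = (1 - ε ^ 2) * s + (1 - κ) * ε := by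
          field_simp
        rw [h2] at h1
        have hFFi : Integrable (FF h D L ε) (stdGaussian E) := by
          refine Integrable.mono' (g := fun z => (2 * B + 4 * L) * (1 + ‖z‖) ^ 2 + 1)
            (((integrable_one_add_sq (E := E)).const_mul _).add (integrable_const _))
            (measurable_FF hh.meas hDm L ε).aestronglyMeasurable (Eventually.of_forall fun z => ?_)
          obtain ⟨h1, h2⟩ := q_bound (E := E) hε.1.le hε.2.le z
          have h3 := norm_nonneg z
          have h4 := hD0 z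
          have h5 := hDB z
          have hI := Ip_nonneg (mm h D L ε z)
          have hI1 := Ip_le_one (mm h D L ε z)
          have h6 : 0 ≤ FF h D L ε z := by
            unfold FF
            positivity
          rw [Real.norm_eq_abs, abs_of_nonneg h6]
          unfold FF
          have h7 : D z * q ε z ≤ 2 * B * (1 + ‖z‖) ^ 2 := by
            calc D z * q ε z ≤ B * (2 * (1 + ‖z‖)) := mul_le_mul h5 h2 h1 hB
              _ = 2 * B * (1 + ‖z‖) := by ring
              _ ≤ 2 * B * (1 + ‖z‖) ^ 2 := by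
                apply mul_le_mul_of_nonneg_left _ (by linarith)
                nlinarith
          have h8 : q ε z ^ 2 ≤ 4 * (1 + ‖z‖) ^ 2 := by nlinarith
          have h9 : ε * (L * q ε z ^ 2) ≤ 4 * L * (1 + ‖z‖) ^ 2 := by
            calc ε * (L * q ε z ^ 2) ≤ 1 * (L * q ε z ^ 2) :=
                  mul_le_mul_of_nonneg_right (by linarith [hε.2]) (by positivity)
              _ ≤ 1 * (L * (4 * (1 + ‖z‖) ^ 2)) := by
                  rw [one_mul, one_mul]; exact mul_le_mul_of_nonneg_left h8 hL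
              _ = _ := by ring
          linarith
        have h3 : ∫ z, H z ∂(stdGaussian E)
            ≤ ∫ z, (h z + (ε * FF h D L ε z + 7 * ε ^ 2)) ∂(stdGaussian E) := by
          refine integral_mono (hHm.integrable _) ((hh.integrable _).add
            ((hFFi.const_mul ε).add (integrable_const _))) (fun z => ?_)
          refine (min_le_right _ _).trans (le_of_eq ?_)
          simp only [FF, mm]
          ring
        have hi1 : Integrable (fun z => ε * FF h D L ε z + 7 * ε ^ 2) (stdGaussian E) :=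
          (hFFi.const_mul ε).add (integrable_const _)
        rw [integral_add (hh.integrable _) hi1,
          integral_add (hFFi.const_mul ε) (integrable_const _), integral_const_mul, ← hs] at h3
        simp only [integral_const, probReal_univ, smul_eq_mul, one_mul] at h3
        rw [inv_mul_le_iff₀ hε0]
        linarith
      · -- the pointwise condition
        intro x y s' t hs' ht
        have hy : y ∈ Metric.closedBall (0:E) ε⁻¹ := by
          by_contra hy
          rw [hg, indicator_of_notMem hy] at ht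
          exact absurd ht (not_le.mpr (Phi_pos t))
        rw [hg, indicator_of_mem hy, strictMono_Phi.le_iff_le] at ht
        rw [mem_closedBall_zero_iff] at hy
        set z := (1 - ε ^ 2) • x + ε ^ 2 • y with hz
        have hxz : ‖x - z‖ ≤ ε * q ε z := by
          have e1 : (1 - ε ^ 2) • (x - z) = ε ^ 2 • (z - y) := by
            rw [hz]; module
          have e2 : (1 - ε ^ 2) * ‖x - z‖ = ε ^ 2 * ‖z - y‖ := by
            rw [← abs_of_pos ha, ← Real.norm_eq_abs, ← norm_smul, e1, norm_smul,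
              Real.norm_eq_abs, abs_of_nonneg (sq_nonneg ε)]
          have e3 : ‖z - y‖ ≤ ‖z‖ + ε⁻¹ := (norm_sub_le _ _).trans (by linarith)
          have e4 : ε * q ε z = ε ^ 2 * (‖z‖ + ε⁻¹) / (1 - ε ^ 2) := by
            unfold q; field_simp
            ring
          rw [e4, le_div_iff₀ ha, mul_comm]
          rw [e2]
          exact mul_le_mul_of_nonneg_left e3 (sq_nonneg ε)
        have hx : h x ≤ mm h D L ε z := by
          have e1 := hT z (x - z)
          rw [add_sub_cancel] at e1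
          refine e1.trans ?_
          unfold mm
          have e2 : D z * ‖x - z‖ ≤ ε * (D z * q ε z) := by
            rw [mul_left_comm]; exact mul_le_mul_of_nonneg_left hxz (hD0 z)
          have e3 : L * ‖x - z‖ ^ 2 ≤ ε ^ 2 * (L * q ε z ^ 2) := by
            rw [mul_left_comm, ← mul_pow]
            exact mul_le_mul_of_nonneg_left
              (pow_le_pow_left₀ (norm_nonneg _) hxz 2) hL
          linarith
        have hsm := hs'.trans hx
        have e5 : ε ^ 2 * t ≤ ε := by
          calc ε ^ 2 * t ≤ ε ^ 2 * ε⁻¹ := mul_le_mul_of_nonneg_left ht (sq_nonneg ε)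
            _ = ε := by field_simp
        show Phi ((1 - ε ^ 2) * s' + ε ^ 2 * t)
          ≤ min 1 (mm h D L ε z + ε * Ip (mm h D L ε z) + 7 * ε ^ 2)
        apply le_min (Phi_le_one _)
        rcases le_or_gt 1 (mm h D L ε z) with hm | hm
        · have := Phi_le_one ((1 - ε ^ 2) * s' + ε ^ 2 * t)
          have h8 := Ip_nonneg (mm h D L ε z)
          have : 0 ≤ ε * Ip (mm h D L ε z) := by positivity
          have : 0 ≤ 7 * ε ^ 2 := by positivity
          linarith
        · have hm0' : 0 < mm h D L ε z := lt_of_lt_of_le (Phi_pos _) hsm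
          obtain ⟨σ, hσ⟩ := exists_Phi_eq hm0' hm
          rw [← hσ, Ip_Phi]
          rw [← hσ, strictMono_Phi.le_iff_le] at hsm
          refine le_trans (strictMono_Phi.monotone ?_) (Phi_up σ ε hε0.le hε.2.le)
          nlinarith
      · have e : ∫ x, g x ∂(stdGaussian E)
            = Phi ε⁻¹ * (stdGaussian E).real (Metric.closedBall (0:E) ε⁻¹) := by
          rw [hg, integral_indicator Metric.isClosed_closedBall.measurableSet]
          simp [mul_comm]
        rw [e]; exact hε1
    -- the limit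
    have hlim1 : Tendsto (fun ε : ℝ => ε⁻¹ * (Phi ((1 - ε ^ 2) * s + (1 - κ) * ε) - Phi s))
        (𝓝[>] 0) (𝓝 ((1 - κ) * phi s)) := by
      have hd : HasDerivAt (fun ε : ℝ => Phi ((1 - ε ^ 2) * s + (1 - κ) * ε))
          ((1 - κ) * phi s) 0 := by
        have h1 : HasDerivAt (fun ε : ℝ => (1 - ε ^ 2) * s + (1 - κ) * ε) (1 - κ) 0 := by
          have h2 := (((hasDerivAt_pow 2 (0:ℝ)).const_sub 1).mul_const s).add
            ((hasDerivAt_id (0:ℝ)).const_mul (1 - κ))
          exact h2.congr_deriv (by simp)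
        have h3 := (hasDerivAt_Phi ((1 - (0:ℝ) ^ 2) * s + (1 - κ) * 0)).comp (0:ℝ) h1
        refine h3.congr_deriv ?_
        simp [mul_comm]
      have h4 := hd.tendsto_slope_zero_right
      refine h4.congr (fun ε => ?_)
      simp
    have hlim2 : Tendsto (fun ε : ℝ => ∫ z, FF h D L ε z ∂(stdGaussian E) + 7 * ε)
        (𝓝[>] 0) (𝓝 (∫ z, D z + Ip (h z) ∂(stdGaussian E))) := by
      have h5 := FF_tendsto hh hDm hD0 hDB hL
      have h6 : Tendsto (fun ε : ℝ => 7 * ε) (𝓝[>] 0) (𝓝 0) := by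
        have : ContinuousAt (fun ε : ℝ => 7 * ε) 0 := by fun_prop
        have h7 := this.tendsto
        simp only [mul_zero] at h7
        exact h7.mono_left nhdsWithin_le_nhds
      simpa using h5.add h6
    exact le_of_tendsto_of_tendsto hlim1 hlim2 hkey
  rw [← integral_add hIi hDi]
  have e : ∫ x, Ip (h x) + D x ∂(stdGaussian E) = ∫ x, D x + Ip (h x) ∂(stdGaussian E) := by
    congr 1; funext x; ring
  rw [e]
  apply le_of_forall_pos_le_add
  intro κ hκ
  rcases lt_or_ge κ 1 with h1 | h1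
  · have h2 := hmain κ hκ h1
    have := phi_le_one s
    have := phi_pos s
    nlinarith
  · have h2 := phi_le_one s
    have h3 : 0 ≤ ∫ x, D x + Ip (h x) ∂(stdGaussian E) :=
      integral_nonneg fun x => add_nonneg (hD0 x) (Ip_nonneg _)
    linarith

end

end Vale.Agent.P262.H941
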