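import Vale.Agent.P262.H941.Vis3

/-!
# The function `LL x = x √(1 - log x)` and its comparison with the isoperimetric profile
-/

set_option linter.unusedSectionVars false

namespace Vale.Agent.P262.H941

open MeasureTheory ProbabilityTheory Set Filter Topology
open Vale.Agent.P262.H847 Vale.Agent.P262.H912

/-- `LL x = x √(log (e / x))` -/
noncomputable def LL (x : ℝ) : ℝ := x * Real.sqrt (1 - Real.log x)

lemma LL_zero : LL 0 = 0 := by simp [LL]

lemma LL_one : LL 1 = 1 := by simp [LL]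

lemma one_le_ell {x : ℝ} (h0 : 0 < x) (h1 : x ≤ 1) : 1 ≤ 1 - Real.log x := by
  have := Real.log_nonpos h0.le h1
  linarith

lemma one_le_sqrt_ell {x : ℝ} (h0 : 0 < x) (h1 : x ≤ 1) : 1 ≤ Real.sqrt (1 - Real.log x) := by
  rw [Real.one_le_sqrt]; exact one_le_ell h0 h1

lemma LL_nonneg {x : ℝ} (h0 : 0 ≤ x) : 0 ≤ LL x := mul_nonneg h0 (Real.sqrt_nonneg _)

lemma LL_pos {x : ℝ} (h0 : 0 < x) (h1 : x ≤ 1) : 0 < LL x := by
  have := one_le_sqrt_ell h0 h1
  unfold LL; positivity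

lemma le_LL {x : ℝ} (h0 : 0 ≤ x) (h1 : x ≤ 1) : x ≤ LL x := by
  rcases h0.eq_or_lt with h | h
  · rw [← h, LL_zero]
  · have := one_le_sqrt_ell h h1
    unfold LL; nlinarith

/-- submultiplicativity -/
lemma LL_mul_le {θ x : ℝ} (hθ : 0 < θ) (hθ1 : θ ≤ 1) (h0 : 0 < x) (h1 : x ≤ 1) :
    LL (θ * x) ≤ LL θ * LL x := by
  unfold LL
  have h2 : Real.sqrt (1 - Real.log (θ * x)) ≤ Real.sqrt (1 - Real.log θ) * Real.sqrt (1 - Real.log x) := by
    rw [← Real.sqrt_mul (by linarith [one_le_ell hθ hθ1])]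
    apply Real.sqrt_le_sqrt
    rw [Real.log_mul hθ.ne' h0.ne']
    have a1 := Real.log_nonpos hθ.le hθ1
    have a2 := Real.log_nonpos h0.le h1
    nlinarith [mul_nonneg_of_nonpos_of_nonpos a1 a2]
  calc θ * x * Real.sqrt (1 - Real.log (θ * x))
      ≤ θ * x * (Real.sqrt (1 - Real.log θ) * Real.sqrt (1 - Real.log x)) :=
        mul_le_mul_of_nonneg_left h2 (by positivity)
    _ = _ := by ring

lemma LL_le_sqrt {θ : ℝ} (hθ : 0 < θ) : LL θ ≤ Real.sqrt θ := by
  unfold LL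
  have h2 : 1 - Real.log θ ≤ 1 / θ := by
    have := Real.add_one_le_exp (-Real.log θ)
    rw [Real.exp_neg, Real.exp_log hθ] at this
    rw [one_div]; linarith
  have h3 : Real.sqrt (1 - Real.log θ) ≤ 1 / Real.sqrt θ := by
    rw [← Real.sqrt_one, ← Real.sqrt_div (by norm_num), Real.sqrt_one]
    exact Real.sqrt_le_sqrt h2
  have h4 : 0 < Real.sqrt θ := Real.sqrt_pos.mpr hθ
  calc θ * Real.sqrt (1 - Real.log θ) ≤ θ * (1 / Real.sqrt θ) :=
        mul_le_mul_of_nonneg_left h3 hθ.le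
    _ = Real.sqrt θ := by
        rw [mul_one_div, div_eq_iff h4.ne', Real.mul_self_sqrt hθ.le]

lemma mul_LL_le {θ x : ℝ} (hθ : 0 < θ) (hθ1 : θ ≤ 1) (h0 : 0 < x) (h1 : x ≤ 1) :
    θ * LL x ≤ LL (θ * x) := by
  unfold LL
  rw [← mul_assoc]
  apply mul_le_mul_of_nonneg_left _ (by positivity)
  apply Real.sqrt_le_sqrt
  rw [Real.log_mul hθ.ne' h0.ne']
  have a1 := Real.log_nonpos hθ.le hθ1
  linarith

/-- monotonicity -/
lemma LL_mono {x y : ℝ} (h0 : 0 ≤ x) (hxy : x ≤ y) (h1 : y ≤ 1) : LL x ≤ LL y := by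
  rcases h0.eq_or_lt with h | h
  · rw [← h, LL_zero]; exact LL_nonneg (h ▸ hxy)
  have hy : 0 < y := h.trans_le hxy
  -- square both sides
  have hx1 := hxy.trans h1
  unfold LL
  have e1 : x * Real.sqrt (1 - Real.log x) = Real.sqrt (x ^ 2 * (1 - Real.log x)) := by
    rw [Real.sqrt_mul (by positivity), Real.sqrt_sq h.le]
  have e2 : y * Real.sqrt (1 - Real.log y) = Real.sqrt (y ^ 2 * (1 - Real.log y)) := by
    rw [Real.sqrt_mul (by positivity), Real.sqrt_sq hy.le]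
  rw [e1, e2]
  apply Real.sqrt_le_sqrt
  -- `log (y / x) ≤ y / x - 1`
  have h2 : Real.log y - Real.log x ≤ y / x - 1 := by
    rw [← Real.log_div hy.ne' h.ne']
    exact Real.log_le_sub_one_of_pos (by positivity)
  have h3 := one_le_ell hy h1
  have h4 : x ^ 2 * (Real.log y - Real.log x) ≤ x * y - x ^ 2 := by
    calc x ^ 2 * (Real.log y - Real.log x) ≤ x ^ 2 * (y / x - 1) :=
          mul_le_mul_of_nonneg_left h2 (by positivity)
      _ = x * y - x ^ 2 := by field_simp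
  have h5 : x * y ≤ y ^ 2 := by nlinarith
  nlinarith [mul_le_mul_of_nonneg_left h3 (by nlinarith : (0:ℝ) ≤ y ^ 2 - x ^ 2)]

lemma LL_le_one {x : ℝ} (h0 : 0 ≤ x) (h1 : x ≤ 1) : LL x ≤ 1 := by
  rw [← LL_one]; exact LL_mono h0 h1 le_rfl

lemma LL_le_two {x y : ℝ} (h0 : 0 < x) (h1 : x ≤ 1) (hy0 : 0 < y) (hy1 : y ≤ 1)
    (hxy : x ≤ 2 * y) : LL x ≤ 2 * LL y := by
  rcases le_total x y with h | h
  · have := LL_mono h0.le h hy1
    have := LL_nonneg hy0.le
    linarith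
  · unfold LL
    have h2 : Real.sqrt (1 - Real.log x) ≤ Real.sqrt (1 - Real.log y) := by
      apply Real.sqrt_le_sqrt
      have := Real.log_le_log hy0 h
      linarith
    calc x * Real.sqrt (1 - Real.log x) ≤ (2 * y) * Real.sqrt (1 - Real.log y) :=
          mul_le_mul hxy h2 (Real.sqrt_nonneg _) (by linarith)
      _ = _ := by ring

/-- upper bound of the profile -/
lemma Ip_le_LL {x : ℝ} (h0 : 0 ≤ x) (h1 : x ≤ 1) : Ip x ≤ 2 * LL x := by
  rcases h0.eq_or_lt with h | h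
  · rw [← h, LL_zero, Ip_of_nonpos le_rfl]; norm_num
  refine (Ip_le_log h h1).trans ?_
  have h2 := one_le_sqrt_ell h h1
  have h3 : Real.sqrt (2 * Real.log (1 / x)) ≤ 3 / 2 * Real.sqrt (1 - Real.log x) := by
    have e1 : (3 / 2 : ℝ) * Real.sqrt (1 - Real.log x) = Real.sqrt ((3 / 2) ^ 2 * (1 - Real.log x)) := by
      rw [Real.sqrt_mul (by positivity), Real.sqrt_sq (by norm_num)]
    rw [e1]
    apply Real.sqrt_le_sqrt
    rw [one_div, Real.log_inv]
    have := Real.log_nonpos h.le h1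
    nlinarith
  unfold LL
  nlinarith

lemma Ip_le_LL' {x y : ℝ} (h0 : 0 ≤ x) (hxy : x ≤ y) (h1 : y ≤ 1) : Ip x ≤ 2 * LL y :=
  (Ip_le_LL h0 (hxy.trans h1)).trans (by linarith [LL_mono h0 hxy h1])

/-- `phi 1 ≥ 1/5` -/
lemma phi_one_ge : (1 / 5 : ℝ) ≤ phi 1 := by
  rw [phi_eq]
  have h1 : (2 / 5 : ℝ) - 1 / 400 ≤ (Real.sqrt (2 * Real.pi))⁻¹ := by
    rw [← inv_inv (2 / 5 - 1 / 400 : ℝ)]
    apply inv_anti₀ (by positivity)
    rw [Real.sqrt_le_left (by norm_num)]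
    nlinarith [Real.pi_lt_d2]
  have h2 : (3 / 5 : ℝ) ≤ Real.exp (-(1:ℝ) ^ 2 / 2) := by
    have h3 : Real.exp (-(1:ℝ) ^ 2 / 2) = (Real.exp (1 / 2))⁻¹ := by
      rw [← Real.exp_neg]; norm_num
    rw [h3, ← inv_inv (3 / 5 : ℝ)]
    apply inv_anti₀ (Real.exp_pos _)
    have h4 : Real.exp (1 / 2) = Real.sqrt (Real.exp 1) := by
      rw [Real.sqrt_eq_rpow, ← Real.exp_mul]; norm_num
    rw [h4, Real.sqrt_le_left (by norm_num)]
    have := Real.exp_one_lt_d9
    norm_num at this ⊢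
    linarith
  nlinarith

/-- lower bound of the profile on the interval from 0 to 1/2 -/
lemma LL_le_Ip_half {t : ℝ} (h0 : 0 < t) (h1 : t ≤ 1 / 2) : LL t ≤ 6 * Ip t := by
  obtain ⟨z, hz⟩ := exists_Phi_eq h0 (by linarith : t < 1)
  have hz0 : z ≤ 0 := by
    have : Phi z ≤ Phi 0 := by rw [hz, Phi_zero]; exact h1
    exact strictMono_Phi.le_iff_le.mp this
  obtain ⟨x, rfl⟩ : ∃ x, z = -x := ⟨-z, by ring⟩
  have hx : 0 ≤ x := by linarith
  rw [← hz, Ip_Phi, phi_neg]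
  have hPpos : 0 < Phi (-x) := by rw [hz]; exact h0
  have h2 := Phi_neg_ge hx
  have h3 : 0 < phi (x + 1) := by rw [phi_eq]; positivity
  have h4 : -((x + 1) ^ 2 / 2) - 1 ≤ Real.log (Phi (-x)) := by
    refine le_trans ?_ (Real.log_le_log h3 h2)
    rw [phi_eq, Real.log_mul (by positivity) (Real.exp_pos _).ne', Real.log_exp, Real.log_inv]
    have h5 : Real.log (Real.sqrt (2 * Real.pi)) ≤ 1 := by
      rw [Real.log_le_iff_le_exp (by positivity), Real.sqrt_le_left (Real.exp_pos _).le]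
      have := Real.exp_one_gt_d9
      nlinarith [Real.pi_lt_d2]
    have e1 : -(x + 1) ^ 2 / 2 = -((x + 1) ^ 2 / 2) := by ring
    rw [e1]; linarith
  have h5 : Real.sqrt (1 - Real.log (Phi (-x))) ≤ x + 2 := by
    rw [Real.sqrt_le_left (by linarith)]
    nlinarith
  have h6 := mills (-x)
  rw [phi_neg] at h6
  have h7 : Phi (-x) ≤ 5 / 2 * phi x := by
    rcases le_total 1 x with h | h
    · have := Phi_neg_le h
      have : 0 ≤ phi x := by rw [phi_eq]; positivity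
      linarith
    · have h8 := phi_one_ge
      have h9 : phi 1 ≤ phi x := phi_anti' (by rw [abs_of_nonneg hx]; simpa using h)
      rw [hz]; linarith
  unfold LL
  calc Phi (-x) * Real.sqrt (1 - Real.log (Phi (-x))) ≤ Phi (-x) * (x + 2) :=
        mul_le_mul_of_nonneg_left h5 hPpos.le
    _ ≤ _ := by nlinarith

/-- lower bound of the profile on the interval from 0 to 7/8 -/
lemma LL_le_Ip {t : ℝ} (h0 : 0 < t) (h1 : t ≤ 7 / 8) : LL t ≤ 48 * Ip t := by
  rcases le_total t (1 / 2) with h | h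
  · have := LL_le_Ip_half h0 h
    have := Ip_nonneg t
    linarith
  · have h2 := LL_le_Ip_half (t := 1 - t) (by linarith) (by linarith)
    rw [Ip_symm] at h2
    have h3 := LL_le_one h0.le (by linarith)
    have h4 := le_LL (x := 1 - t) (by linarith) (by linarith)
    linarith

end Vale.Agent.P262.H941
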