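import Vale.Agent.P262.H941.LL
import Vale.Agent.P262.H941.Scale
import Vale.Agent.P262.H274.D7

/-!
# The level estimates of the gain-cost lemma
-/

set_option linter.unusedSectionVars false

namespace Vale.Agent.P262.H941

open MeasureTheory ProbabilityTheory Set Filter Topology Module
open scoped RealInnerProductSpace
open Vale.Agent.P262.H847 Vale.Agent.P262.H912

variable {E : Type*} [NormedAddCommGroup E] [InnerProductSpace ℝ E] [FiniteDimensional ℝ E]
  [MeasurableSpace E] [BorelSpace E]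

noncomputable section

/-! ### few directions -/

lemma norm_starProjection_le_sum (V : Submodule ℝ E) (x : E) :
    ‖V.starProjection x‖
      ≤ ∑ i, |⟪((stdOrthonormalBasis ℝ V i : V) : E), x⟫| := by
  rw [(stdOrthonormalBasis ℝ V).starProjection_eq_sum_rankOne]
  rw [ContinuousLinearMap.sum_apply]
  refine (norm_sum_le _ _).trans (Finset.sum_le_sum fun i _ => ?_)
  rw [InnerProductSpace.rankOne_apply, norm_smul]
  have h1 : ‖((stdOrthonormalBasis ℝ V i : V) : E)‖ = 1 :=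
    (stdOrthonormalBasis ℝ V).orthonormal.1 i
  rw [h1, mul_one, Real.norm_eq_abs]

/-- the contribution of the exceptional directions -/
theorem lev_few {K : Set E} (hK : Convex ℝ K) (hKm : MeasurableSet K) (V : Submodule ℝ E)
    {s : ℝ} (hs : 0 < s) (hs1 : s ≤ 1) :
    lev (fun p => ‖V.starProjection (mom (Kᶜ.indicator (fun _ => (1:ℝ))) s p)‖) s
      ≤ finrank ℝ V * (2 * s * Ip ((stdGaussian E).real Kᶜ / 2)) := by
  have hU : UI (Kᶜ.indicator (fun _ => (1:ℝ))) := UI.indicator hKm.compl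
  have hm := measurable_mom hU s
  unfold lev
  have hi : ∀ i, Integrable (fun y : E => |⟪((stdOrthonormalBasis ℝ V i : V) : E),
      mom (Kᶜ.indicator (fun _ => (1:ℝ))) s (Real.sqrt (1 - s ^ 2) • y)⟫|) (stdGaussian E) := by
    intro i
    refine Integrable.of_bound ((measurable_const.inner (hm.comp (by fun_prop))).abs).aestronglyMeasurable 1
      (Eventually.of_forall fun y => ?_)
    rw [Real.norm_eq_abs, abs_abs]
    refine (abs_real_inner_le_norm _ _).trans ?_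
    have h1 : ‖((stdOrthonormalBasis ℝ V i : V) : E)‖ = 1 :=
      (stdOrthonormalBasis ℝ V).orthonormal.1 i
    rw [h1, one_mul]
    exact norm_mom_le_one hU s _
  calc ∫ y, ‖V.starProjection (mom (Kᶜ.indicator (fun _ => (1:ℝ))) s
        (Real.sqrt (1 - s ^ 2) • y))‖ ∂(stdGaussian E)
      ≤ ∫ y, ∑ i, |⟪((stdOrthonormalBasis ℝ V i : V) : E),
          mom (Kᶜ.indicator (fun _ => (1:ℝ))) s (Real.sqrt (1 - s ^ 2) • y)⟫|
          ∂(stdGaussian E) := by
        apply integral_mono (integrable_norm_mom hU V.starProjection _ s)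
          (integrable_finsetSum _ fun i _ => hi i)
        intro y
        exact norm_starProjection_le_sum V _
    _ = ∑ i, ∫ y, |⟪((stdOrthonormalBasis ℝ V i : V) : E),
          mom (Kᶜ.indicator (fun _ => (1:ℝ))) s (Real.sqrt (1 - s ^ 2) • y)⟫|
          ∂(stdGaussian E) := integral_finsetSum _ fun i _ => hi i
    _ ≤ ∑ i : Fin (finrank ℝ V), (2 * s * Ip ((stdGaussian E).real Kᶜ / 2)) := by
        apply Finset.sum_le_sum
        intro i _
        exact one_dir hK hKm ((stdOrthonormalBasis ℝ V).orthonormal.1 i) hs hs1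
    _ = _ := by simp

/-! ### many directions -/

lemma exp_half_le : Real.exp (1 / 2) ≤ 33 / 20 := by
  have h4 : Real.exp (1 / 2) = Real.sqrt (Real.exp 1) := by
    rw [Real.sqrt_eq_rpow, ← Real.exp_mul]; norm_num
  rw [h4, Real.sqrt_le_left (by norm_num)]
  have := Real.exp_one_lt_d9
  norm_num at this ⊢
  linarith

/-- numerical part of the flux estimate -/
lemma flux_num {D N c0 G A I : ℝ} {k : ℕ} (hD0 : 0 < D) (hD1 : D ≤ 1) (hN : 0 < N) (hG : 0 ≤ G)
    (hNc : N * Real.sqrt (1 - Real.log D) ≤ c0) (hI0 : 0 ≤ I) (hI : I ≤ 4 * D)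
    {S : ℝ} (hS : S ≤ G * (N * LL D))
    (h : (1 / 9) ^ k * (N / 9 ^ k * A) ≤ Real.exp (1 / 2) * S
      + Real.exp (1 / 2) * (((1 / 9) ^ k) ^ 3 / 6 * (N ^ 3 *
        (8 * (Real.sqrt 2 * Real.sqrt (1 - Real.log D)) ^ 3 * I
          + 96 * Real.exp (-((Real.sqrt 2 * Real.sqrt (1 - Real.log D)) ^ 2 / 2)))))) :
    A ≤ (2 * 81 ^ k * G + 53 * c0 ^ 2 * (1 / 9) ^ k) * LL D := by
  set ℓ := Real.sqrt (1 - Real.log D) with hℓ
  have hℓ1 : 1 ≤ ℓ := one_le_sqrt_ell hD0 hD1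
  have hℓ2 : ℓ ^ 2 = 1 - Real.log D := Real.sq_sqrt (by linarith [one_le_ell hD0 hD1])
  have hLL : LL D = D * ℓ := rfl
  have hLL0 : 0 < LL D := LL_pos hD0 hD1
  have hexp := exp_half_le
  have hexp0 := Real.exp_pos (1 / 2 : ℝ)
  set ε : ℝ := (1 / 9) ^ k with hε
  have hε0 : 0 < ε := by positivity
  have hε9 : ε * 9 ^ k = 1 := by rw [hε, ← mul_pow]; norm_num
  set T := Real.sqrt 2 * ℓ with hT
  have hs2 : Real.sqrt 2 ^ 2 = 2 := Real.sq_sqrt (by norm_num)
  have hs2u : Real.sqrt 2 ≤ 3 / 2 := by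
    rw [Real.sqrt_le_left (by norm_num)]; norm_num
  have hT2 : T ^ 2 / 2 = ℓ ^ 2 := by rw [hT, mul_pow, hs2]; ring
  have hexpT : Real.exp (-(T ^ 2 / 2)) ≤ D := by
    rw [hT2, hℓ2]
    have : Real.exp (-(1 - Real.log D)) ≤ Real.exp (Real.log D) := Real.exp_le_exp.mpr (by linarith)
    rwa [Real.exp_log hD0] at this
  have hT0 : 0 ≤ T := by positivity
  have hT3 : T ^ 3 ≤ 3 * ℓ ^ 3 := by
    have e0 : T ^ 3 = (Real.sqrt 2 ^ 2) * Real.sqrt 2 * ℓ ^ 3 := by rw [hT]; ring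
    rw [e0, hs2]
    have : 0 ≤ ℓ ^ 3 := by positivity
    exact mul_le_mul_of_nonneg_right (by linarith) this
  have hℓ3 : 1 ≤ ℓ ^ 3 := one_le_pow₀ hℓ1
  have h2 : 8 * T ^ 3 * I + 96 * Real.exp (-(T ^ 2 / 2)) ≤ 192 * (ℓ ^ 3 * D) := by
    have a1 : 8 * T ^ 3 * I ≤ 8 * (3 * ℓ ^ 3) * (4 * D) :=
      mul_le_mul (by linarith) hI hI0 (by positivity)
    have a2 : 96 * Real.exp (-(T ^ 2 / 2)) ≤ 96 * (ℓ ^ 3 * D) := by
      have : 1 * D ≤ ℓ ^ 3 * D := mul_le_mul_of_nonneg_right hℓ3 hD0.le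
      linarith
    linarith
  have h3 : N ^ 3 * (192 * (ℓ ^ 3 * D)) ≤ 192 * c0 ^ 2 * (N * LL D) := by
    have a1 : (N * ℓ) ^ 2 ≤ c0 ^ 2 := pow_le_pow_left₀ (by positivity) hNc 2
    have e1 : N ^ 3 * (192 * (ℓ ^ 3 * D)) = 192 * (N * ℓ) ^ 2 * (N * LL D) := by
      rw [hLL]; ring
    rw [e1]
    exact mul_le_mul_of_nonneg_right (by linarith) (by positivity)
  have hNL : 0 < N * LL D := by positivity
  have h4 : ε * (N / 9 ^ k * A) ≤ 2 * G * (N * LL D) + 53 * ε ^ 3 * c0 ^ 2 * (N * LL D) := by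
    refine h.trans ?_
    have b1 : Real.exp (1 / 2) * S ≤ 2 * G * (N * LL D) := by
      have b0 : 0 ≤ G * (N * LL D) := by positivity
      calc _ ≤ Real.exp (1 / 2) * (G * (N * LL D)) := mul_le_mul_of_nonneg_left hS hexp0.le
        _ ≤ 2 * (G * (N * LL D)) := mul_le_mul_of_nonneg_right (by linarith) b0
        _ = _ := by ring
    have b2 : Real.exp (1 / 2) * (ε ^ 3 / 6 * (N ^ 3 * (8 * T ^ 3 * I
            + 96 * Real.exp (-(T ^ 2 / 2))))) ≤ 53 * ε ^ 3 * c0 ^ 2 * (N * LL D) := by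
      have b3 : ε ^ 3 / 6 * (N ^ 3 * (8 * T ^ 3 * I + 96 * Real.exp (-(T ^ 2 / 2))))
          ≤ ε ^ 3 / 6 * (192 * c0 ^ 2 * (N * LL D)) := by
        apply mul_le_mul_of_nonneg_left _ (by positivity)
        exact (mul_le_mul_of_nonneg_left h2 (by positivity)).trans h3
      have b4 : 0 ≤ ε ^ 3 / 6 * (192 * c0 ^ 2 * (N * LL D)) := by positivity
      calc _ ≤ Real.exp (1 / 2) * (ε ^ 3 / 6 * (192 * c0 ^ 2 * (N * LL D))) :=
            mul_le_mul_of_nonneg_left b3 hexp0.le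
        _ ≤ (33 / 20) * (ε ^ 3 / 6 * (192 * c0 ^ 2 * (N * LL D))) :=
            mul_le_mul_of_nonneg_right hexp b4
        _ = (33 / 20 * 192 / 6) * (ε ^ 3 * c0 ^ 2 * (N * LL D)) := by ring
        _ ≤ 53 * (ε ^ 3 * c0 ^ 2 * (N * LL D)) :=
            mul_le_mul_of_nonneg_right (by norm_num) (by positivity)
        _ = _ := by ring
    linarith
  have e1 : ε * (N / 9 ^ k * A) = N * (ε ^ 2 * A) := by
    have : (1:ℝ) / 9 ^ k = ε := by rw [hε, one_div_pow]
    calc ε * (N / 9 ^ k * A) = N * (ε * (1 / 9 ^ k) * A) := by ring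
      _ = _ := by rw [this]; ring
  rw [e1] at h4
  have h6 : ε ^ 2 * A ≤ (2 * G + 53 * ε ^ 3 * c0 ^ 2) * LL D := by
    have : N * (ε ^ 2 * A) ≤ N * ((2 * G + 53 * ε ^ 3 * c0 ^ 2) * LL D) := by
      refine h4.trans (le_of_eq ?_); ring
    exact le_of_mul_le_mul_left this hN
  have h7 : (9 ^ k) ^ 2 * (ε ^ 2 * A) = A := by
    have : (9 ^ k) ^ 2 * (ε ^ 2 * A) = (ε * 9 ^ k) ^ 2 * A := by ring
    rw [this, hε9]; ring
  rw [← h7]
  have h8 := mul_le_mul_of_nonneg_left h6 (by positivity : (0:ℝ) ≤ (9 ^ k) ^ 2)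
  refine h8.trans (le_of_eq ?_)
  have e2 : ((9:ℝ) ^ k) ^ 2 = 81 ^ k := by rw [← pow_mul, mul_comm, pow_mul]; norm_num
  have e3 : (9 ^ k : ℝ) ^ 2 * ((2 * G + 53 * ε ^ 3 * c0 ^ 2) * LL D)
      = (2 * (9 ^ k) ^ 2 * G + 53 * c0 ^ 2 * ε * (ε * 9 ^ k) ^ 2) * LL D := by ring
  rw [e3, hε9, e2]; ring

/-- numerical part of the change of the field -/
lemma change_num {D N c0 G η q : ℝ} {k : ℕ} (hk : 1 ≤ k) (hD0 : 0 < D) (hD1 : D ≤ 1)
    (hN : 0 < N) (hG : 0 ≤ G) (hNc : N * Real.sqrt (1 - Real.log D) ≤ c0)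
    (hq0 : 0 < q) (hq1 : q ≤ 1) (hη0 : 0 ≤ η) (hη : η ≤ G * (N * LL D)) :
    ∃ T : ℝ, 1 ≤ T ∧ 2 * T * η + 12 * Real.exp (-(T ^ 2 / 2))
      ≤ (6 * k * c0 * G / q + 5 * q * (1 / 2) ^ k) * LL D := by
  set ℓ := Real.sqrt (1 - Real.log D) with hℓ
  have hℓ1 : 1 ≤ ℓ := one_le_sqrt_ell hD0 hD1
  have hℓ2 : ℓ ^ 2 = 1 - Real.log D := Real.sq_sqrt (by linarith [one_le_ell hD0 hD1])
  have hLL : LL D = D * ℓ := rfl
  have hLL0 : 0 < LL D := LL_pos hD0 hD1
  have hDLL : D ≤ LL D := le_LL hD0.le hD1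
  have hlogq : -Real.log q ≤ 1 / q - 1 := by
    have := Real.add_one_le_exp (-Real.log q)
    rw [Real.exp_neg, Real.exp_log hq0] at this
    rw [one_div]; linarith
  have hlogq0 : Real.log q ≤ 0 := Real.log_nonpos hq0.le hq1
  have hlog2 : Real.log 2 ≤ 1 := by
    have := Real.log_two_lt_d9; linarith
  have hlog20 : 0 < Real.log 2 := Real.log_pos (by norm_num)
  have hk0 : (1:ℝ) ≤ k := by exact_mod_cast hk
  have hlogD : Real.log D ≤ 0 := Real.log_nonpos hD0.le hD1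
  have hkl : 0 ≤ k * Real.log 2 := by positivity
  set T' := Real.sqrt (2 * (1 - Real.log D + k * Real.log 2 - Real.log q)) with hT'
  have hin : 1 ≤ 1 - Real.log D + k * Real.log 2 - Real.log q := by linarith
  have hT'1 : 1 ≤ T' := by rw [hT', Real.one_le_sqrt]; linarith
  have hT'2 : T' ^ 2 / 2 = 1 - Real.log D + k * Real.log 2 - Real.log q := by
    rw [hT', Real.sq_sqrt (by linarith)]; ring
  have hexpT' : 12 * Real.exp (-(T' ^ 2 / 2)) ≤ 5 * q * (1 / 2) ^ k * LL D := by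
    rw [hT'2]
    have e1 : Real.exp (-(1 - Real.log D + k * Real.log 2 - Real.log q))
        = (Real.exp 1)⁻¹ * D * (1 / 2) ^ k * q := by
      have e2 : (1 / 2 : ℝ) ^ k = Real.exp (-(k * Real.log 2)) := by
        rw [Real.exp_neg, ← Real.log_pow, Real.exp_log (by positivity)]
        rw [one_div, inv_pow]
      have e3 : Real.exp (Real.log D) = D := Real.exp_log hD0
      have e4 : Real.exp (Real.log q) = q := Real.exp_log hq0
      calc Real.exp (-(1 - Real.log D + k * Real.log 2 - Real.log q))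
          = Real.exp (-1 + Real.log D + -(k * Real.log 2) + Real.log q) := by congr 1; ring
        _ = Real.exp (-1) * D * (1 / 2) ^ k * q := by
            rw [Real.exp_add, Real.exp_add, Real.exp_add, e3, e4, e2]
        _ = _ := by rw [Real.exp_neg]
    rw [e1]
    have h8 : 12 * (Real.exp 1)⁻¹ ≤ 5 := by
      rw [← div_eq_mul_inv, div_le_iff₀ (Real.exp_pos _)]
      have := Real.exp_one_gt_d9
      linarith
    have h9 : 0 ≤ (1 / 2 : ℝ) ^ k * q := by positivity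
    calc 12 * ((Real.exp 1)⁻¹ * D * (1 / 2) ^ k * q)
        = (12 * (Real.exp 1)⁻¹) * D * ((1 / 2) ^ k * q) := by ring
      _ ≤ 5 * LL D * ((1 / 2) ^ k * q) := by
          apply mul_le_mul_of_nonneg_right _ h9
          exact mul_le_mul h8 hDLL hD0.le (by norm_num)
      _ = _ := by ring
  have hq1' : 1 ≤ 1 / q := by rw [le_div_iff₀ hq0]; linarith
  set w := 1 / q with hw
  have hT'u : T' ≤ 3 * k * ℓ * w := by
    have a1 : 1 - Real.log D + k * Real.log 2 - Real.log q ≤ ℓ ^ 2 * (k + w) := by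
      have a2 : k * Real.log 2 ≤ k := mul_le_of_le_one_right (by linarith) hlog2
      have a3 : 1 ≤ ℓ ^ 2 := one_le_pow₀ hℓ1
      have a5 : 1 * (k + w - 1) ≤ ℓ ^ 2 * (k + w - 1) :=
        mul_le_mul_of_nonneg_right a3 (by linarith)
      rw [← hℓ2]
      linarith
    have b1 : (k:ℝ) * 1 ≤ k * (k * (w * w)) := by
      apply mul_le_mul_of_nonneg_left _ (by linarith)
      have : 1 * 1 ≤ w * w := mul_le_mul hq1' hq1' (by norm_num) (by linarith)
      have := mul_le_mul hk0 this (by norm_num) (by linarith)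
      linarith
    have b2 : w * 1 ≤ w * (k * (k * w)) := by
      apply mul_le_mul_of_nonneg_left _ (by linarith)
      have h1 : 1 * 1 ≤ k * w := mul_le_mul hk0 hq1' (by norm_num) (by linarith)
      have h2 := mul_le_mul hk0 h1 (by norm_num) (by linarith)
      linarith
    have a8 : 0 ≤ ℓ ^ 2 := by positivity
    have a10 := mul_le_mul_of_nonneg_left
      (by linarith : (k:ℝ) + w ≤ 2 * (k * k * (w * w))) a8
    have a11 : 0 ≤ ℓ ^ 2 * (k * k * (w * w)) := by positivity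
    rw [hT', Real.sqrt_le_left (by positivity)]
    calc 2 * (1 - Real.log D + k * Real.log 2 - Real.log q)
        ≤ 2 * (ℓ ^ 2 * (2 * (k * k * (w * w)))) := by linarith
      _ ≤ 9 * (ℓ ^ 2 * (k * k * (w * w))) := by linarith
      _ = _ := by ring
  refine ⟨T', hT'1, ?_⟩
  have h7 : 2 * T' * η ≤ 6 * k * c0 * G / q * LL D := by
    calc 2 * T' * η ≤ 2 * (3 * k * ℓ * w) * (G * (N * LL D)) :=
          mul_le_mul (by linarith) hη hη0 (by positivity)
      _ = 6 * k * G * w * LL D * (N * ℓ) := by ring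
      _ ≤ 6 * k * G * w * LL D * c0 := mul_le_mul_of_nonneg_left hNc (by positivity)
      _ = _ := by rw [hw]; ring
  have e6 : (6 * k * c0 * G / q + 5 * q * (1 / 2) ^ k) * LL D
      = 6 * k * c0 * G / q * LL D + 5 * q * (1 / 2) ^ k * LL D := by ring
  rw [e6]
  linarith

/-- The contribution of the fast directions at level `k`, at any scale. -/
theorem lev_many {e : ℕ → E → ℝ} (he : ∀ t, UI (e t)) {v : ℕ → E} {F : ℕ → ℝ}
    (n : ℕ) (hF : ∀ t < n, FluxLe (e t) (v t) (F t)) {N : ℝ} (hN : 0 < N)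
    {P : E →L[ℝ] E} (hP1 : ∀ x, ‖P x‖ ≤ ‖x‖) {k : ℕ} (hk : 1 ≤ k)
    (hP : ∀ m : E, ∀ δ : ℝ, 0 < δ → ∃ κ, Adm v n N κ ∧
      N / 9 ^ k * ‖P m‖ ≤ ⟪∑ r ∈ Finset.range n, κ r • v r, m⟫ + δ)
    {f : E → ℝ} (hf : UI f) {D c0 G q : ℝ} (hD0 : 0 < D) (hD1 : D ≤ 1) (hG : 0 ≤ G)
    (hNc : N * Real.sqrt (1 - Real.log D) ≤ c0) (hq0 : 0 < q) (hq1 : q ≤ 1)
    (hΓ : ∑ t ∈ Finset.range n, (F t + ∫ x, |e (t + 1) x - e t x| ∂(stdGaussian E))
      ≤ G * (N * LL D))
    (hη : ∫ x, |f x - e n x| ∂(stdGaussian E) ≤ G * (N * LL D))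
    (hn : ∫ x, e n x ∂(stdGaussian E) ≤ 4 * D) {s : ℝ} (hs : 0 < s) (hs1 : s ≤ 1) :
    lev (fun p => ‖P (mom f s p)‖) s
      ≤ (2 * 81 ^ k * G + 53 * c0 ^ 2 * (1 / 9) ^ k + 6 * k * c0 * G / q + 5 * q * (1 / 2) ^ k)
        * LL D := by
  set c := Real.sqrt (1 - s ^ 2) with hc
  have hcs : c ^ 2 + s ^ 2 = 1 := by
    rw [hc, Real.sq_sqrt (by nlinarith)]; ring
  have hε0 : (0:ℝ) < (1 / 9) ^ k := by positivity
  have hε1 : ((1:ℝ) / 9) ^ k ≤ 1 := pow_le_one₀ (by norm_num) (by norm_num)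
  have hT1 : 1 ≤ Real.sqrt 2 * Real.sqrt (1 - Real.log D) := by
    have h1 : 1 ≤ Real.sqrt 2 := by rw [Real.one_le_sqrt]; norm_num
    have h2 := one_le_sqrt_ell hD0 hD1
    nlinarith
  have h1 := supp_bound he hcs hs hs1 n hF hN.le hP hε0 hε1 hT1
  have hint0 : 0 ≤ ∫ x, e n x ∂(stdGaussian E) := integral_nonneg fun x => (he n).nonneg x
  have h5 := flux_num hD0 hD1 hN hG hNc hint0 hn hΓ h1
  obtain ⟨T', hT'1, h6⟩ := change_num hk hD0 hD1 hN hG hNc hq0 hq1
    (integral_nonneg fun _ => abs_nonneg _) hη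
  have h7 := mom_change hf (he n) hcs hT'1
  have h8 : lev (fun p => ‖P (mom f s p)‖) s
      ≤ ∫ y, ‖P (mom (e n) s (c • y))‖ ∂(stdGaussian E)
        + ∫ y, ‖mom f s (c • y) - mom (e n) s (c • y)‖ ∂(stdGaussian E) := by
    have hm1 := measurable_mom hf s
    have hm2 := measurable_mom (he n) s
    have i1 := integrable_norm_mom hf P c s
    have i2 := integrable_norm_mom (he n) P c s
    have i3 : Integrable (fun y => ‖mom f s (c • y) - mom (e n) s (c • y)‖) (stdGaussian E) := by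
      refine Integrable.of_bound ((hm1.comp (by fun_prop)).sub
        (hm2.comp (by fun_prop))).norm.aestronglyMeasurable 2 (Eventually.of_forall fun y => ?_)
      rw [norm_norm]
      refine (norm_sub_le _ _).trans ?_
      have := norm_mom_le_one hf s (c • y)
      have := norm_mom_le_one (he n) s (c • y)
      linarith
    rw [← integral_add i2 i3]
    unfold lev
    apply integral_mono i1 (i2.add i3)
    intro y
    have : P (mom f s (c • y)) = P (mom (e n) s (c • y))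
        + P (mom f s (c • y) - mom (e n) s (c • y)) := by rw [map_sub]; abel
    show ‖P (mom f s (c • y))‖ ≤ ‖P (mom (e n) s (c • y))‖
      + ‖mom f s (c • y) - mom (e n) s (c • y)‖
    rw [this]
    exact (norm_add_le _ _).trans (by gcongr; exact hP1 _)
  have e6 : (2 * 81 ^ k * G + 53 * c0 ^ 2 * (1 / 9) ^ k + 6 * k * c0 * G / q
      + 5 * q * (1 / 2) ^ k) * LL D = (2 * 81 ^ k * G + 53 * c0 ^ 2 * (1 / 9) ^ k) * LL D
      + (6 * k * c0 * G / q + 5 * q * (1 / 2) ^ k) * LL D := by ring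
  rw [e6]
  linarith

end

end Vale.Agent.P262.H941
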