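import Vale.Agent.P262.H941.Dyadic

/-!
# First moments: the bathtub bound and the bound in one direction for convex bodies
-/

set_option linter.unusedSectionVars false

namespace Vale.Agent.P262.H941

open MeasureTheory ProbabilityTheory Set Filter Topology
open scoped RealInnerProductSpace
open Vale.Agent.P262.H847 Vale.Agent.P262.H912

/-! ### One-dimensional integrals -/

lemma integrable_phi_mul : Integrable (fun t : ℝ => phi t * t) := by
  have h := (integrable_mul_exp_neg_mul_sq (b := 1 / 2) (by norm_num)).const_mul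
    ((Real.sqrt (2 * Real.pi))⁻¹)
  refine h.congr (Eventually.of_forall fun x => ?_)
  simp only []
  rw [phi_eq]
  have : -(1 / 2) * x ^ 2 = -(x ^ 2) / 2 := by ring
  rw [this]
  ring

lemma tendsto_phi_atBot : Tendsto phi atBot (𝓝 0) := by
  have h : Tendsto (fun x : ℝ => |x|⁻¹) atBot (𝓝 0) :=
    tendsto_inv_atTop_zero.comp tendsto_abs_atBot_atTop
  refine squeeze_zero' (Eventually.of_forall fun x => (phi_pos x).le) ?_ h
  filter_upwards [eventually_lt_atBot (0:ℝ)] with x hx
  have h1 := abs_mul_phi x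
  have h2 : 0 < |x| := abs_pos.mpr hx.ne
  rw [← one_div, le_div_iff₀' h2]
  exact h1

lemma setIntegral_phi_mul (a : ℝ) : ∫ t in Iic a, phi t * t = -phi a := by
  have h := integral_Iic_of_hasDerivAt_of_tendsto' (f := fun t => -phi t)
    (f' := fun t => phi t * t) (a := a) (m := 0)
    (fun x _ => (hasDerivAt_phi x).neg.congr_deriv (by ring))
    integrable_phi_mul.integrableOn (by simpa using tendsto_phi_atBot.neg)
  rw [h]; ring

lemma integral_g1_eq (F : ℝ → ℝ) : ∫ t, F t ∂g1 = ∫ t, phi t * F t := by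
  rw [integral_gaussianReal_eq_integral_smul (by norm_num)]
  rfl

lemma int_Iic (a : ℝ) : ∫ t, (Iic a).indicator (fun _ => (1:ℝ)) t * t ∂g1 = -phi a := by
  rw [integral_g1_eq, ← setIntegral_phi_mul, ← integral_indicator measurableSet_Iic]
  congr 1; funext t
  by_cases h : t ∈ Iic a
  · rw [indicator_of_mem h, indicator_of_mem h, one_mul]
  · rw [indicator_of_notMem h, indicator_of_notMem h, zero_mul, mul_zero]

lemma integrable_id_g1 : Integrable (fun t : ℝ => t) g1 := by
  have h := memLp_id_gaussianReal (μ := 0) (v := 1) 1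
  simp only [ENNReal.coe_one] at h
  exact memLp_one_iff_integrable.mp h

lemma integral_id_g1 : ∫ t : ℝ, t ∂g1 = 0 := by
  simp

lemma int_phi_comp {c s l : ℝ} (hcs : c ^ 2 + s ^ 2 = 1) (hs : 0 < s) :
    ∫ τ, phi ((l - c * τ) / s) ∂g1 = s * phi l := by
  rw [integral_g1_eq]
  have e : ∀ τ, phi τ * phi ((l - c * τ) / s) = phi l * phi ((τ - c * l) / s) := by
    intro τ
    simp only [phi_eq]
    have h1 : -(τ ^ 2) / 2 + -(((l - c * τ) / s) ^ 2) / 2
        = -(l ^ 2) / 2 + -(((τ - c * l) / s) ^ 2) / 2 := by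
      field_simp
      have hc : c ^ 2 = 1 - s ^ 2 := by linarith
      ring_nf
      rw [hc]
      ring
    have h2 : ∀ k a b : ℝ, k * Real.exp a * (k * Real.exp b) = k * k * Real.exp (a + b) := by
      intro k a b; rw [Real.exp_add]; ring
    rw [h2, h2, h1]
  simp_rw [e]
  rw [integral_const_mul]
  have h3 : ∫ τ : ℝ, phi ((τ - c * l) / s) = s := by
    rw [integral_sub_right_eq_self (fun τ => phi (τ / s)) (c * l), Measure.integral_comp_div,
      integral_phi, abs_of_pos hs]
    simp
  rw [h3]; ring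

/-! ### half lines -/

lemma lower_line_aux {L : Set ℝ} {l : ℝ} (h1 : Iio l ⊆ L) (h2 : L ⊆ Iic l) {s x : ℝ}
    (hs : 0 < s) :
    ∫ t, L.indicator (fun _ => (1:ℝ)) (x + s * t) * t ∂g1 = -phi ((l - x) / s) := by
  rw [← int_Iic]
  apply integral_congr_ae
  have h3 : ∀ᵐ t ∂g1, t ≠ (l - x) / s := by
    have : NullSingletonClass g1 := nullSingletonClass_gaussianReal (by norm_num)
    have h0 : g1 {(l - x) / s} = 0 := measure_singleton _
    rw [ae_iff]
    simpa using h0
  filter_upwards [h3] with t ht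
  congr 1
  rcases lt_or_gt_of_ne ht with h | h
  · have h4 : x + s * t < l := by
      rw [lt_div_iff₀ hs] at h; linarith
    rw [indicator_of_mem (h1 h4), indicator_of_mem (show t ∈ Iic ((l - x) / s) from h.le)]
  · have h4 : l < x + s * t := by
      rw [div_lt_iff₀ hs] at h; linarith
    rw [indicator_of_notMem (fun h5 => absurd (h2 h5) (not_le.mpr h4)),
      indicator_of_notMem (fun h5 : t ∈ Iic ((l - x) / s) => absurd h5 (not_le.mpr h))]

lemma lower_measure_aux {L : Set ℝ} {l : ℝ} (h1 : Iio l ⊆ L) (h2 : L ⊆ Iic l) :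
    g1.real L = Phi l := by
  have : NullSingletonClass g1 := nullSingletonClass_gaussianReal (by norm_num)
  have h3 : g1 (Iio l) = g1 (Iic l) := measure_congr Iio_ae_eq_Iic
  have h4 : g1 L = g1 (Iic l) := le_antisymm (measure_mono h2) (h3 ▸ measure_mono h1)
  rw [measureReal_def, h4]; rfl

lemma lower_line {L : Set ℝ} (hL : IsLowerSet L) {c s : ℝ} (hcs : c ^ 2 + s ^ 2 = 1)
    (hs : 0 < s) :
    ∫ τ, |∫ t, L.indicator (fun _ => (1:ℝ)) (c * τ + s * t) * t ∂g1| ∂g1
      ≤ s * Ip (g1.real L) := by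
  rcases L.eq_empty_or_nonempty with rfl | hne
  · simp [Ip_of_nonpos le_rfl]
  by_cases hb : BddAbove L
  · set l := sSup L with hl
    have h1 : Iio l ⊆ L := by
      intro x hx
      obtain ⟨y, hy, hxy⟩ := exists_lt_of_lt_csSup hne hx
      exact hL hxy.le hy
    have h2 : L ⊆ Iic l := fun x hx => le_csSup hb hx
    simp_rw [lower_line_aux h1 h2 hs, abs_neg, abs_of_pos (phi_pos _)]
    rw [int_phi_comp hcs hs, lower_measure_aux h1 h2, Ip_Phi]
  · have hU : L = univ := by
      rw [eq_univ_iff_forall]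
      intro x
      rw [not_bddAbove_iff] at hb
      obtain ⟨y, hy, hxy⟩ := hb x
      exact hL hxy.le hy
    subst hU
    simp [Ip_of_one_le le_rfl]

lemma integral_neg_g1 (F : ℝ → ℝ) : ∫ t, F (-t) ∂g1 = ∫ t, F t ∂g1 := by
  have h := (MeasurableEquiv.neg ℝ).measurableEmbedding.integral_map (μ := g1) F
  have e : Measure.map (⇑(MeasurableEquiv.neg ℝ)) g1 = g1 := g1_symm
  rw [e] at h
  exact h.symm

lemma upper_line {U : Set ℝ} (hU : IsUpperSet U) {c s : ℝ} (hcs : c ^ 2 + s ^ 2 = 1)
    (hs : 0 < s) :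
    ∫ τ, |∫ t, U.indicator (fun _ => (1:ℝ)) (c * τ + s * t) * t ∂g1| ∂g1
      ≤ s * Ip (g1.real U) := by
  set L : Set ℝ := (fun x => -x) ⁻¹' U with hL
  have hLl : IsLowerSet L := by
    intro a b hba ha
    exact hU (neg_le_neg hba) ha
  have hm : g1.real L = g1.real U := by
    rw [measureReal_def, measureReal_def]
    have h := (MeasurableEquiv.neg ℝ).map_apply (μ := g1) U
    have e : Measure.map (⇑(MeasurableEquiv.neg ℝ)) g1 = g1 := g1_symm
    rw [e] at h
    rw [h]
    rfl
  have h := lower_line hLl hcs hs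
  rw [hm] at h
  refine le_trans (le_of_eq ?_) h
  rw [← integral_neg_g1]
  congr 1; funext τ
  rw [← integral_neg_g1 (fun t => U.indicator (fun _ => (1:ℝ)) (c * -τ + s * t) * t), ← abs_neg,
    ← integral_neg]
  congr 2; funext t
  have e : L.indicator (fun _ => (1:ℝ)) (c * τ + s * t)
      = U.indicator (fun _ => (1:ℝ)) (c * -τ + s * -t) := by
    by_cases h1 : (c * τ + s * t) ∈ L
    · rw [indicator_of_mem h1, indicator_of_mem]
      have h2 : -(c * τ + s * t) ∈ U := h1
      have e : c * -τ + s * -t = -(c * τ + s * t) := by ring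
      rw [e]; exact h2
    · rw [indicator_of_notMem h1, indicator_of_notMem]
      intro h2
      apply h1
      show -(c * τ + s * t) ∈ U
      have e : c * -τ + s * -t = -(c * τ + s * t) := by ring
      rw [← e]; exact h2
  rw [e]; ring

lemma Ip_midpoint {a b : ℝ} (ha : 0 ≤ a) (hb : 0 ≤ b) (h : a + b ≤ 1) :
    Ip a + Ip b ≤ 2 * Ip ((a + b) / 2) := by
  rcases (add_nonneg ha hb).eq_or_lt with h0 | h0
  · have ha0 : a = 0 := by linarith
    have hb0 : b = 0 := by linarith
    simp [ha0, hb0, Ip_of_nonpos le_rfl]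
  obtain ⟨z, hz⟩ := exists_Phi_eq (p := (a + b) / 2) (by linarith) (by linarith)
  have h1 := Ip_tangent ha (by linarith) z
  have h2 := Ip_tangent hb (by linarith) z
  rw [← hz, Ip_Phi]
  rw [hz] at h1 h2
  nlinarith

/-- first moments of the complement of an interval, averaged -/
lemma line_bound {J : Set ℝ} (hJ : Convex ℝ J) (hJm : MeasurableSet J) {c s : ℝ}
    (hcs : c ^ 2 + s ^ 2 = 1) (hs : 0 < s) :
    ∫ τ, |∫ t, Jᶜ.indicator (fun _ => (1:ℝ)) (c * τ + s * t) * t ∂g1| ∂g1
      ≤ 2 * s * Ip (g1.real Jᶜ / 2) := by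
  rcases J.eq_empty_or_nonempty with rfl | ⟨j0, hj0⟩
  · simp only [compl_empty, indicator_univ, one_mul, integral_id_g1, abs_zero, integral_zero]
    have := Ip_nonneg (g1.real univ / 2)
    positivity
  have hoc : J.OrdConnected := hJ.ordConnected
  set L : Set ℝ := {r | ∀ j ∈ J, r < j} with hL
  set U : Set ℝ := {r | ∀ j ∈ J, j < r} with hU
  have hLl : IsLowerSet L := fun a b hba ha j hj => lt_of_le_of_lt hba (ha j hj)
  have hUu : IsUpperSet U := fun a b hab ha j hj => lt_of_lt_of_le (ha j hj) hab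
  have hLm : MeasurableSet L := hLl.ordConnected.measurableSet
  have hUm : MeasurableSet U := hUu.ordConnected.measurableSet
  have hcup : Jᶜ = L ∪ U := by
    ext r
    constructor
    · intro hr
      by_contra hn
      rw [mem_union, not_or] at hn
      obtain ⟨hn1, hn2⟩ := hn
      simp only [hL, hU, mem_ofPred_eq, not_forall, not_lt] at hn1 hn2
      obtain ⟨j1, hj1, h1⟩ := hn1
      obtain ⟨j2, hj2, h2⟩ := hn2
      exact hr (hoc.out hj1 hj2 ⟨h1, h2⟩)
    · rintro (hr | hr) hrJ
      · exact lt_irrefl _ (hr r hrJ)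
      · exact lt_irrefl _ (hr r hrJ)
  have hdisj : Disjoint L U := by
    rw [Set.disjoint_left]
    intro r h1 h2
    exact lt_irrefl _ ((h1 j0 hj0).trans (h2 j0 hj0))
  have hind : ∀ x, Jᶜ.indicator (fun _ => (1:ℝ)) x
      = L.indicator (fun _ => (1:ℝ)) x + U.indicator (fun _ => (1:ℝ)) x := by
    intro x
    rw [hcup, indicator_union_of_disjoint hdisj]
  have hint : ∀ (A : Set ℝ), MeasurableSet A → ∀ τ,
      Integrable (fun t => A.indicator (fun _ => (1:ℝ)) (c * τ + s * t) * t) g1 := by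
    intro A hA τ
    refine integrable_id_g1.norm.mono' ?_ (Eventually.of_forall fun t => ?_)
    · exact ((((UI.indicator hA).meas).comp (by fun_prop : Measurable fun t : ℝ =>
        c * τ + s * t)).mul measurable_id).aestronglyMeasurable
    · rw [norm_mul]
      have h1 := (UI.indicator hA).nonneg (c * τ + s * t)
      have h2 := (UI.indicator hA).le_one (c * τ + s * t)
      rw [Real.norm_eq_abs (A.indicator _ _), abs_of_nonneg h1]
      exact mul_le_of_le_one_left (norm_nonneg t) h2
  have hpt : ∀ τ, |∫ t, Jᶜ.indicator (fun _ => (1:ℝ)) (c * τ + s * t) * t ∂g1|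
      ≤ |∫ t, L.indicator (fun _ => (1:ℝ)) (c * τ + s * t) * t ∂g1|
        + |∫ t, U.indicator (fun _ => (1:ℝ)) (c * τ + s * t) * t ∂g1| := by
    intro τ
    have : ∫ t, Jᶜ.indicator (fun _ => (1:ℝ)) (c * τ + s * t) * t ∂g1
        = ∫ t, L.indicator (fun _ => (1:ℝ)) (c * τ + s * t) * t ∂g1
          + ∫ t, U.indicator (fun _ => (1:ℝ)) (c * τ + s * t) * t ∂g1 := by
      rw [← integral_add (hint L hLm τ) (hint U hUm τ)]
      congr 1; funext t
      rw [hind]; ring
    rw [this]
    exact abs_add_le _ _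
  have hmeas : ∀ (A : Set ℝ), MeasurableSet A →
      Integrable (fun τ => |∫ t, A.indicator (fun _ => (1:ℝ)) (c * τ + s * t) * t ∂g1|) g1 := by
    intro A hA
    refine Integrable.of_bound ?_ (∫ t : ℝ, ‖t‖ ∂g1) (Eventually.of_forall fun τ => ?_)
    · have : StronglyMeasurable (fun p : ℝ × ℝ =>
          A.indicator (fun _ => (1:ℝ)) (c * p.1 + s * p.2) * p.2) :=
        ((((UI.indicator hA).meas).comp (by fun_prop : Measurable fun p : ℝ × ℝ =>
          c * p.1 + s * p.2)).mul measurable_snd).stronglyMeasurable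
      exact ((StronglyMeasurable.integral_prod_right (f := fun x y =>
        A.indicator (fun _ => (1:ℝ)) (c * x + s * y) * y) this).measurable.abs).aestronglyMeasurable
    · rw [Real.norm_eq_abs, abs_abs]
      refine (abs_integral_le_integral_abs).trans ?_
      apply integral_mono (hint A hA τ).norm integrable_id_g1.norm
      intro t
      show |A.indicator (fun _ => (1:ℝ)) (c * τ + s * t) * t| ≤ |t|
      rw [abs_mul]
      have h1 := (UI.indicator hA).nonneg (c * τ + s * t)
      have h2 := (UI.indicator hA).le_one (c * τ + s * t)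
      rw [abs_of_nonneg h1]
      exact mul_le_of_le_one_left (abs_nonneg t) h2
  have h1 := lower_line hLl hcs hs
  have h2 := upper_line hUu hcs hs
  have h3 : ∫ τ, |∫ t, Jᶜ.indicator (fun _ => (1:ℝ)) (c * τ + s * t) * t ∂g1| ∂g1
      ≤ ∫ τ, (|∫ t, L.indicator (fun _ => (1:ℝ)) (c * τ + s * t) * t ∂g1|
        + |∫ t, U.indicator (fun _ => (1:ℝ)) (c * τ + s * t) * t ∂g1|) ∂g1 :=
    integral_mono (hmeas _ hJm.compl) ((hmeas L hLm).add (hmeas U hUm)) hpt
  rw [integral_add (hmeas L hLm) (hmeas U hUm)] at h3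
  have h4 : g1.real Jᶜ = g1.real L + g1.real U := by
    rw [hcup, measureReal_union hdisj hUm]
  have h5 : g1.real L + g1.real U ≤ 1 := by
    rw [← h4]; exact measureReal_le_one
  have h6 := Ip_midpoint (a := g1.real L) (b := g1.real U) measureReal_nonneg
    measureReal_nonneg h5
  rw [h4]
  nlinarith [mul_le_mul_of_nonneg_left h6 hs.le]

end Vale.Agent.P262.H941
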