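import Vale.Agent.P262.H941.OneDir

/-!
# First moments in one direction, for the complement of a convex body
-/

set_option linter.unusedSectionVars false

namespace Vale.Agent.P262.H941

open MeasureTheory ProbabilityTheory Set Filter Topology
open scoped RealInnerProductSpace
open Vale.Agent.P262.H847 Vale.Agent.P262.H912

variable {E : Type*} [NormedAddCommGroup E] [InnerProductSpace ℝ E] [FiniteDimensional ℝ E]
  [MeasurableSpace E] [BorelSpace E]

/-- the component orthogonal to the unit vector `b` -/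
noncomputable def orth (b y : E) : E := y - ⟪b, y⟫ • b

lemma orth_add (b : E) (r s : ℝ) (x y : E) :
    orth b (r • x + s • y) = r • orth b x + s • orth b y := by
  simp only [orth, inner_add_right, real_inner_smul_right]
  module

lemma inner_orth {b : E} (hb : ‖b‖ = 1) (y : E) : ⟪b, orth b y⟫ = 0 := by
  rw [orth, inner_sub_right, real_inner_smul_right, real_inner_self_eq_norm_sq, hb]
  ring

lemma measurable_orth (b : E) : Measurable (orth b) := by
  unfold orth; fun_prop

@[fun_prop]
lemma continuous_orth (b : E) : Continuous (orth b) := by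
  unfold orth; fun_prop

/-- splitting off one direction -/
lemma map_split {b : E} (hb : ‖b‖ = 1) :
    (g1.prod (stdGaussian E)).map (fun p : ℝ × E => p.1 • b + orth b p.2) = stdGaussian E := by
  have hm : Measurable (fun p : ℝ × E => p.1 • b + orth b p.2) := by fun_prop
  have : IsProbabilityMeasure ((g1.prod (stdGaussian E)).map
      (fun p : ℝ × E => p.1 • b + orth b p.2)) :=
    Measure.isProbabilityMeasure_map hm.aemeasurable
  apply Measure.ext_of_charFun
  ext t
  rw [charFun_apply, charFun_stdGaussian, integral_map hm.aemeasurable (by fun_prop)]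
  have e1 : ∀ p : ℝ × E, Complex.exp (((⟪p.1 • b + orth b p.2, t⟫ : ℝ) : ℂ) * Complex.I)
      = Complex.exp (((p.1 * ⟪b, t⟫ : ℝ) : ℂ) * Complex.I)
        * Complex.exp (((⟪p.2, orth b t⟫ : ℝ) : ℂ) * Complex.I) := by
    intro p
    rw [← Complex.exp_add, ← add_mul, ← Complex.ofReal_add]
    congr 3
    simp only [orth, inner_add_left, inner_sub_left, inner_sub_right, real_inner_smul_left,
      real_inner_smul_right]
    rw [real_inner_comm b p.2]
    ring
  simp_rw [e1]
  rw [integral_prod_mul (fun x : ℝ => Complex.exp (((x * ⟪b, t⟫ : ℝ) : ℂ) * Complex.I))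
    (fun x : E => Complex.exp (((⟪x, orth b t⟫ : ℝ) : ℂ) * Complex.I))]
  have h1 : ∫ x : ℝ, Complex.exp (((x * ⟪b, t⟫ : ℝ) : ℂ) * Complex.I) ∂g1
      = Complex.exp (-((⟪b, t⟫ : ℝ) : ℂ) ^ 2 / 2) := by
    have h := charFun_gaussianReal (μ := 0) (v := 1) ⟪b, t⟫
    rw [charFun_apply_real] at h
    simp only [Complex.ofReal_mul] at *
    have e : ∀ x : ℝ, (x : ℂ) * ((⟪b, t⟫ : ℝ) : ℂ) * Complex.I
        = ((⟪b, t⟫ : ℝ) : ℂ) * (x : ℂ) * Complex.I := by intro x; ring
    simp_rw [e]
    rw [h]
    congr 1
    push_cast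
    ring
  have h2 : ∫ x : E, Complex.exp (((⟪x, orth b t⟫ : ℝ) : ℂ) * Complex.I) ∂(stdGaussian E)
      = Complex.exp (-(‖orth b t‖ : ℂ) ^ 2 / 2) := by
    have h := charFun_stdGaussian (E := E) (orth b t)
    rw [charFun_apply] at h
    exact h
  rw [h1, h2, ← Complex.exp_add]
  congr 1
  have h3 : ‖orth b t‖ ^ 2 = ‖t‖ ^ 2 - ⟪b, t⟫ ^ 2 := by
    rw [← real_inner_self_eq_norm_sq, ← real_inner_self_eq_norm_sq, orth]
    simp only [inner_sub_left, inner_sub_right, real_inner_smul_left, real_inner_smul_right]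
    rw [real_inner_self_eq_norm_sq b, hb, real_inner_comm b t]
    ring
  have h4 : ((‖orth b t‖ : ℂ)) ^ 2 = (‖t‖ : ℂ) ^ 2 - ((⟪b, t⟫ : ℝ) : ℂ) ^ 2 := by
    exact_mod_cast h3
  rw [h4]
  ring

lemma integral_split {b : E} (hb : ‖b‖ = 1) {F : E → ℝ} (hF : Measurable F)
    (hFi : Integrable F (stdGaussian E)) :
    ∫ x, F x ∂(stdGaussian E) = ∫ y, ∫ t, F (t • b + orth b y) ∂g1 ∂(stdGaussian E) := by
  have hm : Measurable (fun p : ℝ × E => p.1 • b + orth b p.2) := by fun_prop
  have h1 : ∫ x, F x ∂(stdGaussian E)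
      = ∫ p : ℝ × E, F (p.1 • b + orth b p.2) ∂(g1.prod (stdGaussian E)) := by
    conv_lhs => rw [← map_split hb]
    rw [integral_map hm.aemeasurable hF.aestronglyMeasurable]
  rw [h1, integral_prod_symm]
  rw [← map_split hb] at hFi
  exact (integrable_map_measure hF.aestronglyMeasurable hm.aemeasurable).mp hFi

/-- **First moments in one direction** for the complement of a convex body. -/
theorem one_dir {K : Set E} (hK : Convex ℝ K) (hKm : MeasurableSet K) {b : E} (hb : ‖b‖ = 1)
    {s : ℝ} (hs : 0 < s) (hs1 : s ≤ 1) :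
    ∫ y, |⟪b, mom (Kᶜ.indicator (fun _ => (1:ℝ))) s (Real.sqrt (1 - s ^ 2) • y)⟫|
      ∂(stdGaussian E) ≤ 2 * s * Ip ((stdGaussian E).real Kᶜ / 2) := by
  set e : E → ℝ := Kᶜ.indicator (fun _ => (1:ℝ)) with he
  have heU : UI e := UI.indicator hKm.compl
  set c := Real.sqrt (1 - s ^ 2) with hc
  have hcs : c ^ 2 + s ^ 2 = 1 := by
    rw [hc, Real.sq_sqrt (by nlinarith)]; ring
  have hcs1 : c ^ 2 + s ^ 2 = (1:ℝ) ^ 2 := by rw [hcs]; norm_num
  -- the line sets
  set J : E → Set ℝ := fun z => {r | r • b + orth b z ∈ K} with hJ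
  have hJc : ∀ z, Convex ℝ (J z) := by
    intro z r1 h1 r2 h2 a1 a2 ha1 ha2 ha
    have h3 := hK h1 h2 ha1 ha2 ha
    show (a1 • r1 + a2 • r2) • b + orth b z ∈ K
    have e3 : a1 • (r1 • b + orth b z) + a2 • (r2 • b + orth b z)
        = (a1 • r1 + a2 • r2) • b + orth b z := by
      have : orth b z = (a1 + a2) • orth b z := by rw [ha, one_smul]
      conv_rhs => rw [this]
      simp only [smul_eq_mul]
      module
    rw [← e3]; exact h3
  have hJm : ∀ z, MeasurableSet (J z) := fun z => hKm.preimage (by fun_prop)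
  have heJ : ∀ z r, e (r • b + orth b z) = (J z)ᶜ.indicator (fun _ => (1:ℝ)) r := by
    intro z r
    by_cases h : r • b + orth b z ∈ K
    · rw [he, indicator_of_notMem (show r • b + orth b z ∉ Kᶜ from fun h' => h' h),
        indicator_of_notMem (show r ∉ (J z)ᶜ from fun h' => h' h)]
    · rw [he, indicator_of_mem h, indicator_of_mem (show r ∈ (J z)ᶜ from h)]
  set W : E → ℝ → ℝ := fun z τ => |∫ t, e ((c * τ + s * t) • b + orth b z) * t ∂g1| with hW
  set B1 := ∫ t : ℝ, ‖t‖ ∂g1 with hB1
  have hWb : ∀ z τ, |W z τ| ≤ B1 := by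
    intro z τ
    rw [hW]
    simp only [abs_abs]
    refine (abs_integral_le_integral_abs).trans ?_
    refine integral_mono_of_nonneg (Eventually.of_forall fun t => abs_nonneg _)
      integrable_id_g1.norm (Eventually.of_forall fun t => ?_)
    show |e ((c * τ + s * t) • b + orth b z) * t| ≤ |t|
    rw [abs_mul, abs_of_nonneg (heU.nonneg _)]
    exact mul_le_of_le_one_left (abs_nonneg t) (heU.le_one _)
  have hWm : Measurable (Function.uncurry W) := by
    have h1 : StronglyMeasurable (fun p : (E × ℝ) × ℝ =>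
        e ((c * p.1.2 + s * p.2) • b + orth b p.1.1) * p.2) :=
      ((heU.meas.comp (by fun_prop : Measurable fun p : (E × ℝ) × ℝ =>
        (c * p.1.2 + s * p.2) • b + orth b p.1.1)).mul measurable_snd).stronglyMeasurable
    have h2 := (StronglyMeasurable.integral_prod_right (ν := g1) (f := fun (p : E × ℝ) (t : ℝ) =>
      e ((c * p.2 + s * t) • b + orth b p.1) * t) h1).measurable.abs
    exact h2
  set w : E → ℝ := fun z => ∫ τ, W z τ ∂g1 with hw
  have hwm : Measurable w := (StronglyMeasurable.integral_prod_right (f := W)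
    hWm.stronglyMeasurable).measurable
  have hW0 : ∀ z τ, 0 ≤ W z τ := fun z τ => abs_nonneg _
  have hWi : ∀ z, Integrable (W z) g1 := fun z =>
    Integrable.of_bound (hWm.comp (measurable_prodMk_left)).aestronglyMeasurable B1
      (Eventually.of_forall fun τ => hWb z τ)
  have hwb : ∀ z, |w z| ≤ B1 := by
    intro z
    rw [hw]
    simp only []
    rw [abs_of_nonneg (integral_nonneg (hW0 z))]
    calc ∫ τ, W z τ ∂g1 ≤ ∫ _τ : ℝ, B1 ∂g1 := integral_mono (hWi z) (integrable_const _)
          (fun τ => (le_abs_self _).trans (hWb z τ))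
      _ = B1 := by simp
  -- the deficit on the line
  set D : E → ℝ := fun z => g1.real (J z)ᶜ with hD
  have hDe : ∀ z, D z = ∫ r, e (r • b + orth b z) ∂g1 := by
    intro z
    simp_rw [heJ]
    rw [integral_ind (hJm z).compl]
  have hDU : UI D := by
    have h1 := UI.integral (E := E) (F := ℝ) (f := fun p : E × ℝ => e (p.2 • b + orth b p.1))
      (UI.comp heU (by fun_prop)) g1
    have : D = fun z => ∫ r, e (r • b + orth b z) ∂g1 := funext hDe
    rw [this]; exact h1
  have hwD : ∀ z, w z ≤ 2 * s * Ip (D z / 2) := by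
    intro z
    have h := line_bound (hJc z) (hJm z) hcs hs
    simp only [← heJ] at h
    exact h
  -- step 1: the moment
  have hmom : ∀ p : E, ⟪b, mom e s p⟫ = ∫ y, ∫ t, e (p + s • (t • b + orth b y)) * t ∂g1
      ∂(stdGaussian E) := by
    intro p
    have hep : UI (fun g => e (p + s • g)) := UI.comp heU (by fun_prop)
    have h1 := (innerSL ℝ b).integral_comp_comm (UI.integrable_smul hep)
    simp only [innerSL_apply_apply] at h1
    rw [mom, ← h1]
    have hF : Measurable (fun g => ⟪b, e (p + s • g) • g⟫) :=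
      Measurable.const_inner (hep.meas.smul measurable_id)
    rw [integral_split hb hF]
    · congr 1; funext y
      congr 1; funext t
      rw [real_inner_smul_right, inner_add_right, real_inner_smul_right, inner_orth hb,
        real_inner_self_eq_norm_sq, hb]
      ring
    · exact (innerSL ℝ b).integrable_comp (UI.integrable_smul hep)
  -- step 2
  have hpt : ∀ y' τ, |⟪b, mom e s (c • (τ • b + orth b y'))⟫|
      ≤ ∫ y, W (c • y' + s • y) τ ∂(stdGaussian E) := by
    intro y' τ
    rw [hmom]
    refine (abs_integral_le_integral_abs).trans (le_of_eq ?_)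
    congr 1; funext y
    rw [hW]
    simp only []
    congr 2; funext t
    congr 2
    rw [orth_add]
    module
  have hmm : Measurable (fun p : E => |⟪b, mom e s (c • p)⟫|) :=
    (Measurable.const_inner ((measurable_mom heU s).comp (by fun_prop))).abs
  have hmb : ∀ p : E, |⟪b, mom e s (c • p)⟫| ≤ ∫ g : E, ‖g‖ ∂(stdGaussian E) := by
    intro p
    refine (abs_real_inner_le_norm _ _).trans ?_
    rw [hb, one_mul]
    exact norm_mom_le' heU _ _
  have hmi : Integrable (fun p : E => |⟪b, mom e s (c • p)⟫|) (stdGaussian E) :=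
    Integrable.of_bound hmm.aestronglyMeasurable _ (Eventually.of_forall fun p => by
      rw [Real.norm_eq_abs, abs_abs]; exact hmb p)
  rw [integral_split hb hmm hmi]
  -- step 3
  have hWc : ∀ y', Integrable (fun p : ℝ × E => W (c • y' + s • p.2) p.1)
      (g1.prod (stdGaussian E)) := by
    intro y'
    refine Integrable.of_bound (hWm.comp (by fun_prop : Measurable fun p : ℝ × E =>
      (c • y' + s • p.2, p.1))).aestronglyMeasurable B1 (Eventually.of_forall fun p => ?_)
    exact hWb _ _
  have h3 : ∀ y', ∫ τ, |⟪b, mom e s (c • (τ • b + orth b y'))⟫| ∂g1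
      ≤ ∫ y, w (c • y' + s • y) ∂(stdGaussian E) := by
    intro y'
    calc ∫ τ, |⟪b, mom e s (c • (τ • b + orth b y'))⟫| ∂g1
        ≤ ∫ τ, ∫ y, W (c • y' + s • y) τ ∂(stdGaussian E) ∂g1 := by
          apply integral_mono_of_nonneg (Eventually.of_forall fun τ => abs_nonneg _)
            ((hWc y').integral_prod_left) (Eventually.of_forall fun τ => hpt y' τ)
      _ = ∫ y, ∫ τ, W (c • y' + s • y) τ ∂g1 ∂(stdGaussian E) := by
          exact integral_integral_swap (hWc y')
      _ = _ := rfl
  have hwi : Integrable (fun y' : E => ∫ y, w (c • y' + s • y) ∂(stdGaussian E))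
      (stdGaussian E) := by
    apply Integrable.integral_prod_left (f := fun p : E × E => w (c • p.1 + s • p.2))
    exact Integrable.of_bound (hwm.comp (by fun_prop)).aestronglyMeasurable B1
      (Eventually.of_forall fun p => hwb _)
  have hD2 : UI (fun z => D z / 2) := ⟨hDU.meas.div_const 2,
    fun z => by have := hDU.nonneg z; positivity, fun z => by have := hDU.le_one z; linarith⟩
  calc ∫ y', ∫ τ, |⟪b, mom e s (c • (τ • b + orth b y'))⟫| ∂g1 ∂(stdGaussian E)
      ≤ ∫ y', ∫ y, w (c • y' + s • y) ∂(stdGaussian E) ∂(stdGaussian E) :=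
        integral_mono_of_nonneg (Eventually.of_forall fun y' => integral_nonneg fun τ =>
          abs_nonneg _) hwi (Eventually.of_forall h3)
    _ = ∫ z, w z ∂(stdGaussian E) := by
        have := integral_add_smul' hcs1 hwm hwb
        simpa using this
    _ ≤ ∫ z, 2 * s * Ip (D z / 2) ∂(stdGaussian E) := by
        apply integral_mono (Integrable.of_bound hwm.aestronglyMeasurable B1
          (Eventually.of_forall hwb)) (((UI.Ip hD2).integrable _).const_mul _)
        exact hwD
    _ = 2 * s * ∫ z, Ip (D z / 2) ∂(stdGaussian E) := integral_const_mul _ _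
    _ ≤ 2 * s * Ip (∫ z, D z / 2 ∂(stdGaussian E)) :=
        mul_le_mul_of_nonneg_left (Ip_jensen hD2) (by positivity)
    _ = 2 * s * Ip ((stdGaussian E).real Kᶜ / 2) := by
        congr 2
        rw [integral_div]
        congr 1
        rw [← integral_ind hKm.compl, integral_split hb heU.meas (heU.integrable _)]
        congr 1; funext z; exact hDe z

/-! ### The bathtub bound -/

lemma int_posPart (z : ℝ) : ∫ t, max (t + z) 0 ∂g1 = phi z + z * Phi z := by
  have h1 : ∀ t : ℝ, max (t + z) 0
      = t + z - ((Iic (-z)).indicator (fun _ => (1:ℝ)) t * t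
        + z * (Iic (-z)).indicator (fun _ => (1:ℝ)) t) := by
    intro t
    by_cases h : t ∈ Iic (-z)
    · rw [indicator_of_mem h]
      have : t ≤ -z := h
      rw [max_eq_right (by linarith)]; ring
    · rw [indicator_of_notMem h]
      have : -z < t := not_le.mp h
      rw [max_eq_left (by linarith)]; ring
  have hi1 : Integrable (fun t : ℝ => (Iic (-z)).indicator (fun _ => (1:ℝ)) t * t) g1 := by
    refine integrable_id_g1.norm.mono' (((UI.indicator measurableSet_Iic).meas).mul
      measurable_id).aestronglyMeasurable (Eventually.of_forall fun t => ?_)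
    show |(Iic (-z)).indicator (fun _ => (1:ℝ)) t * t| ≤ |t|
    rw [abs_mul, abs_of_nonneg ((UI.indicator measurableSet_Iic).nonneg t)]
    exact mul_le_of_le_one_left (abs_nonneg t) ((UI.indicator measurableSet_Iic).le_one t)
  have hi2 : Integrable (fun t : ℝ => z * (Iic (-z)).indicator (fun _ => (1:ℝ)) t) g1 :=
    ((UI.indicator measurableSet_Iic).integrable _).const_mul _
  have hi3 : Integrable (fun t : ℝ => t + z) g1 := integrable_id_g1.add (integrable_const _)
  have hi4 : Integrable (fun t : ℝ => (Iic (-z)).indicator (fun _ => (1:ℝ)) t * t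
      + z * (Iic (-z)).indicator (fun _ => (1:ℝ)) t) g1 := hi1.add hi2
  simp_rw [h1]
  rw [integral_sub hi3 hi4, integral_add integrable_id_g1 (integrable_const _),
    integral_add hi1 hi2, integral_id_g1, int_Iic, integral_const_mul,
    integral_ind measurableSet_Iic, phi_neg]
  have : g1.real (Iic (-z)) = 1 - Phi z := by rw [← Phi_neg]; rfl
  rw [this]
  simp
  ring

lemma map_inner_unit {b : E} (hb : ‖b‖ = 1) :
    (stdGaussian E).map (fun x => ⟪b, x⟫) = g1 := by
  rw [map_inner_stdGaussian, hb]
  congr 1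
  ext; simp

/-- **Bathtub**: the first moment of `f` is at most the isoperimetric profile of its mean. -/
theorem bathtub_inner {f : E → ℝ} (hf : UI f) {b : E} (hb : ‖b‖ = 1) :
    ∫ x, f x * ⟪b, x⟫ ∂(stdGaussian E) ≤ Ip (∫ x, f x ∂(stdGaussian E)) := by
  have hfi := hf.integrable (stdGaussian E)
  have hi1 : Integrable (fun x => f x * ⟪b, x⟫) (stdGaussian E) := by
    refine (integrable_inner b).norm.mono' (hf.meas.mul (by fun_prop)).aestronglyMeasurable
      (Eventually.of_forall fun x => ?_)
    rw [norm_mul, Real.norm_eq_abs, abs_of_nonneg (hf.nonneg x)]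
    exact mul_le_of_le_one_left (norm_nonneg _) (hf.le_one x)
  have key : ∀ z : ℝ, ∫ x, f x * ⟪b, x⟫ ∂(stdGaussian E) + z * ∫ x, f x ∂(stdGaussian E)
      ≤ phi z + z * Phi z := by
    intro z
    have hmi : Integrable (fun x : E => max (⟪b, x⟫ + z) 0) (stdGaussian E) :=
      ((integrable_inner b).add (integrable_const z)).pos_part
    have h1 : ∫ x : E, max (⟪b, x⟫ + z) 0 ∂(stdGaussian E) = phi z + z * Phi z := by
      rw [← int_posPart, ← map_inner_unit hb, integral_map (by fun_prop) (by fun_prop)]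
    rw [← h1, ← integral_const_mul, ← integral_add hi1 (hfi.const_mul z)]
    apply integral_mono (hi1.add (hfi.const_mul z)) hmi
    intro x
    show f x * ⟪b, x⟫ + z * f x ≤ max (⟪b, x⟫ + z) 0
    have h2 := hf.nonneg x
    have h3 := hf.le_one x
    rcases le_total 0 (⟪b, x⟫ + z) with h | h
    · rw [max_eq_left h]; nlinarith
    · rw [max_eq_right h]; nlinarith
  set p := ∫ x, f x ∂(stdGaussian E) with hp
  have hp0 : 0 ≤ p := integral_nonneg hf.nonneg
  have hp1 : p ≤ 1 := by
    calc p ≤ ∫ _x : E, (1:ℝ) ∂(stdGaussian E) := integral_mono hfi (integrable_const _) hf.le_one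
      _ = 1 := by simp
  rcases hp0.eq_or_lt with h | h0
  · have h2 : f =ᵐ[stdGaussian E] 0 := (integral_eq_zero_iff_of_nonneg hf.nonneg hfi).mp h.symm
    have h3 : ∫ x, f x * ⟪b, x⟫ ∂(stdGaussian E) = 0 := by
      apply integral_eq_zero_of_ae
      filter_upwards [h2] with x hx
      rw [hx]; simp
    rw [h3]; exact Ip_nonneg _
  rcases hp1.eq_or_lt with h | h1
  · have h2 : (fun x => 1 - f x) =ᵐ[stdGaussian E] 0 := by
      have hi2 : Integrable (fun x => 1 - f x) (stdGaussian E) := (integrable_const _).sub hfi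
      apply (integral_eq_zero_iff_of_nonneg (fun x => by
        show 0 ≤ 1 - f x; linarith [hf.le_one x]) hi2).mp
      rw [integral_sub (integrable_const _) hfi, ← hp, h]; simp
    have h3 : ∫ x, f x * ⟪b, x⟫ ∂(stdGaussian E) = ∫ x, ⟪b, x⟫ ∂(stdGaussian E) := by
      apply integral_congr_ae
      filter_upwards [h2] with x hx
      have : f x = 1 := by
        have : 1 - f x = 0 := hx
        linarith
      rw [this, one_mul]
    rw [h3, integral_inner]; exact Ip_nonneg _
  obtain ⟨z, hz⟩ := exists_Phi_eq h0 h1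
  have h2 := key z
  rw [← hz, Ip_Phi]
  rw [← hz] at h2
  linarith

theorem bathtub {f : E → ℝ} (hf : UI f) :
    ‖∫ x, f x • x ∂(stdGaussian E)‖ ≤ Ip (∫ x, f x ∂(stdGaussian E)) := by
  set M := ∫ x, f x • x ∂(stdGaussian E) with hM
  rcases (norm_nonneg M).eq_or_lt with h | h
  · rw [← h]; exact Ip_nonneg _
  have hb : ‖(‖M‖⁻¹) • M‖ = 1 := by
    rw [norm_smul, norm_inv, norm_norm, inv_mul_cancel₀ h.ne']
  refine le_trans (le_of_eq ?_) (bathtub_inner hf hb)
  have h1 := (innerSL ℝ ((‖M‖⁻¹) • M)).integral_comp_comm (UI.integrable_smul hf)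
  simp only [innerSL_apply_apply, ← hM] at h1
  simp only [real_inner_smul_right] at h1
  rw [h1, real_inner_smul_left, real_inner_self_eq_norm_sq]
  field_simp

theorem norm_mom_le {f : E → ℝ} (hf : UI f) (s : ℝ) (p : E) : ‖mom f s p‖ ≤ Ip (avg f s p) :=
  bathtub (UI.comp hf (T := fun g => p + s • g) (by fun_prop))

end Vale.Agent.P262.H941
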