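import Vale.Agent.P262.H941.Flux

/-!
# Transport of a Fourier mode along a path of bounded intermediate sums
-/

set_option linter.unusedSectionVars false

namespace Vale.Agent.P262.H941

open MeasureTheory ProbabilityTheory Set Filter Topology
open scoped RealInnerProductSpace
open Vale.Agent.P262.H847 Vale.Agent.P262.H912

variable {E : Type*} [NormedAddCommGroup E] [InnerProductSpace ℝ E] [FiniteDimensional ℝ E]
  [MeasurableSpace E] [BorelSpace E]

/-- the mode `sin⟨g,w(y)⟩ e^{|w(y)|²/2}` tested against the field `e` at scale `s` -/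
noncomputable def mode (e : E → ℝ) (c s : ℝ) (w : E → E) : ℝ :=
  ∫ p : E × E, e (c • p.1 + s • p.2) * (Real.sin ⟪p.2, w p.1⟫ * Real.exp (‖w p.1‖ ^ 2 / 2)) ∂(gg E)

lemma measurable_mode_fun {e : E → ℝ} (he : UI e) {w : E → E} (hw : Measurable w) (c s : ℝ) :
    Measurable (fun p : E × E => e (c • p.1 + s • p.2)
      * (Real.sin ⟪p.2, w p.1⟫ * Real.exp (‖w p.1‖ ^ 2 / 2))) := by
  have h1 : Measurable (fun p : E × E => w p.1) := hw.comp measurable_fst
  have h2 : Measurable (fun p : E × E => ⟪p.2, w p.1⟫) := measurable_snd.inner h1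
  exact (he.meas.comp (by fun_prop)).mul ((Real.measurable_sin.comp h2).mul
    (Real.measurable_exp.comp ((h1.norm.pow_const 2).div_const 2)))

lemma abs_mode_fun_le {e : E → ℝ} (he : UI e) {w : E → E} (hw1 : ∀ y, ‖w y‖ ≤ 1) (c s : ℝ)
    (p : E × E) : |e (c • p.1 + s • p.2) * (Real.sin ⟪p.2, w p.1⟫ * Real.exp (‖w p.1‖ ^ 2 / 2))|
      ≤ Real.exp (1 / 2) := by
  rw [abs_mul, abs_of_nonneg (he.nonneg _), abs_mul, abs_of_pos (Real.exp_pos _)]
  have h1 : Real.exp (‖w p.1‖ ^ 2 / 2) ≤ Real.exp (1 / 2) := by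
    apply Real.exp_le_exp.mpr
    have := hw1 p.1
    have := norm_nonneg (w p.1)
    nlinarith
  have h2 := Real.abs_sin_le_one ⟪p.2, w p.1⟫
  have h3 := Real.exp_pos (‖w p.1‖ ^ 2 / 2)
  have h4 : |Real.sin ⟪p.2, w p.1⟫| * Real.exp (‖w p.1‖ ^ 2 / 2) ≤ Real.exp (1 / 2) := by
    calc _ ≤ 1 * Real.exp (‖w p.1‖ ^ 2 / 2) := mul_le_mul_of_nonneg_right h2 h3.le
      _ ≤ _ := by rw [one_mul]; exact h1
  exact (mul_le_of_le_one_left (by positivity) (he.le_one _)).trans h4

lemma integrable_mode {e : E → ℝ} (he : UI e) {w : E → E} (hw : Measurable w)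
    (hw1 : ∀ y, ‖w y‖ ≤ 1) (c s : ℝ) :
    Integrable (fun p : E × E => e (c • p.1 + s • p.2)
      * (Real.sin ⟪p.2, w p.1⟫ * Real.exp (‖w p.1‖ ^ 2 / 2))) (gg E) :=
  Integrable.of_bound (measurable_mode_fun he hw c s).aestronglyMeasurable (Real.exp (1 / 2))
    (Eventually.of_forall fun p => by
      rw [Real.norm_eq_abs]; exact abs_mode_fun_le he hw1 c s p)

/-- change of the field -/
lemma mode_sub_le {e e' : E → ℝ} (he : UI e) (he' : UI e') {w : E → E} (hw : Measurable w)
    (hw1 : ∀ y, ‖w y‖ ≤ 1) {c s : ℝ} (hcs : c ^ 2 + s ^ 2 = 1) :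
    |mode e' c s w - mode e c s w| ≤ Real.exp (1 / 2) * ∫ x, |e' x - e x| ∂(stdGaussian E) := by
  unfold mode
  rw [← integral_sub (integrable_mode he' hw hw1 c s) (integrable_mode he hw hw1 c s)]
  refine (abs_integral_le_integral_abs).trans ?_
  have hd1 : UI (fun x => |e' x - e x|) := by
    refine ⟨(he'.meas.sub he.meas).abs, fun x => abs_nonneg _, fun x => ?_⟩
    rw [abs_le]
    have := he.nonneg x; have := he.le_one x
    have := he'.nonneg x; have := he'.le_one x
    constructor <;> linarith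
  have h1 := integral_add_smul' (a := c) (b := s) (c := 1) (by rw [hcs]; norm_num) hd1.meas
    (B := 1) (fun x => by rw [abs_of_nonneg (hd1.nonneg x)]; exact hd1.le_one x)
  simp only [one_smul] at h1
  have hi : Integrable (fun p : E × E => |e' (c • p.1 + s • p.2) - e (c • p.1 + s • p.2)|) (gg E) :=
    (UI.comp hd1 (T := fun p : E × E => c • p.1 + s • p.2) (by fun_prop)).integrable _
  rw [← h1, ← integral_prod (fun p : E × E => |e' (c • p.1 + s • p.2) - e (c • p.1 + s • p.2)|) hi,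
    ← integral_const_mul]
  apply integral_mono_of_nonneg (Eventually.of_forall fun p => abs_nonneg _)
    (hi.const_mul _)
  refine Eventually.of_forall fun p => ?_
  simp only []
  rw [← sub_mul, abs_mul, mul_comm]
  apply mul_le_mul_of_nonneg_right _ (abs_nonneg _)
  rw [abs_mul, abs_of_pos (Real.exp_pos _)]
  have h2 : Real.exp (‖w p.1‖ ^ 2 / 2) ≤ Real.exp (1 / 2) := by
    apply Real.exp_le_exp.mpr
    have := hw1 p.1
    have := norm_nonneg (w p.1)
    nlinarith
  calc |Real.sin ⟪p.2, w p.1⟫| * Real.exp (‖w p.1‖ ^ 2 / 2)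
      ≤ 1 * Real.exp (‖w p.1‖ ^ 2 / 2) :=
        mul_le_mul_of_nonneg_right (Real.abs_sin_le_one _) (Real.exp_pos _).le
    _ ≤ _ := by rw [one_mul]; exact h2

/-- one step of the path -/
lemma mode_step {e : E → ℝ} (he : UI e) {v : E} {F : ℝ} (hF : FluxLe e v F) {c s : ℝ}
    (hcs : c ^ 2 + s ^ 2 = 1) (hs : 0 < s) {w : E → E} (hw : Measurable w)
    {κ : E → ℝ} (hκ : Measurable κ) (hκ1 : ∀ y, |κ y| ≤ 1)
    (hw1 : ∀ y, ‖w y‖ ≤ 1) (hw2 : ∀ y, ‖w y + κ y • v‖ ≤ 1) :
    |mode e c s (fun y => w y + κ y • v) - mode e c s w| ≤ s * Real.exp (1 / 2) * F := by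
  -- the interpolated path
  set W : ℝ → E → E := fun u y => w y + (u * κ y) • v with hW
  have hWm : ∀ u, Measurable (W u) := fun u => hw.add ((hκ.const_mul u).smul_const v)
  have hW1 : ∀ u ∈ Icc (0:ℝ) 1, ∀ y, ‖W u y‖ ≤ 1 := by
    intro u hu y
    have e1 : W u y = (1 - u) • w y + u • (w y + κ y • v) := by
      rw [hW]; simp only []; module
    rw [e1]
    refine (norm_add_le _ _).trans ?_
    rw [norm_smul, norm_smul, Real.norm_eq_abs, Real.norm_eq_abs, abs_of_nonneg hu.1,
      abs_of_nonneg (by linarith [hu.2])]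
    have := hw1 y
    have := hw2 y
    nlinarith [hu.1, hu.2]
  set FF : ℝ → E × E → ℝ := fun u p =>
    e (c • p.1 + s • p.2) * (Real.sin ⟪p.2, W u p.1⟫ * Real.exp (‖W u p.1‖ ^ 2 / 2)) with hFF
  set FF' : ℝ → E × E → ℝ := fun u p =>
    e (c • p.1 + s • p.2) * (κ p.1 * (⟪p.2, v⟫ * Real.cos ⟪p.2, W u p.1⟫
      + ⟪W u p.1, v⟫ * Real.sin ⟪p.2, W u p.1⟫) * Real.exp (‖W u p.1‖ ^ 2 / 2)) with hFF'
  have hWp : ∀ u, Measurable (fun p : E × E => W u p.1) := fun u => (hWm u).comp measurable_fst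
  have hin : ∀ u, Measurable (fun p : E × E => ⟪p.2, W u p.1⟫) := fun u =>
    measurable_snd.inner (hWp u)
  have hex : ∀ u, Measurable (fun p : E × E => Real.exp (‖W u p.1‖ ^ 2 / 2)) := fun u =>
    Real.measurable_exp.comp (((hWp u).norm.pow_const 2).div_const 2)
  have hem : Measurable (fun p : E × E => e (c • p.1 + s • p.2)) := he.meas.comp (by fun_prop)
  have hκp : Measurable (fun p : E × E => κ p.1) := hκ.comp measurable_fst
  have hFFm : ∀ u, Measurable (FF u) := fun u => measurable_mode_fun he (hWm u) c s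
  have hFF'm : ∀ u, Measurable (FF' u) := by
    intro u
    refine hem.mul ((hκp.mul (Measurable.add ?_ ?_)).mul (hex u))
    · exact (measurable_snd.inner_const).mul (Real.measurable_cos.comp (hin u))
    · exact ((hWp u).inner_const).mul (Real.measurable_sin.comp (hin u))
  have hκb : ∀ u : ℝ, |u| ≤ 2 → ∀ y, ‖W u y‖ ≤ 1 + 2 * ‖v‖ := by
    intro u hu y
    refine (norm_add_le _ _).trans ?_
    rw [norm_smul, Real.norm_eq_abs, abs_mul]
    have h1 := hw1 y
    have h2 : |u| * |κ y| ≤ 2 * 1 := mul_le_mul hu (hκ1 y) (abs_nonneg _) (by norm_num)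
    have h3 := norm_nonneg v
    nlinarith
  -- derivative at `u₀ ∈ [0,1]`
  have hder : ∀ u₀ ∈ Icc (0:ℝ) 1, HasDerivAt (fun u => ∫ p, FF u p ∂(gg E))
      (∫ p, FF' u₀ p ∂(gg E)) u₀ := by
    intro u₀ hu₀
    set Cw := 1 + 2 * ‖v‖ with hCw
    set bd : E × E → ℝ := fun p => ‖v‖ * Real.exp (Cw ^ 2 / 2) * (‖p.2‖ + Cw) with hbd
    have hbdi : Integrable bd (gg E) := by
      have h0 : Integrable (fun g : E => ‖v‖ * Real.exp (Cw ^ 2 / 2) * (‖g‖ + Cw))
          (stdGaussian E) := (integrable_norm.add (integrable_const _)).const_mul _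
      exact integrable_gg_snd h0
    have hball : ∀ u ∈ Metric.ball u₀ 1, |u| ≤ 2 := by
      intro u hu
      rw [Metric.mem_ball, Real.dist_eq, abs_lt] at hu
      rw [abs_le]
      constructor <;> linarith [hu.1, hu.2, hu₀.1, hu₀.2]
    refine (hasDerivAt_integral_of_dominated_loc_of_deriv_le
      (μ := gg E) (F := FF) (F' := FF') (x₀ := u₀) (s := Metric.ball u₀ 1) (bound := bd)
      (Metric.ball_mem_nhds u₀ one_pos)
      (Eventually.of_forall fun t => (hFFm t).aestronglyMeasurable)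
      (integrable_mode he (hWm u₀) (hW1 u₀ hu₀) c s) (hFF'm u₀).aestronglyMeasurable
      (Eventually.of_forall fun p u hu => ?_) hbdi
      (Eventually.of_forall fun p u _ => ?_)).2
    · have h1 := hκb u (hball u hu) p.1
      rw [hFF', Real.norm_eq_abs, abs_mul, abs_of_nonneg (he.nonneg _)]
      refine (mul_le_of_le_one_left (abs_nonneg _) (he.le_one _)).trans ?_
      rw [abs_mul, abs_mul, abs_of_pos (Real.exp_pos _)]
      have h2 : Real.exp (‖W u p.1‖ ^ 2 / 2) ≤ Real.exp (Cw ^ 2 / 2) := by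
        apply Real.exp_le_exp.mpr
        have := norm_nonneg (W u p.1)
        nlinarith
      have h3 : |⟪p.2, v⟫ * Real.cos ⟪p.2, W u p.1⟫ + ⟪W u p.1, v⟫ * Real.sin ⟪p.2, W u p.1⟫|
          ≤ ‖v‖ * (‖p.2‖ + Cw) := by
        refine (abs_add_le _ _).trans ?_
        rw [abs_mul, abs_mul]
        have h4 := abs_real_inner_le_norm p.2 v
        have h5 := abs_real_inner_le_norm (W u p.1) v
        have h6 := Real.abs_cos_le_one ⟪p.2, W u p.1⟫
        have h7 := Real.abs_sin_le_one ⟪p.2, W u p.1⟫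
        have h8 := norm_nonneg v
        have h9 := norm_nonneg p.2
        have h10 : |⟪p.2, v⟫| * |Real.cos ⟪p.2, W u p.1⟫| ≤ ‖p.2‖ * ‖v‖ * 1 :=
          mul_le_mul h4 h6 (abs_nonneg _) (by positivity)
        have h11 : |⟪W u p.1, v⟫| * |Real.sin ⟪p.2, W u p.1⟫| ≤ Cw * ‖v‖ * 1 :=
          mul_le_mul (h5.trans (mul_le_mul_of_nonneg_right h1 h8)) h7 (abs_nonneg _)
            (by positivity)
        linarith [h10, h11]
      calc |κ p.1| * |⟪p.2, v⟫ * Real.cos ⟪p.2, W u p.1⟫
              + ⟪W u p.1, v⟫ * Real.sin ⟪p.2, W u p.1⟫| * Real.exp (‖W u p.1‖ ^ 2 / 2)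
          ≤ 1 * (‖v‖ * (‖p.2‖ + Cw)) * Real.exp (Cw ^ 2 / 2) := by
            apply mul_le_mul _ h2 (Real.exp_pos _).le (by positivity)
            exact mul_le_mul (hκ1 _) h3 (abs_nonneg _) zero_le_one
        _ = bd p := by rw [hbd]; ring
    · have h1 : HasDerivAt (fun u : ℝ => W u p.1) (κ p.1 • v) u := by
        have h2 := (((hasDerivAt_id u).mul_const (κ p.1)).smul_const v).const_add (w p.1)
        refine h2.congr_deriv ?_
        simp
      have h3 : HasDerivAt (fun u : ℝ => ⟪p.2, W u p.1⟫) (κ p.1 * ⟪p.2, v⟫) u := by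
        have h4 := (hasDerivAt_const u p.2).inner ℝ h1
        refine h4.congr_deriv ?_
        simp [real_inner_smul_right]
      have h5 : HasDerivAt (fun u : ℝ => ‖W u p.1‖ ^ 2 / 2) (κ p.1 * ⟪W u p.1, v⟫) u := by
        have h6 := (h1.norm_sq).div_const 2
        refine h6.congr_deriv ?_
        rw [real_inner_smul_right]; ring
      have h7 := ((h3.sin).mul h5.exp).const_mul (e (c • p.1 + s • p.2))
      refine h7.congr_deriv ?_
      ring
  -- bound of the derivative
  have hbound : ∀ u ∈ Ico (0:ℝ) 1, ‖∫ p, FF' u p ∂(gg E)‖ ≤ s * Real.exp (1 / 2) * F := by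
    intro u hu
    have hW1' := hW1 u ⟨hu.1, hu.2.le⟩
    have hexp : ∀ y, Real.exp (‖W u y‖ ^ 2 / 2) ≤ Real.exp (1 / 2) := by
      intro y
      apply Real.exp_le_exp.mpr
      have := hW1' y
      have := norm_nonneg (W u y)
      nlinarith
    rw [Real.norm_eq_abs]
    have h := flux_pair he hF hcs hs
      (Ψ := fun y g => κ y * (Real.cos ⟪g, W u y⟫ * Real.exp (‖W u y‖ ^ 2 / 2)))
      (Ψ' := fun y g => -(κ y * (⟪W u y, v⟫ * Real.sin ⟪g, W u y⟫ * Real.exp (‖W u y‖ ^ 2 / 2))))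
      (B := Real.exp (1 / 2)) (B' := ‖v‖ * Real.exp (1 / 2)) ?_ ?_ ?_ ?_ ?_
    · refine le_trans (le_of_eq ?_) h
      congr 1
      congr 1; funext p
      rw [hFF']
      simp only []
      rw [real_inner_comm p.2 v]
      ring
    · exact hκp.mul ((Real.measurable_cos.comp (hin u)).mul (hex u))
    · exact (hκp.mul ((((hWp u).inner_const).mul (Real.measurable_sin.comp (hin u))).mul
        (hex u))).neg
    · intro y g
      rw [abs_mul, abs_mul, abs_of_pos (Real.exp_pos _)]
      have h1 := hκ1 y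
      have h2 := Real.abs_cos_le_one ⟪g, W u y⟫
      have h3 := hexp y
      have h4 : |Real.cos ⟪g, W u y⟫| * Real.exp (‖W u y‖ ^ 2 / 2) ≤ 1 * Real.exp (1 / 2) :=
        mul_le_mul h2 h3 (Real.exp_pos _).le zero_le_one
      calc |κ y| * (|Real.cos ⟪g, W u y⟫| * Real.exp (‖W u y‖ ^ 2 / 2))
          ≤ 1 * (1 * Real.exp (1 / 2)) := mul_le_mul h1 h4 (by positivity) zero_le_one
        _ = _ := by ring
    · intro y g
      rw [abs_neg, abs_mul, abs_mul, abs_mul, abs_of_pos (Real.exp_pos _)]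
      have h1 := hκ1 y
      have h2 := Real.abs_sin_le_one ⟪g, W u y⟫
      have h3 := hexp y
      have h5 : |⟪W u y, v⟫| ≤ ‖v‖ := by
        refine (abs_real_inner_le_norm _ _).trans ?_
        exact mul_le_of_le_one_left (norm_nonneg _) (hW1' y)
      have h6 : |⟪W u y, v⟫| * |Real.sin ⟪g, W u y⟫| ≤ ‖v‖ * 1 :=
        mul_le_mul h5 h2 (abs_nonneg _) (norm_nonneg _)
      calc |κ y| * (|⟪W u y, v⟫| * |Real.sin ⟪g, W u y⟫| * Real.exp (‖W u y‖ ^ 2 / 2))
          ≤ 1 * (‖v‖ * 1 * Real.exp (1 / 2)) := by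
            apply mul_le_mul h1 _ (by positivity) zero_le_one
            exact mul_le_mul h6 h3 (Real.exp_pos _).le (by positivity)
        _ = _ := by ring
    · intro y g τ
      have h1 : HasDerivAt (fun τ : ℝ => ⟪g + τ • v, W u y⟫) ⟪v, W u y⟫ τ := by
        have h2 := (((hasDerivAt_id τ).smul_const v).const_add g).inner ℝ
          (hasDerivAt_const τ (W u y))
        refine h2.congr_deriv ?_
        simp
      have h3 := ((h1.cos).mul_const (Real.exp (‖W u y‖ ^ 2 / 2))).const_mul (κ y)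
      refine h3.congr_deriv ?_
      rw [real_inner_comm (W u y) v]
      ring
  have hmain := norm_image_sub_le_of_norm_deriv_le_segment_01'
    (f := fun u => ∫ p, FF u p ∂(gg E)) (f' := fun u => ∫ p, FF' u p ∂(gg E))
    (C := s * Real.exp (1 / 2) * F)
    (fun u hu => (hder u hu).hasDerivWithinAt) hbound
  have e1 : ∫ p, FF 1 p ∂(gg E) = mode e c s (fun y => w y + κ y • v) := by
    unfold mode
    congr 1; funext p
    simp only [hFF, hW, one_mul]
  have e0 : ∫ p, FF 0 p ∂(gg E) = mode e c s w := by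
    unfold mode
    congr 1; funext p
    simp only [hFF, hW, zero_mul, zero_smul, add_zero]
  rw [e1, e0, Real.norm_eq_abs] at hmain
  exact hmain

/-- **Path bound**: the mode at the end of a path with bounded intermediate sums is controlled by the
total flux of the fields in the step directions plus the total variation of the fields. -/
theorem path_bound {e : ℕ → E → ℝ} (he : ∀ t, UI (e t)) {v : ℕ → E} {F : ℕ → ℝ} {c s : ℝ}
    (hcs : c ^ 2 + s ^ 2 = 1) (hs : 0 < s) {κ : ℕ → E → ℝ} (hκm : ∀ t, Measurable (κ t))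
    (hκ : ∀ t y, |κ t y| ≤ 1) (n : ℕ) (hF : ∀ t < n, FluxLe (e t) (v t) (F t))
    (hw : ∀ t ≤ n, ∀ y, ‖∑ r ∈ Finset.range t, κ r y • v r‖ ≤ 1) :
    |mode (e n) c s (fun y => ∑ r ∈ Finset.range n, κ r y • v r)|
      ≤ Real.exp (1 / 2) * ∑ t ∈ Finset.range n,
        (s * F t + ∫ x, |e (t + 1) x - e t x| ∂(stdGaussian E)) := by
  have hwm : ∀ t, Measurable (fun y => ∑ r ∈ Finset.range t, κ r y • v r) := fun t =>
    Finset.measurable_sum _ fun r _ => (hκm r).smul_const (v r)
  induction n with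
  | zero => simp [mode]
  | succ n ih =>
    have ih' := ih (fun t ht => hF t (Nat.lt_succ_of_lt ht)) (fun t ht => hw t (Nat.le_succ_of_le ht))
    have h1 := mode_step (he n) (hF n (Nat.lt_succ_self n)) hcs hs (hwm n) (hκm n) (hκ n)
      (hw n (Nat.le_succ n)) (fun y => by
        have := hw (n + 1) le_rfl y
        rwa [Finset.sum_range_succ] at this)
    have h2 := mode_sub_le (he n) (he (n + 1)) (hwm (n + 1)) (hw (n + 1) le_rfl) hcs
    have e1 : (fun y => ∑ r ∈ Finset.range n, κ r y • v r + κ n y • v n)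
        = fun y => ∑ r ∈ Finset.range (n + 1), κ r y • v r := by
      funext y; rw [Finset.sum_range_succ]
    rw [e1] at h1
    rw [Finset.sum_range_succ, mul_add]
    have h3 := abs_sub_abs_le_abs_sub (mode (e (n + 1)) c s
      (fun y => ∑ r ∈ Finset.range (n + 1), κ r y • v r)) (mode (e n) c s
      (fun y => ∑ r ∈ Finset.range (n + 1), κ r y • v r))
    have h4 := abs_sub_abs_le_abs_sub (mode (e n) c s
      (fun y => ∑ r ∈ Finset.range (n + 1), κ r y • v r)) (mode (e n) c s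
      (fun y => ∑ r ∈ Finset.range n, κ r y • v r))
    have h5 : s * Real.exp (1 / 2) * F n = Real.exp (1 / 2) * (s * F n) := by ring
    rw [mul_add]
    linarith

end Vale.Agent.P262.H941
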