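import Vale.Agent.P262.H847.EhrCor
import Vale.Agent.P262.EB.Phi

/-!
# The Gaussian isoperimetric profile
-/

set_option linter.unusedSectionVars false

namespace Vale.Agent.P262.H941

open MeasureTheory ProbabilityTheory Set Filter Topology
open Vale.Agent.P262.H847

lemma phi_bridge (x : ℝ) : EB.phi x = phi x := EB.phi_eq_pdf x

lemma Phi_bridge (x : ℝ) : EB.Phi x = Phi x := EB.Phi_eq_measure x

lemma Phi_taylor (c y : ℝ) : |Phi y - Phi c - phi c * (y - c)| ≤ (y - c) ^ 2 := by
  have := EB.Phi_taylor1 c y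
  rwa [Phi_bridge, Phi_bridge, phi_bridge] at this

lemma phi_lip (x y : ℝ) : |phi y - phi x| ≤ |y - x| := by
  have := EB.abs_phi_sub_le x y
  rwa [phi_bridge, phi_bridge] at this

lemma abs_mul_phi (x : ℝ) : |x| * phi x ≤ 1 := by
  have := EB.abs_mul_phi_le x
  rwa [phi_bridge, abs_mul, abs_neg, abs_of_pos (phi_pos x)] at this

lemma sq_mul_phi (x : ℝ) : x ^ 2 * phi x ≤ 2 := by
  have := (abs_le.mp (EB.abs_phi''_le x)).2
  rw [phi_bridge] at this
  have h := phi_le_one x
  nlinarith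

lemma phi_anti' {x y : ℝ} (h : |x| ≤ |y|) : phi y ≤ phi x := by
  have h1 := EB.phi_anti h
  rw [phi_bridge, phi_bridge] at h1
  rcases abs_choice y with h2 | h2
  · rwa [h2] at h1
  · rwa [h2, phi_neg] at h1

/-- tangent inequality for the isoperimetric profile -/
lemma tangent (a b : ℝ) : phi a + b * (Phi a - Phi b) ≤ phi b := by
  set h : ℝ → ℝ := fun a => phi b - b * (Phi a - Phi b) - phi a with hh
  have hd : ∀ x, HasDerivAt h ((x - b) * phi x) x := by
    intro x
    have h1 := (((hasDerivAt_Phi x).sub_const (Phi b)).const_mul b)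
    have h2 := ((hasDerivAt_const x (phi b)).sub h1).sub (hasDerivAt_phi x)
    refine h2.congr_deriv ?_
    ring
  have hb : h b = 0 := by simp [hh]
  have key : 0 ≤ h a := by
    rcases lt_trichotomy a b with hab | hab | hab
    · obtain ⟨c, hc, hc2⟩ := exists_hasDerivAt_eq_slope h (fun x => (x - b) * phi x) hab
        (fun x _ => (hd x).continuousAt.continuousWithinAt) (fun x _ => hd x)
      have h3 : (c - b) * phi c ≤ 0 :=
        mul_nonpos_of_nonpos_of_nonneg (by linarith [hc.2]) (phi_pos c).le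
      rw [hc2, hb, zero_sub, div_nonpos_iff] at h3
      rcases h3 with h3 | h3
      · linarith [h3.2]
      · linarith [h3.1]
    · rw [hab, hb]
    · obtain ⟨c, hc, hc2⟩ := exists_hasDerivAt_eq_slope h (fun x => (x - b) * phi x) hab
        (fun x _ => (hd x).continuousAt.continuousWithinAt) (fun x _ => hd x)
      have h3 : 0 ≤ (c - b) * phi c := mul_nonneg (by linarith [hc.1]) (phi_pos c).le
      rw [hc2, hb, sub_zero, div_nonneg_iff] at h3
      rcases h3 with h3 | h3
      · exact h3.1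
      · linarith [h3.2]
  simp only [hh] at key
  linarith

lemma mills (z : ℝ) : 0 ≤ phi z + z * Phi z := by
  have h1 : Tendsto (fun a => z * (Phi a - Phi z)) atBot (𝓝 (z * (0 - Phi z))) :=
    (tendsto_Phi_atBot.sub_const _).const_mul _
  have h2 : z * (0 - Phi z) ≤ phi z := by
    apply le_of_tendsto' h1
    intro a
    have := tangent a z
    have := phi_pos a
    linarith
  linarith

lemma Phi_neg_le {x : ℝ} (hx : 1 ≤ x) : Phi (-x) ≤ phi x := by
  have h := mills (-x)
  rw [phi_neg] at h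
  have := Phi_pos (-x)
  nlinarith

lemma Phi_neg_ge {x : ℝ} (hx : 0 ≤ x) : phi (x + 1) ≤ Phi (-x) := by
  obtain ⟨c, hc, hc2⟩ := exists_hasDerivAt_eq_slope Phi phi (show -x - 1 < -x by linarith)
        (fun x _ => (hasDerivAt_Phi x).continuousAt.continuousWithinAt)
        (fun x _ => hasDerivAt_Phi x)
  have h1 : phi (x + 1) ≤ phi c := by
    apply phi_anti'
    rw [abs_of_nonneg (by linarith : 0 ≤ x + 1), abs_le]
    constructor <;> linarith [hc.1, hc.2]
  have h2 : phi c = Phi (-x) - Phi (-x - 1) := by rw [hc2]; simp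
  have := Phi_pos (-x - 1)
  linarith

/-- the isoperimetric profile, extended by zero -/
noncomputable def Ip (t : ℝ) : ℝ := if 0 < t ∧ t < 1 then phi (Psi t) else 0

lemma Ip_Phi (x : ℝ) : Ip (Phi x) = phi x := by
  rw [Ip, if_pos ⟨Phi_pos x, Phi_lt_one x⟩, Psi_Phi]

lemma Ip_nonneg (t : ℝ) : 0 ≤ Ip t := by
  unfold Ip; split_ifs
  · exact (phi_pos _).le
  · exact le_rfl

lemma Ip_le_one (t : ℝ) : Ip t ≤ 1 := by
  unfold Ip; split_ifs
  · exact phi_le_one _
  · exact zero_le_one

lemma Ip_of_nonpos {t : ℝ} (h : t ≤ 0) : Ip t = 0 := by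
  rw [Ip, if_neg]; rintro ⟨h1, _⟩; linarith

lemma Ip_of_one_le {t : ℝ} (h : 1 ≤ t) : Ip t = 0 := by
  rw [Ip, if_neg]; rintro ⟨_, h1⟩; linarith

lemma Ip_symm (t : ℝ) : Ip (1 - t) = Ip t := by
  by_cases h : 0 < t ∧ t < 1
  · obtain ⟨x, rfl⟩ := exists_Phi_eq h.1 h.2
    rw [← Phi_neg, Ip_Phi, Ip_Phi, phi_neg]
  · have h' : ¬ (0 < 1 - t ∧ 1 - t < 1) := fun h' => h ⟨by linarith [h'.2], by linarith [h'.1]⟩
    rw [Ip, Ip, if_neg h, if_neg h']

lemma Ip_tangent {t : ℝ} (h0 : 0 ≤ t) (h1 : t ≤ 1) (z : ℝ) : Ip t ≤ phi z - z * (t - Phi z) := by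
  rcases h0.eq_or_lt with rfl | h0
  · rw [Ip_of_nonpos le_rfl]
    have := mills z
    linarith
  rcases h1.eq_or_lt with rfl | h1
  · rw [Ip_of_one_le le_rfl]
    have := mills (-z)
    rw [phi_neg, Phi_neg] at this
    linarith
  obtain ⟨x, rfl⟩ := exists_Phi_eq h0 h1
  rw [Ip_Phi]
  have := tangent x z
  linarith

lemma Ip_le_sqrt (t : ℝ) : Ip t ≤ 2 * Real.sqrt |t| := by
  by_cases h : 0 < t ∧ t < 1
  · set n := 1 / Real.sqrt t with hn
    have hs : 0 < Real.sqrt t := Real.sqrt_pos.mpr h.1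
    have hn0 : 0 < n := by positivity
    have h1 := Ip_tangent h.1.le h.2.le (-n)
    have h2 : 0 ≤ Phi (-n) := Phi_nonneg _
    have h3 := abs_mul_phi n
    rw [abs_of_pos hn0] at h3
    rw [phi_neg] at h1
    have h4 : phi n ≤ Real.sqrt t := by
      rw [hn] at h3 ⊢
      rw [one_div, inv_mul_le_iff₀ hs, mul_one] at h3
      rw [one_div]
      exact h3
    have h5 : n * t = Real.sqrt t := by
      rw [hn, one_div, inv_mul_eq_iff_eq_mul₀ hs.ne']
      exact (Real.mul_self_sqrt h.1.le).symm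
    rw [abs_of_pos h.1]
    nlinarith
  · rw [Ip, if_neg h]
    positivity

lemma continuous_Ip : Continuous Ip := by
  rw [continuous_iff_continuousAt]
  have hz : ContinuousAt Ip 0 := by
    have h0 : Ip 0 = 0 := Ip_of_nonpos le_rfl
    rw [ContinuousAt, h0]
    have h1 : Tendsto (fun t : ℝ => 2 * Real.sqrt |t|) (𝓝 0) (𝓝 0) := by
      have : Continuous (fun t : ℝ => 2 * Real.sqrt |t|) := by fun_prop
      have h2 := this.tendsto 0
      simpa using h2
    exact squeeze_zero (fun t => Ip_nonneg t) (fun t => Ip_le_sqrt t) h1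
  intro t
  rcases lt_trichotomy t 0 with h | h | h
  · have : Ip =ᶠ[𝓝 t] fun _ => 0 := by
      filter_upwards [gt_mem_nhds h] with q hq
      exact Ip_of_nonpos (le_of_lt hq)
    exact (continuousAt_const (y := (0:ℝ))).congr this.symm
  · rw [h]; exact hz
  rcases lt_trichotomy t 1 with h1 | h1 | h1
  · have : Ip =ᶠ[𝓝 t] fun t => phi (Psi t) := by
      filter_upwards [Ioo_mem_nhds h h1] with q hq
      rw [Ip, if_pos ⟨hq.1, hq.2⟩]
    refine ContinuousAt.congr ?_ this.symm
    exact continuous_phi.continuousAt.comp (continuousOn_Psi.continuousAt (Ioo_mem_nhds h h1))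
  · subst h1
    have e : Ip = fun t => Ip (1 - t) := funext fun t => (Ip_symm t).symm
    rw [e]
    have h2 : ContinuousAt (fun t : ℝ => 1 - t) 1 := by fun_prop
    exact ContinuousAt.comp (f := fun t : ℝ => 1 - t) (g := Ip) (by simpa using hz) h2
  · have : Ip =ᶠ[𝓝 t] fun _ => 0 := by
      filter_upwards [lt_mem_nhds h1] with q hq
      exact Ip_of_one_le (le_of_lt hq)
    exact (continuousAt_const (y := (0:ℝ))).congr this.symm

lemma measurable_Ip : Measurable Ip := continuous_Ip.measurable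

/-- Jensen for the profile -/
lemma Ip_jensen {Ω : Type*} [MeasurableSpace Ω] {μ : Measure Ω} [IsProbabilityMeasure μ]
    {u : Ω → ℝ} (hu : UI u) : ∫ x, Ip (u x) ∂μ ≤ Ip (∫ x, u x ∂μ) := by
  have hi := hu.integrable μ
  have hI : Integrable (fun x => Ip (u x)) μ :=
    Integrable.of_bound (measurable_Ip.comp hu.meas).aestronglyMeasurable 1
      (Eventually.of_forall fun x => by
        rw [Real.norm_eq_abs, abs_of_nonneg (Ip_nonneg _)]; exact Ip_le_one _)
  have h0 : 0 ≤ ∫ x, u x ∂μ := integral_nonneg hu.nonneg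
  have h1 : ∫ x, u x ∂μ ≤ 1 := by
    calc ∫ x, u x ∂μ ≤ ∫ _x, (1:ℝ) ∂μ := integral_mono hi (integrable_const _) hu.le_one
      _ = 1 := by simp
  have hle : ∀ z : ℝ, ∫ x, Ip (u x) ∂μ ≤ phi z - z * (∫ x, u x ∂μ - Phi z) := by
    intro z
    calc ∫ x, Ip (u x) ∂μ ≤ ∫ x, (phi z - z * (u x - Phi z)) ∂μ :=
          integral_mono hI ((integrable_const _).sub ((hi.sub (integrable_const _)).const_mul z))
            (fun x => Ip_tangent (hu.nonneg x) (hu.le_one x) z)
      _ = phi z - z * (∫ x, u x ∂μ - Phi z) := by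
          have hi2 : Integrable (fun x => u x - Phi z) μ := hi.sub (integrable_const _)
          rw [integral_sub (integrable_const _) (hi2.const_mul z),
            integral_const_mul, integral_sub hi (integrable_const _)]
          simp
  rcases h0.eq_or_lt with h | h0
  · have h2 : u =ᵐ[μ] 0 := (integral_eq_zero_iff_of_nonneg hu.nonneg hi).mp h.symm
    have h3 : ∫ x, Ip (u x) ∂μ = 0 := by
      apply integral_eq_zero_of_ae
      filter_upwards [h2] with x hx
      rw [hx]; exact Ip_of_nonpos le_rfl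
    rw [h3]; exact Ip_nonneg _
  rcases h1.eq_or_lt with h | h1
  · have h2 : (fun x => 1 - u x) =ᵐ[μ] 0 := by
      have hi2 : Integrable (fun x => 1 - u x) μ := (integrable_const _).sub hi
      apply (integral_eq_zero_iff_of_nonneg (fun x => by
        show 0 ≤ 1 - u x; linarith [hu.le_one x]) hi2).mp
      rw [integral_sub (integrable_const _) hi, h]; simp
    have h3 : ∫ x, Ip (u x) ∂μ = 0 := by
      apply integral_eq_zero_of_ae
      filter_upwards [h2] with x hx
      have : u x = 1 := by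
        have : 1 - u x = 0 := hx
        linarith
      rw [this]; exact Ip_of_one_le le_rfl
    rw [h3]; exact Ip_nonneg _
  obtain ⟨z, hz⟩ := exists_Phi_eq h0 h1
  have := hle z
  rw [← hz, Ip_Phi]
  rw [← hz] at this
  linarith

/-- explicit upper bound of the profile -/
lemma Ip_le_log {t : ℝ} (h0 : 0 < t) (h1 : t ≤ 1) :
    Ip t ≤ t * (Real.sqrt (2 * Real.log (1 / t)) + 1 / 2) := by
  set x := Real.sqrt (2 * Real.log (1 / t)) with hx
  have hL : 0 ≤ Real.log (1 / t) := Real.log_nonneg (by rw [le_div_iff₀ h0]; linarith)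
  have hx2 : x ^ 2 = 2 * Real.log (1 / t) := Real.sq_sqrt (by positivity)
  have h := Ip_tangent h0.le h1 (-x)
  have hp : phi x ≤ t / 2 := by
    rw [phi_eq, hx2]
    have e1 : -(2 * Real.log (1 / t)) / 2 = Real.log t := by
      rw [one_div, Real.log_inv]; ring
    rw [e1, Real.exp_log h0]
    have h2 : (Real.sqrt (2 * Real.pi))⁻¹ ≤ 1 / 2 := by
      rw [one_div]
      apply inv_anti₀ (by norm_num)
      rw [Real.le_sqrt (by norm_num) (by positivity)]
      nlinarith [Real.pi_gt_three]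
    nlinarith
  rw [phi_neg] at h
  have hP := Phi_nonneg (-x)
  have hx0 : 0 ≤ x := Real.sqrt_nonneg _
  nlinarith [mul_nonneg hx0 hP]

/-! ### second order bounds -/

lemma Phi_shrink (s b : ℝ) (h0 : 0 ≤ b) (h1 : b ≤ 1 / 2) : Phi ((1 - b) * s) ≤ Phi s + 2 * b := by
  rcases le_or_gt 0 s with hs | hs
  · have : Phi ((1 - b) * s) ≤ Phi s := strictMono_Phi.monotone (by nlinarith)
    linarith
  rcases h0.eq_or_lt with rfl | hb
  · simp
  obtain ⟨c, hc, hc2⟩ := exists_hasDerivAt_eq_slope Phi phi (show s < (1 - b) * s by nlinarith)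
        (fun x _ => (hasDerivAt_Phi x).continuousAt.continuousWithinAt)
        (fun x _ => hasDerivAt_Phi x)
  have h2 : phi c * ((1 - b) * s - s) = Phi ((1 - b) * s) - Phi s := by
    have hne : (1 - b) * s - s ≠ 0 := by nlinarith
    rw [hc2, div_mul_cancel₀ _ hne]
  have h3 : phi c ≤ phi (s / 2) := by
    apply phi_anti'
    have : c ≤ s / 2 := by nlinarith [hc.2]
    rw [abs_of_neg (by linarith), abs_of_neg (by linarith)]
    linarith
  have h4 := abs_mul_phi (s / 2)
  rw [abs_of_neg (by linarith)] at h4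
  have h5 : phi c * ((1 - b) * s - s) ≤ phi (s / 2) * (b * -s) := by
    have : (1 - b) * s - s = b * -s := by ring
    rw [this]
    apply mul_le_mul_of_nonneg_right h3
    nlinarith
  nlinarith

lemma phi_shrink (s b : ℝ) (h0 : 0 ≤ b) (h1 : b ≤ 1 / 2) : phi ((1 - b) * s) ≤ phi s + 4 * b := by
  wlog hs : 0 ≤ s generalizing s
  · have := this (-s) (by linarith)
    rwa [phi_neg, mul_neg, phi_neg] at this
  rcases hs.eq_or_lt with rfl | hs
  · simp; exact h0
  rcases h0.eq_or_lt with rfl | hb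
  · simp
  obtain ⟨c, hc, hc2⟩ := exists_hasDerivAt_eq_slope phi (fun x => -x * phi x)
        (show (1 - b) * s < s by nlinarith)
        (fun x _ => (hasDerivAt_phi x).continuousAt.continuousWithinAt)
        (fun x _ => hasDerivAt_phi x)
  have h2 : (-c * phi c) * (s - (1 - b) * s) = phi s - phi ((1 - b) * s) := by
    have hne : s - (1 - b) * s ≠ 0 := by nlinarith
    rw [hc2, div_mul_cancel₀ _ hne]
  have h3 := sq_mul_phi c
  have hc0 : 0 < c := lt_of_le_of_lt (by nlinarith) hc.1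
  have hsc : s ≤ 2 * c := by nlinarith [hc.1]
  have h4 : c * phi c * (b * s) ≤ 4 * b := by
    calc c * phi c * (b * s) ≤ c * phi c * (b * (2 * c)) := by
          apply mul_le_mul_of_nonneg_left _ (mul_nonneg hc0.le (phi_pos c).le)
          exact mul_le_mul_of_nonneg_left hsc hb.le
      _ = 2 * b * (c ^ 2 * phi c) := by ring
      _ ≤ 2 * b * 2 := mul_le_mul_of_nonneg_left h3 (by linarith)
      _ = 4 * b := by ring
  have h5 : (-c * phi c) * (s - (1 - b) * s) = -(c * phi c * (b * s)) := by ring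
  linarith

lemma Phi_up (s ε : ℝ) (h0 : 0 ≤ ε) (h1 : ε ≤ 1 / 2) :
    Phi ((1 - ε ^ 2) * s + ε) ≤ Phi s + ε * phi s + 7 * ε ^ 2 := by
  have hb0 : 0 ≤ ε ^ 2 := sq_nonneg _
  have hb1 : ε ^ 2 ≤ 1 / 2 := by nlinarith
  have h2 := Phi_shrink s _ hb0 hb1
  have h3 := phi_shrink s _ hb0 hb1
  have h4 := (abs_le.mp (Phi_taylor ((1 - ε ^ 2) * s) ((1 - ε ^ 2) * s + ε))).2
  have e : (1 - ε ^ 2) * s + ε - (1 - ε ^ 2) * s = ε := by ring
  rw [e] at h4
  nlinarith [mul_le_mul_of_nonneg_left h3 h0]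

end Vale.Agent.P262.H941
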