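import Vale.Agent.P262.H941.GainCost3

/-!
# `ScaleBds` from flux bounds and `L¹` changes
-/

set_option linter.unusedSectionVars false

namespace Vale.Agent.P262.H941

open MeasureTheory ProbabilityTheory Set Filter Topology Module
open scoped RealInnerProductSpace
open Vale.Agent.P262.H847 Vale.Agent.P262.H912
open Vale.Agent.P262.H274 (Slow SlowEx PivotAt Cost Gam)

variable {E : Type*} [NormedAddCommGroup E] [InnerProductSpace ℝ E] [FiniteDimensional ℝ E]
  [MeasurableSpace E] [BorelSpace E]

noncomputable section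

/-- flux bounds plus `L¹` changes of the fields give the scale bounds -/
theorem ScaleBds.of_flux {f : ℕ → E → ℝ} (hf : ∀ t, UI (f t)) {v : ℕ → E} {F g : ℕ → ℝ} {N : ℝ}
    (hN : 0 ≤ N) {a b : ℕ} (hF : ∀ t, a ≤ t → t < b → FluxLe (f t) (v t) (F t))
    (hg : ∀ t, a ≤ t → t < b → gain F f t ≤ g t) : ScaleBds f v g N a b := by
  have hF0 : ∀ t, a ≤ t → t < b → 0 ≤ F t := fun t h1 h2 => (hF t h1 h2).nonneg
  have hgn : ∀ t, a ≤ t → t < b → 0 ≤ gain F f t := fun t h1 h2 =>
    add_nonneg (hF0 t h1 h2) (integral_nonneg fun _ => abs_nonneg _)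
  have hG : ∀ l u, a ≤ l → u ≤ b → Gam (gain F f) l u ≤ Gam g l u := by
    intro l u h1 h2
    unfold Gam
    apply Finset.sum_le_sum
    intro t ht
    rw [Finset.mem_Ico] at ht
    exact hg t (by omega) (by omega)
  have hG0 : ∀ l u, a ≤ l → u ≤ b → 0 ≤ Gam (gain F f) l u := by
    intro l u h1 h2
    unfold Gam
    apply Finset.sum_nonneg
    intro t ht
    rw [Finset.mem_Ico] at ht
    exact hgn t (by omega) (by omega)
  have h4 : ∀ s : ℝ, 0 < s → s ≤ 1 → ∀ l u, a ≤ l → u ≤ b →
      Gam (gain F f) l u ≤ 4 / s * Gam g l u := by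
    intro s hs hs1 l u h1 h2
    have h3 : 1 ≤ 4 / s := by rw [le_div_iff₀ hs]; linarith
    have h5 := hG l u h1 h2
    have h6 := hG0 l u h1 h2
    nlinarith
  refine ⟨fun t h1 h2 => (hgn t h1 h2).trans (hg t h1 h2), ?_, ?_, ?_⟩
  · intro l u hal hlu hub s hs hs1 P lam hP ε T hε hε1 hT
    have hcs : Real.sqrt (1 - s ^ 2) ^ 2 + s ^ 2 = 1 := by
      rw [Real.sq_sqrt (by nlinarith)]; ring
    have h1 := supp_bound (e := fun r => f (l + r)) (fun r => hf (l + r))
      (v := fun r => v (l + r)) (F := fun r => F (l + r)) hcs hs hs1 (u - l)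
      (fun r hr => hF (l + r) (by omega) (by omega)) hN hP hε hε1 hT
    have hlu' : l + (u - l) = u := by omega
    have e : ∑ t ∈ Finset.range (u - l),
        (F (l + t) + ∫ x, |f (l + (t + 1)) x - f (l + t) x| ∂(stdGaussian E))
        = Gam (gain F f) l u := by
      unfold Gam
      rw [Finset.sum_Ico_eq_sum_range]
      rfl
    simp only [hlu'] at h1
    rw [e] at h1
    refine h1.trans ?_
    have h5 := mul_le_mul_of_nonneg_left (h4 s hs hs1 l u hal hub) (Real.exp_pos (1 / 2)).le
    linarith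
  · intro t u hat htu hub s hs hs1 T hT
    have hcs : Real.sqrt (1 - s ^ 2) ^ 2 + s ^ 2 = 1 := by
      rw [Real.sq_sqrt (by nlinarith)]; ring
    have h1 := mom_change (hf t) (hf u) hcs hT
    have h2 := change_le_gam (F := F) hf htu (fun r h1 h2 => hF0 r (by omega) (by omega))
    have h3 := h4 s hs hs1 t u hat hub
    have h5 := mul_le_mul_of_nonneg_left (h2.trans h3) (by linarith : (0:ℝ) ≤ 2 * T)
    linarith
  · intro t u hat htu hub
    rw [← integral_sub ((hf t).integrable _) ((hf u).integrable _)]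
    refine (abs_integral_le_integral_abs).trans ?_
    exact (change_le_gam (F := F) hf htu (fun r h1 h2 => hF0 r (by omega) (by omega))).trans
      (hG t u hat hub)

end

end Vale.Agent.P262.H941
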