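import Vale.Agent.P262.H941.Iso
import Vale.Agent.P262.H912.Shift

/-!
# One step of multiscale isoperimetry
-/

set_option linter.unusedSectionVars false

namespace Vale.Agent.P262.H941

open MeasureTheory ProbabilityTheory Set Filter Topology
open scoped RealInnerProductSpace
open Vale.Agent.P262.H847 Vale.Agent.P262.H912

variable {E : Type*} [NormedAddCommGroup E] [InnerProductSpace ℝ E] [FiniteDimensional ℝ E]
  [MeasurableSpace E] [BorelSpace E]

/-! ### Exponential moments -/

lemma integral_exp_inner (h : E) :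
    ∫ x, Real.exp (⟪h, x⟫ - ‖h‖ ^ 2 / 2) ∂(stdGaussian E) = 1 := by
  have h1 := real_add_mem (E := E) MeasurableSet.univ h
  simp only [mem_univ, ofPred_true, setIntegral_univ] at h1
  rw [← h1]
  simp

lemma integrable_norm : Integrable (fun x : E => ‖x‖) (stdGaussian E) := by
  refine (integrable_one_add_sq (E := E)).mono' (by fun_prop) (Eventually.of_forall fun x => ?_)
  rw [Real.norm_eq_abs, abs_of_nonneg (norm_nonneg x)]
  nlinarith [norm_nonneg x]

lemma integrable_id' : Integrable (fun x : E => x) (stdGaussian E) :=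
  integrable_norm.mono' (by fun_prop) (Eventually.of_forall fun x => le_rfl)

lemma integrable_inner (h : E) : Integrable (fun x : E => ⟪h, x⟫) (stdGaussian E) := by
  refine (integrable_norm.const_mul ‖h‖).mono' (by fun_prop) (Eventually.of_forall fun x => ?_)
  exact norm_inner_le_norm h x

lemma integral_inner (h : E) : ∫ x : E, ⟪h, x⟫ ∂(stdGaussian E) = 0 := by
  have := integral_strongDual_stdGaussian (innerSL ℝ h)
  simpa using this

lemma UI.integrable_smul {f : E → ℝ} (hf : UI f) :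
    Integrable (fun x => f x • x) (stdGaussian E) := by
  refine integrable_norm.mono' (hf.meas.smul measurable_id).aestronglyMeasurable
    (Eventually.of_forall fun x => ?_)
  rw [norm_smul, Real.norm_eq_abs, abs_of_nonneg (hf.nonneg x)]
  exact mul_le_of_le_one_left (norm_nonneg x) (hf.le_one x)

/-- the shift of a Gaussian average -/
lemma integral_shift {f : E → ℝ} (hf : UI f) (w : E) :
    ∫ g, f (g + w) ∂(stdGaussian E)
      = ∫ g, f g * Real.exp (⟪w, g⟫ - ‖w‖ ^ 2 / 2) ∂(stdGaussian E) := by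
  have h1 : ∫ g, f (g + w) ∂(stdGaussian E)
      = ∫ g, f g ∂((stdGaussian E).map (fun x => x + w)) := by
    rw [integral_map (by fun_prop) hf.meas.aestronglyMeasurable]
  rw [h1, map_add_stdGaussian, integral_withDensity_eq_integral_toReal_smul (by fun_prop)
    (Eventually.of_forall fun x => ENNReal.ofReal_lt_top)]
  congr 1
  funext x
  rw [ENNReal.toReal_ofReal (Real.exp_pos _).le, smul_eq_mul, mul_comm]

/-- **semiconvexity** of Gaussian averages (exact constant) -/
lemma shift_upper {f : E → ℝ} (hf : UI f) (w : E) :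
    ∫ g, f (g + w) ∂(stdGaussian E)
      ≤ ∫ g, f g ∂(stdGaussian E) + ⟪w, ∫ g, f g • g ∂(stdGaussian E)⟫ + ‖w‖ ^ 2 / 2 := by
  rw [integral_shift hf]
  have hexp := integrable_exp_inner (E := E) w (‖w‖ ^ 2 / 2)
  have hi1 : Integrable (fun g => f g * ⟪w, g⟫) (stdGaussian E) := by
    refine (integrable_inner w).norm.mono' (hf.meas.mul (by fun_prop)).aestronglyMeasurable
      (Eventually.of_forall fun x => ?_)
    rw [norm_mul, Real.norm_eq_abs, abs_of_nonneg (hf.nonneg x)]
    exact mul_le_of_le_one_left (norm_nonneg _) (hf.le_one x)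
  have e1 : ⟪w, ∫ g, f g • g ∂(stdGaussian E)⟫ = ∫ g, f g * ⟪w, g⟫ ∂(stdGaussian E) := by
    have e2 := (innerSL ℝ w).integral_comp_comm (UI.integrable_smul hf)
    simp only [innerSL_apply_apply] at e2
    rw [← e2]
    congr 1; funext g
    rw [real_inner_smul_right]
  have hfe : Integrable (fun g => f g * Real.exp (⟪w, g⟫ - ‖w‖ ^ 2 / 2)) (stdGaussian E) := by
    refine hexp.mono' (hf.meas.mul (by fun_prop)).aestronglyMeasurable
      (Eventually.of_forall fun x => ?_)
    rw [norm_mul, Real.norm_eq_abs, abs_of_nonneg (hf.nonneg x), Real.norm_eq_abs,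
      abs_of_pos (Real.exp_pos _)]
    exact mul_le_of_le_one_left (Real.exp_pos _).le (hf.le_one x)
  have hj1 : Integrable (fun g => f g * Real.exp (⟪w, g⟫ - ‖w‖ ^ 2 / 2) - f g)
      (stdGaussian E) := hfe.sub (hf.integrable _)
  have hj2 : Integrable (fun g => f g * Real.exp (⟪w, g⟫ - ‖w‖ ^ 2 / 2) - f g - f g * ⟪w, g⟫)
      (stdGaussian E) := hj1.sub hi1
  have hi2 : Integrable (fun g => Real.exp (⟪w, g⟫ - ‖w‖ ^ 2 / 2) - 1) (stdGaussian E) :=
      hexp.sub (integrable_const 1)
  have hi3 : Integrable (fun g => Real.exp (⟪w, g⟫ - ‖w‖ ^ 2 / 2) - 1 - ⟪w, g⟫)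
      (stdGaussian E) := hi2.sub (integrable_inner w)
  have hi4 : Integrable (fun g => Real.exp (⟪w, g⟫ - ‖w‖ ^ 2 / 2) - 1 - ⟪w, g⟫ + ‖w‖ ^ 2 / 2)
      (stdGaussian E) := hi3.add (integrable_const _)
  have key : ∫ g, (f g * Real.exp (⟪w, g⟫ - ‖w‖ ^ 2 / 2) - f g - f g * ⟪w, g⟫)
        ∂(stdGaussian E)
      ≤ ∫ g, (Real.exp (⟪w, g⟫ - ‖w‖ ^ 2 / 2) - 1 - ⟪w, g⟫ + ‖w‖ ^ 2 / 2) ∂(stdGaussian E) := by
    apply integral_mono hj2 hi4
    intro g
    simp only []
    set u := ⟪w, g⟫ - ‖w‖ ^ 2 / 2 with hu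
    have h1 : ⟪w, g⟫ = u + ‖w‖ ^ 2 / 2 := by rw [hu]; ring
    rw [h1]
    have h2 := Real.add_one_le_exp u
    have h3 := hf.nonneg g
    have h4 := hf.le_one g
    have h5 : 0 ≤ ‖w‖ ^ 2 / 2 := by positivity
    nlinarith [mul_nonneg (sub_nonneg.mpr h4) (by linarith : 0 ≤ Real.exp u - 1 - u),
      mul_nonneg h3 h5]
  rw [integral_sub hj1 hi1, integral_sub hfe (hf.integrable _)] at key
  have e2 : ∫ g, (Real.exp (⟪w, g⟫ - ‖w‖ ^ 2 / 2) - 1 - ⟪w, g⟫ + ‖w‖ ^ 2 / 2)
      ∂(stdGaussian E) = ‖w‖ ^ 2 / 2 := by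
    rw [integral_add hi3 (integrable_const _), integral_sub hi2 (integrable_inner w),
      integral_sub hexp (integrable_const 1), integral_exp_inner, integral_inner]
    simp
  rw [e2] at key
  rw [e1]
  linarith

/-! ### One step -/

lemma UI.comp {F : Type*} [MeasurableSpace F] {f : E → ℝ} (hf : UI f) {T : F → E}
    (hT : Measurable T) : UI (fun x => f (T x)) :=
  ⟨hf.meas.comp hT, fun _ => hf.nonneg _, fun _ => hf.le_one _⟩

/-- **One step**: the isoperimetric inequality for a Gaussian average. -/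
theorem one_step {f : E → ℝ} (hf : UI f) (c : E) {α β : ℝ} (hα : 0 ≤ α) (hβ : 0 < β) :
    Ip (∫ y, ∫ g, f (c + α • y + β • g) ∂(stdGaussian E) ∂(stdGaussian E))
      ≤ ∫ y, Ip (∫ g, f (c + α • y + β • g) ∂(stdGaussian E)) ∂(stdGaussian E)
        + α / β * ∫ y, ‖∫ g, f (c + α • y + β • g) • g ∂(stdGaussian E)‖ ∂(stdGaussian E) := by
  set h : E → ℝ := fun y => ∫ g, f (c + α • y + β • g) ∂(stdGaussian E) with hh
  set G : E → E := fun y => ∫ g, f (c + α • y + β • g) • g ∂(stdGaussian E) with hG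
  have hF : UI (fun p : E × E => f (c + α • p.1 + β • p.2)) :=
    UI.comp hf (by fun_prop)
  have hhU : UI h := hF.integral (stdGaussian E)
  have hfy : ∀ y, UI (fun g => f (c + α • y + β • g)) := fun y => UI.comp hf (by fun_prop)
  have hGm : Measurable G := by
    have : StronglyMeasurable (fun p : E × E => f (c + α • p.1 + β • p.2) • p.2) :=
      (hF.meas.smul measurable_snd).stronglyMeasurable
    exact (StronglyMeasurable.integral_prod_right (f := fun x y => f (c + α • x + β • y) • y)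
      this).measurable
  set B0 := ∫ g : E, ‖g‖ ∂(stdGaussian E) with hB0
  have hGB : ∀ y, ‖G y‖ ≤ B0 := by
    intro y
    refine (norm_integral_le_integral_norm _).trans ?_
    apply integral_mono (UI.integrable_smul (hfy y)).norm integrable_norm
    intro g
    simp only [norm_smul, Real.norm_eq_abs]
    rw [abs_of_nonneg ((hfy y).nonneg g)]
    exact mul_le_of_le_one_left (norm_nonneg g) ((hfy y).le_one g)
  have hab : 0 ≤ α / β := by positivity
  have key := iso (h := h) (D := fun y => α / β * ‖G y‖) (B := α / β * B0)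
    (L := (α / β) ^ 2 / 2) hhU (hGm.norm.const_mul _)
    (fun x => mul_nonneg hab (norm_nonneg _))
    (fun x => mul_le_mul_of_nonneg_left (hGB x) hab) (by positivity) ?_
  · rw [integral_const_mul] at key
    exact key
  · intro y z
    have h1 := shift_upper (hfy y) ((α / β) • z)
    have e1 : ∀ g, f (c + α • y + β • (g + (α / β) • z)) = f (c + α • (y + z) + β • g) := by
      intro g
      congr 1
      rw [smul_add, smul_smul, mul_div_cancel₀ _ hβ.ne']
      module
    simp only [e1] at h1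
    have h2 : ⟪(α / β) • z, G y⟫ ≤ α / β * ‖G y‖ * ‖z‖ := by
      refine (real_inner_le_norm _ _).trans ?_
      rw [norm_smul, Real.norm_eq_abs, abs_of_nonneg hab]
      linarith [mul_comm ‖z‖ ‖G y‖, mul_assoc (α / β) ‖z‖ ‖G y‖, mul_assoc (α / β) ‖G y‖ ‖z‖]
    have h3 : ‖(α / β) • z‖ ^ 2 / 2 = (α / β) ^ 2 / 2 * ‖z‖ ^ 2 := by
      rw [norm_smul, Real.norm_eq_abs, abs_of_nonneg hab]; ring
    rw [h3] at h1
    show h (y + z) ≤ h y + α / β * ‖G y‖ * ‖z‖ + (α / β) ^ 2 / 2 * ‖z‖ ^ 2
    have h4 : h (y + z) ≤ h y + ⟪(α / β) • z, G y⟫ + (α / β) ^ 2 / 2 * ‖z‖ ^ 2 := h1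
    linarith

/-! ### Sums of independent Gaussians -/

lemma map_add_smul {a b c : ℝ} (habc : a ^ 2 + b ^ 2 = c ^ 2) :
    ((stdGaussian E).prod (stdGaussian E)).map (fun p : E × E => a • p.1 + b • p.2)
      = (stdGaussian E).map (fun x => c • x) := by
  have : IsProbabilityMeasure (((stdGaussian E).prod (stdGaussian E)).map
    (fun p : E × E => a • p.1 + b • p.2)) :=
    Measure.isProbabilityMeasure_map (by fun_prop)
  have : IsProbabilityMeasure ((stdGaussian E).map (fun x : E => c • x)) :=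
    Measure.isProbabilityMeasure_map (by fun_prop)
  apply Measure.ext_of_charFun
  ext t
  rw [charFun_apply, charFun_apply, integral_map (by fun_prop) (by fun_prop),
    integral_map (by fun_prop) (by fun_prop)]
  have e0 : ∀ r : ℝ, ∫ x : E, Complex.exp (((⟪r • x, t⟫ : ℝ) : ℂ) * Complex.I) ∂(stdGaussian E)
      = Complex.exp (-((‖t‖ : ℂ) ^ 2 * (r : ℂ) ^ 2 / 2)) := by
    intro r
    have h1 := charFun_stdGaussian (E := E) (r • t)
    rw [charFun_apply] at h1
    have e : ∀ x : E, ⟪r • x, t⟫ = ⟪x, r • t⟫ := by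
      intro x; rw [real_inner_smul_left, real_inner_smul_right]
    simp_rw [e]
    rw [h1, norm_smul, Real.norm_eq_abs]
    congr 1
    push_cast
    rw [mul_pow, ← Complex.ofReal_pow, sq_abs]
    push_cast
    ring
  rw [e0 c]
  have e1 : ∀ p : E × E, Complex.exp (((⟪a • p.1 + b • p.2, t⟫ : ℝ) : ℂ) * Complex.I)
      = Complex.exp (((⟪a • p.1, t⟫ : ℝ) : ℂ) * Complex.I)
        * Complex.exp (((⟪b • p.2, t⟫ : ℝ) : ℂ) * Complex.I) := by
    intro p
    rw [← Complex.exp_add, inner_add_left]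
    push_cast
    ring_nf
  simp_rw [e1]
  rw [integral_prod_mul (fun x : E => Complex.exp (((⟪a • x, t⟫ : ℝ) : ℂ) * Complex.I))
    (fun x : E => Complex.exp (((⟪b • x, t⟫ : ℝ) : ℂ) * Complex.I)), e0, e0, ← Complex.exp_add]
  congr 1
  have : (c : ℂ) ^ 2 = (a : ℂ) ^ 2 + (b : ℂ) ^ 2 := by exact_mod_cast habc.symm
  rw [this]
  ring

lemma integral_add_smul {a b c : ℝ} (habc : a ^ 2 + b ^ 2 = c ^ 2) {f : E → ℝ} (hf : UI f)
    (x0 : E) :
    ∫ x, ∫ y, f (x0 + a • x + b • y) ∂(stdGaussian E) ∂(stdGaussian E)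
      = ∫ x, f (x0 + c • x) ∂(stdGaussian E) := by
  have h0 : UI (fun x : E => f (x0 + x)) := UI.comp hf (by fun_prop)
  have h1 : ∫ p : E × E, f (x0 + (a • p.1 + b • p.2)) ∂((stdGaussian E).prod (stdGaussian E))
      = ∫ x, f (x0 + x) ∂(((stdGaussian E).prod (stdGaussian E)).map
        (fun p : E × E => a • p.1 + b • p.2)) := by
    rw [integral_map (by fun_prop) h0.meas.aestronglyMeasurable]
  rw [map_add_smul habc, integral_map (by fun_prop) h0.meas.aestronglyMeasurable,
    integral_prod] at h1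
  · rw [← h1]
    simp only [add_assoc]
  · exact (UI.comp hf (T := fun p : E × E => x0 + (a • p.1 + b • p.2))
      (by fun_prop)).integrable _

end Vale.Agent.P262.H941
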