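import Vale.Agent.P262.H941.Bobkov

/-!
# Multiscale isoperimetry for visible fields (no stopping times)
-/

set_option linter.unusedSectionVars false

namespace Vale.Agent.P262.H941

open MeasureTheory ProbabilityTheory Set Filter Topology
open scoped RealInnerProductSpace
open Vale.Agent.P262.H847 Vale.Agent.P262.H912

/-! ### The joint bathtub inequality -/

lemma stdGaussian_real : stdGaussian ℝ = g1 := by
  have h := map_inner_unit (E := ℝ) (b := (1:ℝ)) (by norm_num)
  have e : (fun x : ℝ => ⟪(1:ℝ), x⟫) = id := by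
    funext x; simp
  rw [e, Measure.map_id] at h
  exact h

lemma integrable_posPart (a b z : ℝ) :
    Integrable (fun p : ℝ × ℝ => max (a * p.1 + b * p.2 + z) 0) (g1.prod g1) := by
  have h1 : Integrable (fun p : ℝ × ℝ => a * p.1) (g1.prod g1) :=
    (integrable_id_g1.comp_fst g1).const_mul a
  have h2 : Integrable (fun p : ℝ × ℝ => b * p.2) (g1.prod g1) :=
    (integrable_id_g1.comp_snd g1).const_mul b
  exact ((h1.add h2).add (integrable_const z)).pos_part

lemma int_posPart2 {c1 s1 : ℝ} (hcs : c1 ^ 2 + s1 ^ 2 = 1) (z : ℝ) :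
    ∫ τ, ∫ t, max (c1 * τ + s1 * t + z) 0 ∂g1 ∂g1 = phi z + z * Phi z := by
  have h := map_add_smul (E := ℝ) (a := c1) (b := s1) (c := 1) (by rw [hcs]; norm_num)
  simp only [stdGaussian_real, smul_eq_mul, one_mul, Measure.map_id'] at h
  rw [← int_posPart]
  have h1 : ∫ p : ℝ × ℝ, max (c1 * p.1 + s1 * p.2 + z) 0 ∂(g1.prod g1)
      = ∫ x, max (x + z) 0 ∂((g1.prod g1).map (fun p : ℝ × ℝ => c1 * p.1 + s1 * p.2)) := by
    rw [integral_map (by fun_prop) (by fun_prop)]
  rw [h, integral_prod _ (integrable_posPart c1 s1 z)] at h1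
  exact h1

variable {E : Type*} [NormedAddCommGroup E] [InnerProductSpace ℝ E] [FiniteDimensional ℝ E]
  [MeasurableSpace E] [BorelSpace E]

lemma joint_bathtub_aux {u : E → ℝ} (hu : UI u) {b : E} (hb : ‖b‖ = 1) {c1 s1 : ℝ}
    (hcs : c1 ^ 2 + s1 ^ 2 = 1) (hs : 0 < s1) :
    c1 * ∫ y, u y * ⟪b, y⟫ ∂(stdGaussian E) + s1 * ∫ y, Ip (u y) ∂(stdGaussian E)
      ≤ Ip (∫ y, u y ∂(stdGaussian E)) := by
  have hui := hu.integrable (stdGaussian E)
  have hIi := (UI.Ip hu).integrable (stdGaussian E)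
  have hi1 : Integrable (fun x => u x * ⟪b, x⟫) (stdGaussian E) := by
    refine (integrable_inner b).norm.mono' (hu.meas.mul (by fun_prop)).aestronglyMeasurable
      (Eventually.of_forall fun x => ?_)
    rw [norm_mul, Real.norm_eq_abs, abs_of_nonneg (hu.nonneg x)]
    exact mul_le_of_le_one_left (norm_nonneg _) (hu.le_one x)
  have key : ∀ z : ℝ, c1 * ∫ y, u y * ⟪b, y⟫ ∂(stdGaussian E) + s1 * ∫ y, Ip (u y) ∂(stdGaussian E)
      + z * ∫ y, u y ∂(stdGaussian E) ≤ phi z + z * Phi z := by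
    intro z
    set K : ℝ → ℝ := fun τ => ∫ t, max (c1 * τ + s1 * t + z) 0 ∂g1 with hK
    have hKi : Integrable K g1 := (integrable_posPart c1 s1 z).integral_prod_left
    have hKm : AEStronglyMeasurable K g1 := hKi.aestronglyMeasurable
    have h1 : ∫ y : E, K ⟪b, y⟫ ∂(stdGaussian E) = phi z + z * Phi z := by
      rw [← int_posPart2 hcs z, ← hK]
      have := map_inner_unit hb
      rw [← this] at hKm ⊢
      rw [integral_map (by fun_prop) hKm]
    have hKi' : Integrable (fun y : E => K ⟪b, y⟫) (stdGaussian E) := by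
      have := map_inner_unit hb
      rw [← this] at hKi
      exact (integrable_map_measure hKi.aestronglyMeasurable (by fun_prop)).mp hKi
    have hpt : ∀ y, c1 * (u y * ⟪b, y⟫) + s1 * Ip (u y) + z * u y ≤ K ⟪b, y⟫ := by
      intro y
      set X := (c1 * ⟪b, y⟫ + z) / s1 with hX
      have h2 := Ip_tangent (hu.nonneg y) (hu.le_one y) X
      have h3 : K ⟪b, y⟫ = s1 * (phi X + X * Phi X) := by
        rw [← int_posPart, ← integral_const_mul]
        show ∫ t, max (c1 * ⟪b, y⟫ + s1 * t + z) 0 ∂g1 = _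
        congr 1; funext t
        have : c1 * ⟪b, y⟫ + s1 * t + z = s1 * (t + X) := by
          rw [hX]; field_simp; ring
        rw [this]
        have h4 : max (s1 * (t + X)) (s1 * 0) = s1 * max (t + X) 0 :=
          (mul_max_of_nonneg _ _ hs.le).symm
        rw [mul_zero] at h4
        exact h4
      rw [h3]
      have h5 := mul_le_mul_of_nonneg_left h2 hs.le
      have h6 : s1 * X = c1 * ⟪b, y⟫ + z := by rw [hX]; field_simp
      have h7 : s1 * (phi X - X * (u y - Phi X))
          = s1 * (phi X + X * Phi X) - (s1 * X) * u y := by ring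
      rw [h7, h6] at h5
      linarith
    have hia : Integrable (fun y => c1 * (u y * ⟪b, y⟫) + s1 * Ip (u y)) (stdGaussian E) :=
      (hi1.const_mul c1).add (hIi.const_mul s1)
    rw [← h1, ← integral_const_mul, ← integral_const_mul, ← integral_const_mul,
      ← integral_add (hi1.const_mul c1) (hIi.const_mul s1),
      ← integral_add hia (hui.const_mul z)]
    exact integral_mono (hia.add (hui.const_mul z)) hKi' hpt
  set p := ∫ x, u x ∂(stdGaussian E) with hp
  have hp0 : 0 ≤ p := integral_nonneg hu.nonneg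
  have hp1 : p ≤ 1 := by
    calc p ≤ ∫ _x : E, (1:ℝ) ∂(stdGaussian E) := integral_mono hui (integrable_const _) hu.le_one
      _ = 1 := by simp
  have hdeg : (∀ᵐ x ∂(stdGaussian E), u x = 0) ∨ (∀ᵐ x ∂(stdGaussian E), u x = 1) →
      c1 * ∫ y, u y * ⟪b, y⟫ ∂(stdGaussian E) + s1 * ∫ y, Ip (u y) ∂(stdGaussian E) = 0 := by
    intro h
    have h1 : ∫ y, u y * ⟪b, y⟫ ∂(stdGaussian E) = 0 := by
      rcases h with h | h
      · apply integral_eq_zero_of_ae
        filter_upwards [h] with x hx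
        rw [hx]; simp
      · rw [← integral_inner b]
        apply integral_congr_ae
        filter_upwards [h] with x hx
        rw [hx, one_mul]
    have h2 : ∫ y, Ip (u y) ∂(stdGaussian E) = 0 := by
      rcases h with h | h
      · apply integral_eq_zero_of_ae
        filter_upwards [h] with x hx
        rw [hx]; exact Ip_of_nonpos le_rfl
      · apply integral_eq_zero_of_ae
        filter_upwards [h] with x hx
        rw [hx]; exact Ip_of_one_le le_rfl
    rw [h1, h2]; ring
  rcases hp0.eq_or_lt with h | h0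
  · have h2 : u =ᵐ[stdGaussian E] 0 := (integral_eq_zero_iff_of_nonneg hu.nonneg hui).mp h.symm
    rw [hdeg (Or.inl h2)]; exact Ip_nonneg _
  rcases hp1.eq_or_lt with h | h1
  · have h2 : (fun x => 1 - u x) =ᵐ[stdGaussian E] 0 := by
      have hi2 : Integrable (fun x => 1 - u x) (stdGaussian E) := (integrable_const _).sub hui
      apply (integral_eq_zero_iff_of_nonneg (fun x => by
        show 0 ≤ 1 - u x; linarith [hu.le_one x]) hi2).mp
      rw [integral_sub (integrable_const _) hui, ← hp, h]; simp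
    rw [hdeg (Or.inr (by
      filter_upwards [h2] with x hx
      have : 1 - u x = 0 := hx
      linarith))]
    exact Ip_nonneg _
  obtain ⟨z, hz⟩ := exists_Phi_eq h0 h1
  have h2 := key z
  rw [← hz, Ip_Phi]
  rw [← hz] at h2
  linarith

lemma norm_integral_smul_eq {u : E → ℝ} (hu : UI u) :
    ∃ b : E, ‖b‖ ≤ 1 ∧ (0 < ‖∫ y, u y • y ∂(stdGaussian E)‖ → ‖b‖ = 1) ∧
      ‖∫ y, u y • y ∂(stdGaussian E)‖ = ∫ y, u y * ⟪b, y⟫ ∂(stdGaussian E) := by
  set M := ∫ x, u x • x ∂(stdGaussian E) with hM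
  rcases (norm_nonneg M).eq_or_lt with h | h
  · exact ⟨0, by simp, fun h' => by rw [← h] at h'; exact absurd h' (lt_irrefl _), by simp [← h]⟩
  have hb : ‖(‖M‖⁻¹) • M‖ = 1 := by
    rw [norm_smul, norm_inv, norm_norm, inv_mul_cancel₀ h.ne']
  refine ⟨(‖M‖⁻¹) • M, hb.le, fun _ => hb, ?_⟩
  have h1 := (innerSL ℝ ((‖M‖⁻¹) • M)).integral_comp_comm (UI.integrable_smul hu)
  simp only [innerSL_apply_apply, ← hM] at h1
  simp only [real_inner_smul_right] at h1
  rw [h1, real_inner_smul_left, real_inner_self_eq_norm_sq]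
  field_simp

/-- **Joint bathtub**, squares of the mean profile and of the first moment. -/
theorem joint_bathtub {u : E → ℝ} (hu : UI u) :
    (∫ y, Ip (u y) ∂(stdGaussian E)) ^ 2 + ‖∫ y, u y • y ∂(stdGaussian E)‖ ^ 2
      ≤ Ip (∫ y, u y ∂(stdGaussian E)) ^ 2 := by
  set A := ‖∫ y, u y • y ∂(stdGaussian E)‖ with hA
  set Bq := ∫ y, Ip (u y) ∂(stdGaussian E) with hBq
  have hA0 : 0 ≤ A := norm_nonneg _
  have hB0 : 0 ≤ Bq := integral_nonneg fun _ => Ip_nonneg _
  have hI0 := Ip_nonneg (∫ y, u y ∂(stdGaussian E))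
  rcases hB0.eq_or_lt with hB | hB
  · have := bathtub hu
    rw [← hB]
    nlinarith
  rcases hA0.eq_or_lt with hA' | hA'
  · have := Ip_jensen (μ := stdGaussian E) hu
    rw [← hA']
    nlinarith
  obtain ⟨b, _, hb1, hb2⟩ := norm_integral_smul_eq hu
  have hb := hb1 hA'
  set r := Real.sqrt (A ^ 2 + Bq ^ 2) with hr
  have hr0 : 0 < r := Real.sqrt_pos.mpr (by positivity)
  have hr2 : r ^ 2 = A ^ 2 + Bq ^ 2 := Real.sq_sqrt (by positivity)
  have h1 := joint_bathtub_aux hu hb (c1 := A / r) (s1 := Bq / r)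
    (by rw [div_pow, div_pow, ← add_div, hr2, div_self (by rw [← hr2]; positivity)])
    (by positivity)
  rw [← hb2, ← hA, ← hBq] at h1
  have h2 : A / r * A + Bq / r * Bq = r := by
    have : A / r * A + Bq / r * Bq = (A ^ 2 + Bq ^ 2) / r := by ring
    rw [this, ← hr2]; field_simp
  rw [h2] at h1
  calc Bq ^ 2 + A ^ 2 = r ^ 2 := by rw [hr2]; ring
    _ ≤ _ := pow_le_pow_left₀ hr0.le h1 2

/-! ### The gradient identity -/

lemma shift_abs {f : E → ℝ} (hf : UI f) (w : E) :
    |∫ g, f (g + w) ∂(stdGaussian E) - ∫ g, f g ∂(stdGaussian E)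
      - ⟪w, ∫ g, f g • g ∂(stdGaussian E)⟫| ≤ ‖w‖ ^ 2 / 2 := by
  have h1 := shift_upper hf w
  have hf' : UI (fun x => 1 - f x) := ⟨measurable_const.sub hf.meas,
    fun x => by linarith [hf.le_one x], fun x => by linarith [hf.nonneg x]⟩
  have h2 := shift_upper hf' w
  have hfw : UI (fun g => f (g + w)) := UI.comp hf (by fun_prop)
  rw [integral_sub (integrable_const _) (hfw.integrable _),
    integral_sub (integrable_const _) (hf.integrable _)] at h2
  have h3 : ∫ g, (1 - f g) • g ∂(stdGaussian E) = -∫ g, f g • g ∂(stdGaussian E) := by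
    have : ∀ g : E, (1 - f g) • g = g - f g • g := fun g => by rw [sub_smul, one_smul]
    simp_rw [this]
    rw [integral_sub integrable_id' (UI.integrable_smul hf), integral_id_stdGaussian, zero_sub]
  rw [h3, inner_neg_right] at h2
  rw [abs_le]
  constructor <;> linarith

/-- The first moment at scale `s` is the average first moment in an intermediate direction. -/
lemma mom_avg {f : E → ℝ} (hf : UI f) {α β s : ℝ} (hs : 0 < s) (habs : α ^ 2 + β ^ 2 = s ^ 2)
    (p : E) : ∫ y, avg f β (p + α • y) • y ∂(stdGaussian E) = (α / s) • mom f s p := by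
  set U : E → ℝ := fun y => avg f β (p + α • y) with hU
  have hUU : UI U := UI.comp (UI.avg hf β) (by fun_prop)
  set Fs : E → ℝ := fun x => f (p + s • x) with hFs
  have hFU : UI Fs := UI.comp hf (by fun_prop)
  have hshift : ∀ w : E, ∫ y, U (y + w) ∂(stdGaussian E)
      = ∫ x, Fs (x + (α / s) • w) ∂(stdGaussian E) := by
    intro w
    have h1 := integral_add_smul habs hf (p + α • w)
    have e1 : ∀ y : E, U (y + w) = ∫ g, f (p + α • w + α • y + β • g) ∂(stdGaussian E) := by
      intro y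
      show ∫ g, f (p + α • (y + w) + β • g) ∂(stdGaussian E) = _
      congr 1; funext g; congr 1; module
    have e2 : ∀ x : E, Fs (x + (α / s) • w) = f (p + α • w + s • x) := by
      intro x
      show f (p + s • (x + (α / s) • w)) = _
      congr 1
      rw [smul_add, smul_smul, mul_div_cancel₀ _ hs.ne']
      module
    simp_rw [e1, e2]
    exact h1
  have h0 : ∫ y, U y ∂(stdGaussian E) = ∫ x, Fs x ∂(stdGaussian E) := by
    have := hshift 0
    simpa using this
  set d := ∫ y, U y • y ∂(stdGaussian E) - (α / s) • mom f s p with hd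
  have hmom : mom f s p = ∫ x, Fs x • x ∂(stdGaussian E) := rfl
  have hbd : ∀ w : E, |⟪w, d⟫| ≤ (1 + (α / s) ^ 2) * ‖w‖ ^ 2 / 2 := by
    intro w
    have h1 := abs_le.mp (shift_abs hUU w)
    have h2 := abs_le.mp (shift_abs hFU ((α / s) • w))
    rw [hshift w, h0] at h1
    rw [real_inner_smul_left, norm_smul, Real.norm_eq_abs, mul_pow, sq_abs, ← hmom] at h2
    have h3 : ⟪w, d⟫ = ⟪w, ∫ y, U y • y ∂(stdGaussian E)⟫ - α / s * ⟪w, mom f s p⟫ := by
      rw [hd, inner_sub_right, real_inner_smul_right]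
    rw [h3, abs_le]
    constructor <;> linarith [h1.1, h1.2, h2.1, h2.2]
  have hd0 : d = 0 := by
    by_contra hne
    have hd1 : 0 < ‖d‖ ^ 2 := by have := norm_pos_iff.mpr hne; positivity
    set C := (1 + (α / s) ^ 2) / 2 with hC
    have hC0 : 0 < C := by positivity
    have h1 := hbd ((1 / (2 * C)) • d)
    rw [real_inner_smul_left, real_inner_self_eq_norm_sq, norm_smul, Real.norm_eq_abs, mul_pow,
      sq_abs, abs_of_nonneg (by positivity)] at h1
    have h2 : (1 + (α / s) ^ 2) * ((1 / (2 * C)) ^ 2 * ‖d‖ ^ 2) / 2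
        = 1 / (4 * C) * ‖d‖ ^ 2 := by
      have : 1 + (α / s) ^ 2 = 2 * C := by rw [hC]; ring
      rw [this]; field_simp; ring
    rw [h2] at h1
    have h3 : 1 / (2 * C) * ‖d‖ ^ 2 = 2 * (1 / (4 * C) * ‖d‖ ^ 2) := by field_simp; ring
    rw [h3] at h1
    have h4 : 0 < 1 / (4 * C) * ‖d‖ ^ 2 := by positivity
    linarith
  exact sub_eq_zero.mp hd0

end Vale.Agent.P262.H941
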