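import Vale.Agent.P262.H941.Vis

/-!
# Multiscale isoperimetry for visible fields: the telescoping argument
-/

set_option linter.unusedSectionVars false

namespace Vale.Agent.P262.H941

open MeasureTheory ProbabilityTheory Set Filter Topology
open scoped RealInnerProductSpace
open Vale.Agent.P262.H847 Vale.Agent.P262.H912

variable {E : Type*} [NormedAddCommGroup E] [InnerProductSpace ℝ E] [FiniteDimensional ℝ E]
  [MeasurableSpace E] [BorelSpace E]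

/-- one step, quadratic form -/
theorem step_b {f : E → ℝ} (hf : UI f) {s : ℝ} (hs : 0 < s) (p : E) :
    Ip (avg f s p) ≤ ∫ y, Real.sqrt (3 * ‖mom f (s / 2) (p + (Real.sqrt 3 / 2 * s) • y)‖ ^ 2
      + Ip (avg f (s / 2) (p + (Real.sqrt 3 / 2 * s) • y)) ^ 2) ∂(stdGaussian E) := by
  set α := Real.sqrt 3 / 2 * s with hα
  set β := s / 2 with hβ
  have h3 : Real.sqrt 3 ^ 2 = 3 := Real.sq_sqrt (by norm_num)
  have hβ0 : 0 < β := by positivity
  have hα0 : 0 ≤ α := by positivity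
  have hab : α / β = Real.sqrt 3 := by rw [hα, hβ]; field_simp
  have habs : α ^ 2 + β ^ 2 = s ^ 2 := by rw [hα, hβ, mul_pow, div_pow, h3]; ring
  set h : E → ℝ := fun y => avg f β (p + α • y) with hh
  have hhU : UI h := UI.comp (UI.avg hf β) (by fun_prop)
  set G : E → E := fun y => mom f β (p + α • y) with hG
  have hGm : Measurable G := (measurable_mom hf β).comp (by fun_prop)
  set B0 := ∫ g : E, ‖g‖ ∂(stdGaussian E) with hB0
  have hGB : ∀ y, ‖G y‖ ≤ B0 := fun y => norm_mom_le' hf β _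
  have key := bobkov (h := h) (D := fun y => Real.sqrt 3 * ‖G y‖) (B := Real.sqrt 3 * B0)
    (L := 3 / 2) hhU (hGm.norm.const_mul _)
    (fun x => mul_nonneg (Real.sqrt_nonneg 3) (norm_nonneg _))
    (fun x => mul_le_mul_of_nonneg_left (hGB x) (Real.sqrt_nonneg 3)) (by norm_num) ?_
  · have h1 := integral_add_smul habs hf p
    have h2 : ∫ y, h y ∂(stdGaussian E) = avg f s p := h1
    rw [h2] at key
    refine key.trans (le_of_eq ?_)
    congr 1; funext y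
    rw [mul_pow, h3]
  · intro y z
    have hfy : UI (fun g => f (p + α • y + β • g)) := UI.comp hf (by fun_prop)
    have h1 := shift_upper hfy ((α / β) • z)
    have e1 : ∀ g, f (p + α • y + β • (g + (α / β) • z)) = f (p + α • (y + z) + β • g) := by
      intro g
      congr 1
      rw [smul_add, smul_smul, mul_div_cancel₀ _ hβ0.ne']
      module
    simp only [e1] at h1
    have h2 : ⟪(α / β) • z, G y⟫ ≤ Real.sqrt 3 * ‖G y‖ * ‖z‖ := by
      refine (real_inner_le_norm _ _).trans ?_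
      rw [norm_smul, Real.norm_eq_abs, hab, abs_of_nonneg (Real.sqrt_nonneg 3)]
      linarith [mul_comm ‖z‖ ‖G y‖, mul_assoc (Real.sqrt 3) ‖z‖ ‖G y‖,
        mul_assoc (Real.sqrt 3) ‖G y‖ ‖z‖]
    have h4 : ‖(α / β) • z‖ ^ 2 / 2 = 3 / 2 * ‖z‖ ^ 2 := by
      rw [norm_smul, Real.norm_eq_abs, hab, abs_of_nonneg (Real.sqrt_nonneg 3), mul_pow, h3]; ring
    rw [h4] at h1
    have h5 : h (y + z) ≤ h y + ⟪(α / β) • z, G y⟫ + 3 / 2 * ‖z‖ ^ 2 := h1
    linarith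

/-- lower bound -/
theorem lower_b {f : E → ℝ} (hf : UI f) {s : ℝ} (hs : 0 < s) (p : E) :
    (∫ y, Ip (avg f (s / 2) (p + (Real.sqrt 3 / 2 * s) • y)) ∂(stdGaussian E)) ^ 2
      + 3 / 4 * ‖mom f s p‖ ^ 2 ≤ Ip (avg f s p) ^ 2 := by
  set α := Real.sqrt 3 / 2 * s with hα
  set β := s / 2 with hβ
  have h3 : Real.sqrt 3 ^ 2 = 3 := Real.sq_sqrt (by norm_num)
  have habs : α ^ 2 + β ^ 2 = s ^ 2 := by rw [hα, hβ, mul_pow, div_pow, h3]; ring
  have hU : UI (fun y => avg f β (p + α • y)) := UI.comp (UI.avg hf β) (by fun_prop)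
  have h1 := joint_bathtub hU
  have h2 : ∫ y, avg f β (p + α • y) ∂(stdGaussian E) = avg f s p := integral_add_smul habs hf p
  rw [h2, mom_avg hf hs habs p, norm_smul, Real.norm_eq_abs, mul_pow, sq_abs] at h1
  have h4 : (α / s) ^ 2 = 3 / 4 := by
    rw [hα, mul_div_assoc, div_self hs.ne', mul_one, div_pow, h3]; norm_num
  rw [h4] at h1
  exact h1

/-- the energy density of the first moment -/
noncomputable def en (f : E → ℝ) (s : ℝ) (p : E) : ℝ := ‖mom f s p‖ ^ 2 / Ip (avg f s p)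

lemma en_nonneg (f : E → ℝ) (s : ℝ) (p : E) : 0 ≤ en f s p :=
  div_nonneg (sq_nonneg _) (Ip_nonneg _)

lemma en_le {f : E → ℝ} (hf : UI f) (s : ℝ) (p : E) : en f s p ≤ Ip (avg f s p) := by
  unfold en
  rcases (Ip_nonneg (avg f s p)).eq_or_lt with h | h
  · rw [← h]; simp
  rw [div_le_iff₀ h]
  have h1 := norm_mom_le hf s p
  nlinarith [norm_nonneg (mom f s p)]

lemma UI.en {f : E → ℝ} (hf : UI f) (s : ℝ) : UI (en f s) :=
  ⟨((measurable_mom hf s).norm.pow_const 2).div (UI.Ip (UI.avg hf s)).meas, en_nonneg f s,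
    fun p => (en_le hf s p).trans (Ip_le_one _)⟩

/-- the energy is paid by the decrease of the profile -/
theorem lower_en {f : E → ℝ} (hf : UI f) {s : ℝ} (hs : 0 < s) (p : E) :
    ∫ y, Ip (avg f (s / 2) (p + (Real.sqrt 3 / 2 * s) • y)) ∂(stdGaussian E)
      + 3 / 8 * en f s p ≤ Ip (avg f s p) := by
  have h := lower_b hf hs p
  set I1 := ∫ y, Ip (avg f (s / 2) (p + (Real.sqrt 3 / 2 * s) • y)) ∂(stdGaussian E) with hI1
  have hI0 : 0 ≤ I1 := integral_nonneg fun _ => Ip_nonneg _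
  rcases (Ip_nonneg (avg f s p)).eq_or_lt with h0 | h0
  · unfold en
    rw [← h0] at h ⊢
    have h1 : I1 ^ 2 ≤ 0 := by nlinarith [sq_nonneg ‖mom f s p‖]
    have h2 : I1 = 0 := by nlinarith
    rw [h2]; simp
  · unfold en
    set a := Ip (avg f s p) with ha
    have h1 : 3 / 8 * (‖mom f s p‖ ^ 2 / a) ≤ a - I1 := by
      have h2 : I1 ≤ a := by nlinarith [sq_nonneg ‖mom f s p‖]
      rw [← mul_div_assoc, div_le_iff₀ h0]
      nlinarith
    linarith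

/-! ### Levels -/

/-- average of `K` over the locations at scale `s` -/
noncomputable def lev (K : E → ℝ) (s : ℝ) : ℝ := ∫ y, K (Real.sqrt (1 - s ^ 2) • y) ∂(stdGaussian E)

lemma lev_child {K : E → ℝ} (hK : Measurable K) {B : ℝ} (hB : ∀ x, |K x| ≤ B) {s : ℝ}
    (hs : 0 < s) (hs1 : s ≤ 1) :
    ∫ x, ∫ y, K (Real.sqrt (1 - s ^ 2) • x + (Real.sqrt 3 / 2 * s) • y) ∂(stdGaussian E)
      ∂(stdGaussian E) = lev K (s / 2) := by
  have h3 : Real.sqrt 3 ^ 2 = 3 := Real.sq_sqrt (by norm_num)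
  have hsq1 : Real.sqrt (1 - s ^ 2) ^ 2 = 1 - s ^ 2 := Real.sq_sqrt (by nlinarith)
  have hsq2 : Real.sqrt (1 - (s / 2) ^ 2) ^ 2 = 1 - (s / 2) ^ 2 := Real.sq_sqrt (by nlinarith)
  have habc : Real.sqrt (1 - s ^ 2) ^ 2 + (Real.sqrt 3 / 2 * s) ^ 2
      = Real.sqrt (1 - (s / 2) ^ 2) ^ 2 := by
    rw [hsq1, hsq2, mul_pow, div_pow, h3]; ring
  exact integral_add_smul' habc hK hB

lemma lev_le {K1 K2 : E → ℝ} (h1 : Measurable K1) (h2 : Measurable K2) {B1 B2 : ℝ}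
    (hB1 : ∀ x, |K1 x| ≤ B1) (hB2 : ∀ x, |K2 x| ≤ B2) {s : ℝ} (hs : 0 < s) (hs1 : s ≤ 1)
    (h : ∀ p, K1 p ≤ ∫ y, K2 (p + (Real.sqrt 3 / 2 * s) • y) ∂(stdGaussian E)) :
    lev K1 s ≤ lev K2 (s / 2) := by
  rw [← lev_child h2 hB2 hs hs1]
  unfold lev
  have hi1 : Integrable (fun x : E => ∫ y, K2 (Real.sqrt (1 - s ^ 2) • x
      + (Real.sqrt 3 / 2 * s) • y) ∂(stdGaussian E)) (stdGaussian E) := by
    apply Integrable.integral_prod_left (f := fun p : E × E => K2 (Real.sqrt (1 - s ^ 2) • p.1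
      + (Real.sqrt 3 / 2 * s) • p.2))
    exact Integrable.of_bound (h2.comp (by fun_prop)).aestronglyMeasurable B2
      (Eventually.of_forall fun x => by rw [Real.norm_eq_abs]; exact hB2 _)
  apply integral_mono _ hi1 (fun x => h _)
  exact Integrable.of_bound (h1.comp (by fun_prop)).aestronglyMeasurable B1
      (Eventually.of_forall fun x => by rw [Real.norm_eq_abs]; exact hB1 _)

lemma integrable_child {K : E → ℝ} (hK : Measurable K) {B : ℝ} (hB : ∀ x, |K x| ≤ B) (p : E)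
    (r : ℝ) : Integrable (fun y => K (p + r • y)) (stdGaussian E) :=
  Integrable.of_bound (hK.comp (by fun_prop)).aestronglyMeasurable B
      (Eventually.of_forall fun x => by rw [Real.norm_eq_abs]; exact hB _)

/-! ### The child inequality -/

lemma Ip_mono_sym {a b : ℝ} (ha : 0 ≤ a) (hab : a ≤ b) (hb : a + b ≤ 1) : Ip a ≤ Ip b := by
  rcases ha.eq_or_lt with rfl | ha0
  · rw [Ip_of_nonpos le_rfl]; exact Ip_nonneg _
  have hb1 : b < 1 := by linarith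
  obtain ⟨z, hz⟩ := exists_Phi_eq (lt_of_lt_of_le ha0 hab) hb1
  have h1 := Ip_tangent ha (by linarith) z
  have h2 := Ip_tangent (show 0 ≤ 1 - a by linarith) (by linarith) z
  rw [Ip_symm] at h2
  rw [← hz, Ip_Phi]
  rw [hz] at h1 h2
  rcases le_total 0 z with h | h
  · nlinarith
  · nlinarith

/-- numbers: `a = I(f)`, `b = I(h)`, `g = f + h` -/
lemma child_ineq {F : Type*} [NormedAddCommGroup F] [NormedSpace ℝ F] {fv hv : ℝ} {Mf Mh : F}
    (hf0 : 0 ≤ fv) (hh0 : 0 ≤ hv) (hfh : fv + hv ≤ 1) (hMf : ‖Mf‖ ≤ Ip fv) (hMh : ‖Mh‖ ≤ Ip hv)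
    (P Q : F →L[ℝ] F) (hPQ : ∀ x, P x + Q x = x) (hP : ∀ x, ‖P x‖ ≤ ‖x‖)
    (hQ : ∀ x, ‖Q x‖ ≤ ‖x‖) :
    Real.sqrt (3 * ‖Mf‖ ^ 2 + Ip fv ^ 2) ≤ max (Ip fv - 2 * Ip hv) 0 + 2 * Ip hv
      + 9 / 2 * (‖P Mf‖ + 2 * ‖Q (Mf + Mh)‖ + ‖Mh‖ ^ 2 / Ip hv) := by
  set a := Ip fv with ha
  set b := Ip hv with hb
  have ha0 : 0 ≤ a := Ip_nonneg _
  have hb0 : 0 ≤ b := Ip_nonneg _
  have hR0 : 0 ≤ ‖P Mf‖ + 2 * ‖Q (Mf + Mh)‖ + ‖Mh‖ ^ 2 / b := by positivity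
  have hmax : a - 2 * b ≤ max (a - 2 * b) 0 := le_max_left _ _
  have hmax0 : 0 ≤ max (a - 2 * b) 0 := le_max_right _ _
  rcases le_or_gt fv hv with h | h
  · -- hidden part dominates
    have h1 : a ≤ b := Ip_mono_sym hf0 h hfh
    have h2 : Real.sqrt (3 * ‖Mf‖ ^ 2 + a ^ 2) ≤ 2 * a := by
      rw [Real.sqrt_le_left (by positivity)]
      nlinarith [norm_nonneg Mf]
    nlinarith
  · have h1 : b ≤ a := Ip_mono_sym hh0 h.le (by linarith)
    rcases ha0.eq_or_lt with ha' | ha'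
    · have h2 : ‖Mf‖ = 0 := le_antisymm (by rw [ha']; exact hMf) (norm_nonneg _)
      rw [h2, ← ha']
      simp only [ne_eq, OfNat.ofNat_ne_zero, not_false_eq_true, zero_pow, mul_zero, add_zero,
        Real.sqrt_zero]
      positivity
    -- `√(a² + 3x²) ≤ a + 3x²/(2a)`
    have h2 : Real.sqrt (3 * ‖Mf‖ ^ 2 + a ^ 2) ≤ a + 3 * ‖Mf‖ ^ 2 / (2 * a) := by
      rw [Real.sqrt_le_left (by positivity)]
      have h3 : (a + 3 * ‖Mf‖ ^ 2 / (2 * a)) ^ 2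
          = a ^ 2 + 3 * ‖Mf‖ ^ 2 + (3 * ‖Mf‖ ^ 2 / (2 * a)) ^ 2 := by field_simp; ring
      rw [h3]
      have : 0 ≤ (3 * ‖Mf‖ ^ 2 / (2 * a)) ^ 2 := sq_nonneg _
      linarith
    -- decomposition
    have h4 : Mf = P Mf + Q (Mf + Mh) - Q Mh := by
      rw [map_add]
      have := hPQ Mf
      nth_rw 1 [← this]
      abel
    have h5 : ‖Mf‖ ≤ ‖P Mf‖ + ‖Q (Mf + Mh)‖ + ‖Q Mh‖ := by
      nth_rw 1 [h4]
      exact (norm_sub_le _ _).trans (add_le_add_left (norm_add_le _ _) _)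
    have h6 : ‖Mf‖ ^ 2 ≤ 3 * (‖P Mf‖ ^ 2 + ‖Q (Mf + Mh)‖ ^ 2 + ‖Q Mh‖ ^ 2) := by
      have h7 : ‖Mf‖ ^ 2 ≤ (‖P Mf‖ + ‖Q (Mf + Mh)‖ + ‖Q Mh‖) ^ 2 :=
        pow_le_pow_left₀ (norm_nonneg _) h5 2
      nlinarith [sq_nonneg (‖P Mf‖ - ‖Q (Mf + Mh)‖), sq_nonneg (‖P Mf‖ - ‖Q Mh‖),
        sq_nonneg (‖Q (Mf + Mh)‖ - ‖Q Mh‖)]
    have h8 : ‖P Mf‖ ^ 2 ≤ ‖P Mf‖ * a := by
      rw [sq]
      exact mul_le_mul_of_nonneg_left ((hP _).trans hMf) (norm_nonneg _)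
    have h9 : ‖Q (Mf + Mh)‖ ^ 2 ≤ ‖Q (Mf + Mh)‖ * (2 * a) := by
      rw [sq]
      apply mul_le_mul_of_nonneg_left _ (norm_nonneg _)
      refine (hQ _).trans ((norm_add_le _ _).trans ?_)
      linarith
    have h10 : ‖Q Mh‖ ^ 2 ≤ (‖Mh‖ ^ 2 / b) * a := by
      have h11 : ‖Q Mh‖ ^ 2 ≤ ‖Mh‖ ^ 2 := pow_le_pow_left₀ (norm_nonneg _) (hQ _) 2
      rcases hb0.eq_or_lt with hb' | hb'
      · have : ‖Mh‖ = 0 := le_antisymm (by rw [hb']; exact hMh) (norm_nonneg _)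
        rw [this] at h11 ⊢
        simpa using h11
      · refine h11.trans ?_
        rw [div_mul_eq_mul_div, le_div_iff₀ hb']
        exact mul_le_mul_of_nonneg_left h1 (sq_nonneg _)
    have h12 : 3 * ‖Mf‖ ^ 2 / (2 * a)
        ≤ 9 / 2 * (‖P Mf‖ + 2 * ‖Q (Mf + Mh)‖ + ‖Mh‖ ^ 2 / b) := by
      rw [div_le_iff₀ (by positivity)]
      nlinarith
    linarith

end Vale.Agent.P262.H941
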