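import Vale.Agent.P262.H941.Vis2

/-!
# Multiscale isoperimetry for visible fields: the theorem
-/

set_option linter.unusedSectionVars false

namespace Vale.Agent.P262.H941

open MeasureTheory ProbabilityTheory Set Filter Topology
open scoped RealInnerProductSpace BoundedContinuousFunction
open Vale.Agent.P262.H847 Vale.Agent.P262.H912

variable {E : Type*} [NormedAddCommGroup E] [InnerProductSpace ℝ E] [FiniteDimensional ℝ E]
  [MeasurableSpace E] [BorelSpace E]

lemma norm_mom_le_one2 {f : E → ℝ} (hf : UI f) (s : ℝ) (p : E) : ‖mom f s p‖ ≤ 1 :=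
  (norm_mom_le hf s p).trans (Ip_le_one _)

lemma integrable_lev {K : E → ℝ} (hK : Measurable K) {B : ℝ} (hB : ∀ x, |K x| ≤ B) (s : ℝ) :
    Integrable (fun y => K (Real.sqrt (1 - s ^ 2) • y)) (stdGaussian E) :=
  Integrable.of_bound (hK.comp (by fun_prop)).aestronglyMeasurable B
      (Eventually.of_forall fun x => by rw [Real.norm_eq_abs]; exact hB _)

/-- the profile of the local averages converges -/
lemma lev_limit {f : E → ℝ} (hf : UI f) {ε : ℝ} (hε : 0 < ε) :
    ∃ n0 : ℕ, ∀ n ≥ n0, lev (fun p => Ip (avg f ((1 / 2 : ℝ) ^ n) p)) ((1 / 2 : ℝ) ^ n)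
      ≤ ∫ x, Ip (f x) ∂(stdGaussian E) + ε := by
  set δ := (ε / 5) ^ 2 with hδ
  have hδ0 : 0 < δ := by positivity
  obtain ⟨g0, hg0, hg0i⟩ := (hf.integrable (stdGaussian E)).exists_boundedContinuous_integral_sub_le
    hδ0
  set g : E → ℝ := fun x => max 0 (min 1 (g0 x)) with hg
  have hgc : Continuous g := continuous_const.max (continuous_const.min g0.continuous)
  have hgU : UI g := ⟨hgc.measurable, fun x => le_max_left _ _,
    fun x => max_le zero_le_one (min_le_left _ _)⟩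
  have hfg : ∫ x, |f x - g x| ∂(stdGaussian E) ≤ δ := by
    refine le_trans (integral_mono ?_ ?_ ?_) hg0
    · exact ((hf.integrable _).sub (hgU.integrable _)).abs
    · exact ((hf.integrable _).sub hg0i).norm
    · intro x
      simp only [Real.norm_eq_abs, hg]
      have h0 := hf.nonneg x
      have h1 := hf.le_one x
      rcases le_total (g0 x) 1 with ha | ha
      · rw [min_eq_right ha]
        rcases le_total 0 (g0 x) with hb | hb
        · rw [max_eq_right hb]
        · rw [max_eq_left hb, abs_of_nonneg (by linarith), abs_of_nonneg (by linarith)]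
          linarith
      · rw [min_eq_left ha, max_eq_right zero_le_one, abs_of_nonpos (by linarith),
          abs_of_nonpos (by linarith)]
        linarith
  have hsq : Real.sqrt δ = ε / 5 := Real.sqrt_sq (by positivity)
  have hlim : Tendsto (fun n : ℕ => ∫ y, Ip (avg g ((1 / 2 : ℝ) ^ n)
      (Real.sqrt (1 - ((1 / 2 : ℝ) ^ n) ^ 2) • y)) ∂(stdGaussian E)) atTop
      (𝓝 (∫ y, Ip (g y) ∂(stdGaussian E))) :=
    (Ip_avg_tendsto hgU hgc).comp
      (tendsto_pow_atTop_nhds_zero_of_lt_one (by norm_num) (by norm_num))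
  obtain ⟨n0, hn0⟩ := eventually_atTop.mp (hlim.eventually_lt_const
    (show ∫ y, Ip (g y) ∂(stdGaussian E) < ∫ y, Ip (g y) ∂(stdGaussian E) + ε / 5 by
      linarith))
  refine ⟨n0, fun n hn => ?_⟩
  have hs1 : ((1 / 2 : ℝ) ^ n) ≤ 1 := pow_le_one₀ (by norm_num) (by norm_num)
  have hn1 := hn0 n hn
  have h2 := integral_Ip_sub_le (μ := stdGaussian E)
    (UI.comp (UI.avg hf ((1 / 2 : ℝ) ^ n)) (T := fun y : E =>
      Real.sqrt (1 - ((1 / 2 : ℝ) ^ n) ^ 2) • y) (by fun_prop))
    (UI.comp (UI.avg hgU ((1 / 2 : ℝ) ^ n)) (T := fun y : E =>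
      Real.sqrt (1 - ((1 / 2 : ℝ) ^ n) ^ 2) • y) (by fun_prop))
  have h3 := avg_sub_le hf hgU (s := (1 / 2 : ℝ) ^ n) (by positivity) hs1
  have h4 := integral_Ip_sub_le (μ := stdGaussian E) hgU hf
  have e5 : ∫ x, |g x - f x| ∂(stdGaussian E) = ∫ x, |f x - g x| ∂(stdGaussian E) := by
    congr 1; funext x; exact abs_sub_comm _ _
  rw [e5] at h4
  have h6 : Real.sqrt (∫ x, |f x - g x| ∂(stdGaussian E)) ≤ ε / 5 := by
    rw [← hsq]; exact Real.sqrt_le_sqrt hfg
  have h7 := Real.sqrt_le_sqrt (h3.trans hfg)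
  rw [hsq] at h7
  unfold lev
  linarith

section

variable {f h : E → ℝ}

lemma avg_add_le (hf : UI f) (hh : UI h) (hfh : ∀ x, f x + h x ≤ 1) (s : ℝ) (p : E) :
    avg f s p + avg h s p ≤ 1 := by
  unfold avg
  rw [← integral_add ((UI.comp hf (by fun_prop)).integrable _)
    ((UI.comp hh (by fun_prop)).integrable _)]
  calc ∫ g, (f (p + s • g) + h (p + s • g)) ∂(stdGaussian E)
      ≤ ∫ _g : E, (1:ℝ) ∂(stdGaussian E) :=
        integral_mono (((UI.comp hf (by fun_prop)).integrable _).add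
          ((UI.comp hh (by fun_prop)).integrable _)) (integrable_const _) (fun g => hfh _)
    _ = 1 := by simp

lemma mom_add (hf : UI f) (hh : UI h) (s : ℝ) (p : E) :
    mom (fun x => f x + h x) s p = mom f s p + mom h s p := by
  unfold mom
  rw [← integral_add (UI.integrable_smul (UI.comp hf (T := fun g => p + s • g) (by fun_prop)))
    (UI.integrable_smul (UI.comp hh (T := fun g => p + s • g) (by fun_prop)))]
  congr 1; funext g
  rw [add_smul]

/-- the dyadic scales -/
noncomputable def sc (k : ℕ) : ℝ := (1 / 2 : ℝ) ^ k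

lemma sc_pos (k : ℕ) : 0 < sc k := by unfold sc; positivity

lemma sc_le_one (k : ℕ) : sc k ≤ 1 := pow_le_one₀ (by norm_num) (by norm_num)

lemma sc_succ (k : ℕ) : sc k / 2 = sc (k + 1) := by unfold sc; rw [pow_succ]; ring

noncomputable def phk (f h : E → ℝ) (k : ℕ) (p : E) : ℝ :=
  max (Ip (avg f (sc k) p) - 2 * Ip (avg h (sc k) p)) 0

lemma phk_UI (hf : UI f) (hh : UI h) (k : ℕ) : UI (phk f h k) := by
  refine ⟨((UI.Ip (UI.avg hf _)).meas.sub ((UI.Ip (UI.avg hh _)).meas.const_mul 2)).max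
    measurable_const, fun p => le_max_right _ _, fun p => max_le ?_ zero_le_one⟩
  have := Ip_le_one (avg f (sc k) p)
  have := Ip_nonneg (avg h (sc k) p)
  linarith

/-- local telescoping -/
lemma phk_local (hf : UI f) (hh : UI h) (hfh : ∀ x, f x + h x ≤ 1) (P Q : E →L[ℝ] E)
    (hPQ : ∀ x, P x + Q x = x) (hP : ∀ x, ‖P x‖ ≤ ‖x‖) (hQ : ∀ x, ‖Q x‖ ≤ ‖x‖) (k : ℕ) (p : E) :
    phk f h k p ≤ ∫ y, (phk f h (k + 1) (p + (Real.sqrt 3 / 2 * sc k) • y)
      + 9 / 2 * (‖P (mom f (sc (k + 1)) (p + (Real.sqrt 3 / 2 * sc k) • y))‖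
        + 2 * ‖Q (mom f (sc (k + 1)) (p + (Real.sqrt 3 / 2 * sc k) • y)
            + mom h (sc (k + 1)) (p + (Real.sqrt 3 / 2 * sc k) • y))‖
        + en h (sc (k + 1)) (p + (Real.sqrt 3 / 2 * sc k) • y))) ∂(stdGaussian E) := by
  set r := Real.sqrt 3 / 2 * sc k with hr
  have hm1 := measurable_mom hf (sc (k + 1))
  have hm2 := measurable_mom hh (sc (k + 1))
  have i1 := integrable_child (phk_UI hf hh (k + 1)).meas (B := 1) (fun x => by
    rw [abs_of_nonneg ((phk_UI hf hh (k + 1)).nonneg x)]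
    exact (phk_UI hf hh (k + 1)).le_one x) p r
  have i2 : Integrable (fun y => ‖P (mom f (sc (k + 1)) (p + r • y))‖) (stdGaussian E) :=
    integrable_child (K := fun q => ‖P (mom f (sc (k + 1)) q)‖)
      (P.continuous.measurable.comp hm1).norm (B := 1) (fun x => by
        rw [abs_norm]; exact (hP _).trans (norm_mom_le_one2 hf _ _)) p r
  have i3 : Integrable (fun y => ‖Q (mom f (sc (k + 1)) (p + r • y)
      + mom h (sc (k + 1)) (p + r • y))‖) (stdGaussian E) :=
    integrable_child (K := fun q => ‖Q (mom f (sc (k + 1)) q + mom h (sc (k + 1)) q)‖)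
      (Q.continuous.measurable.comp (hm1.add hm2)).norm (B := 2) (fun x => by
        rw [abs_norm]
        refine (hQ _).trans ((norm_add_le _ _).trans ?_)
        have := norm_mom_le_one2 hf (sc (k + 1)) x
        have := norm_mom_le_one2 hh (sc (k + 1)) x
        linarith) p r
  have i4 : Integrable (fun y => en h (sc (k + 1)) (p + r • y)) (stdGaussian E) :=
    integrable_child (UI.en hh _).meas (B := 1) (fun x => by
      rw [abs_of_nonneg ((UI.en hh _).nonneg x)]; exact (UI.en hh _).le_one x) p r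
  have i5 : Integrable (fun y => Ip (avg h (sc (k + 1)) (p + r • y))) (stdGaussian E) :=
    integrable_child (UI.Ip (UI.avg hh _)).meas (B := 1) (fun x => by
      rw [abs_of_nonneg (Ip_nonneg _)]; exact Ip_le_one _) p r
  have iR : Integrable (fun y => phk f h (k + 1) (p + r • y)
      + 9 / 2 * (‖P (mom f (sc (k + 1)) (p + r • y))‖
        + 2 * ‖Q (mom f (sc (k + 1)) (p + r • y) + mom h (sc (k + 1)) (p + r • y))‖
        + en h (sc (k + 1)) (p + r • y))) (stdGaussian E) :=
    i1.add (((i2.add (i3.const_mul 2)).add i4).const_mul _)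
  have h0 : 0 ≤ ∫ y, (phk f h (k + 1) (p + r • y)
      + 9 / 2 * (‖P (mom f (sc (k + 1)) (p + r • y))‖
        + 2 * ‖Q (mom f (sc (k + 1)) (p + r • y) + mom h (sc (k + 1)) (p + r • y))‖
        + en h (sc (k + 1)) (p + r • y))) ∂(stdGaussian E) := by
    apply integral_nonneg
    intro y
    have := (phk_UI hf hh (k + 1)).nonneg (p + r • y)
    have := en_nonneg h (sc (k + 1)) (p + r • y)
    show (0:ℝ) ≤ phk f h (k + 1) (p + r • y)
      + 9 / 2 * (‖P (mom f (sc (k + 1)) (p + r • y))‖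
        + 2 * ‖Q (mom f (sc (k + 1)) (p + r • y) + mom h (sc (k + 1)) (p + r • y))‖
        + en h (sc (k + 1)) (p + r • y))
    positivity
  unfold phk
  apply max_le _ h0
  have h1 := step_b hf (sc_pos k) p
  rw [sc_succ, ← hr] at h1
  have h2 : ∫ y, Real.sqrt (3 * ‖mom f (sc (k + 1)) (p + r • y)‖ ^ 2
      + Ip (avg f (sc (k + 1)) (p + r • y)) ^ 2) ∂(stdGaussian E)
      ≤ ∫ y, ((phk f h (k + 1) (p + r • y)
      + 9 / 2 * (‖P (mom f (sc (k + 1)) (p + r • y))‖
        + 2 * ‖Q (mom f (sc (k + 1)) (p + r • y) + mom h (sc (k + 1)) (p + r • y))‖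
        + en h (sc (k + 1)) (p + r • y))) + 2 * Ip (avg h (sc (k + 1)) (p + r • y)))
        ∂(stdGaussian E) := by
    apply integral_mono_of_nonneg (Eventually.of_forall fun y => Real.sqrt_nonneg _)
      (iR.add (i5.const_mul 2))
    refine Eventually.of_forall fun y => ?_
    have := child_ineq ((UI.avg hf (sc (k + 1))).nonneg (p + r • y))
      ((UI.avg hh (sc (k + 1))).nonneg (p + r • y)) (avg_add_le hf hh hfh _ _)
      (norm_mom_le hf (sc (k + 1)) (p + r • y)) (norm_mom_le hh (sc (k + 1)) (p + r • y))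
      P Q hPQ hP hQ
    show Real.sqrt (3 * ‖mom f (sc (k + 1)) (p + r • y)‖ ^ 2
      + Ip (avg f (sc (k + 1)) (p + r • y)) ^ 2) ≤ (phk f h (k + 1) (p + r • y)
      + 9 / 2 * (‖P (mom f (sc (k + 1)) (p + r • y))‖
        + 2 * ‖Q (mom f (sc (k + 1)) (p + r • y) + mom h (sc (k + 1)) (p + r • y))‖
        + en h (sc (k + 1)) (p + r • y))) + 2 * Ip (avg h (sc (k + 1)) (p + r • y))
    unfold phk en
    linarith
  rw [integral_add iR (i5.const_mul 2), integral_const_mul] at h2
  have h3 := lower_en hh (sc_pos k) p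
  rw [sc_succ, ← hr] at h3
  have h4 := en_nonneg h (sc k) p
  linarith

lemma lev_en_step (hh : UI h) (k : ℕ) :
    lev (fun p => Ip (avg h (sc (k + 1)) p)) (sc (k + 1)) + 3 / 8 * lev (en h (sc k)) (sc k)
      ≤ lev (fun p => Ip (avg h (sc k) p)) (sc k) := by
  have hI : ∀ s : ℝ, UI (fun p => Ip (avg h s p)) := fun s => UI.Ip (UI.avg hh s)
  have hb1 : ∀ x, |(fun p => Ip (avg h (sc k) p)) x| ≤ 1 := fun x => by
    rw [abs_of_nonneg ((hI _).nonneg x)]; exact (hI _).le_one x
  have hb2 : ∀ x, |en h (sc k) x| ≤ 1 := fun x => by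
    rw [abs_of_nonneg ((UI.en hh _).nonneg x)]; exact (UI.en hh _).le_one x
  have h3 : lev (fun p => Ip (avg h (sc (k + 1)) p)) (sc (k + 1))
      = ∫ x, ∫ y, Ip (avg h (sc (k + 1)) (Real.sqrt (1 - (sc k) ^ 2) • x
        + (Real.sqrt 3 / 2 * sc k) • y)) ∂(stdGaussian E) ∂(stdGaussian E) := by
    rw [← sc_succ k]
    exact (lev_child (K := fun p => Ip (avg h (sc k / 2) p)) (hI _).meas (B := 1) (fun x => by
      rw [abs_of_nonneg ((hI _).nonneg x)]; exact (hI _).le_one x) (sc_pos k) (sc_le_one k)).symm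
  rw [h3]
  have hi1 : Integrable (fun x : E => ∫ y, Ip (avg h (sc (k + 1)) (Real.sqrt (1 - (sc k) ^ 2) • x
        + (Real.sqrt 3 / 2 * sc k) • y)) ∂(stdGaussian E)) (stdGaussian E) := by
    apply Integrable.integral_prod_left (f := fun p : E × E =>
      Ip (avg h (sc (k + 1)) (Real.sqrt (1 - (sc k) ^ 2) • p.1
        + (Real.sqrt 3 / 2 * sc k) • p.2)))
    exact Integrable.of_bound ((hI _).meas.comp (by fun_prop)).aestronglyMeasurable 1
      (Eventually.of_forall fun x => by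
        rw [Real.norm_eq_abs, abs_of_nonneg (Ip_nonneg _)]; exact Ip_le_one _)
  have hi2 := (integrable_lev (UI.en hh (sc k)).meas hb2 (sc k)).const_mul (3 / 8 : ℝ)
  unfold lev
  rw [← integral_const_mul, ← integral_add hi1 hi2]
  apply integral_mono (hi1.add hi2) (integrable_lev (hI (sc k)).meas hb1 (sc k))
  intro x
  have h2 := lower_en hh (sc_pos k) (Real.sqrt (1 - (sc k) ^ 2) • x)
  rw [sc_succ] at h2
  exact h2

lemma lev_zero_scale (K : E → ℝ) : lev K (sc 0) = K 0 := by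
  simp [lev, sc]

lemma avg_zero (f : E → ℝ) : avg f (sc 0) (0:E) = ∫ x, f x ∂(stdGaussian E) := by
  simp [avg, sc]

lemma lev_en_sum (hh : UI h) (n : ℕ) :
    3 / 8 * ∑ k ∈ Finset.range n, lev (en h (sc (k + 1))) (sc (k + 1))
      ≤ Ip (∫ x, h x ∂(stdGaussian E)) := by
  have h1 : ∀ n : ℕ, 3 / 8 * ∑ k ∈ Finset.range n, lev (en h (sc (k + 1))) (sc (k + 1))
      + lev (fun p => Ip (avg h (sc (n + 1)) p)) (sc (n + 1))
      ≤ lev (fun p => Ip (avg h (sc 1) p)) (sc 1) := by
    intro n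
    induction n with
    | zero => simp
    | succ n ih =>
      have h2 := lev_en_step hh (n + 1)
      rw [Finset.sum_range_succ, mul_add]
      linarith
  have h2 := h1 n
  have h3 : 0 ≤ lev (fun p => Ip (avg h (sc (n + 1)) p)) (sc (n + 1)) :=
    integral_nonneg fun _ => Ip_nonneg _
  have h4 := lev_en_step hh 0
  have h5 : 0 ≤ lev (en h (sc 0)) (sc 0) := integral_nonneg fun _ => en_nonneg _ _ _
  have h6 : lev (fun p => Ip (avg h (sc 0) p)) (sc 0) = Ip (∫ x, h x ∂(stdGaussian E)) := by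
    rw [lev_zero_scale, avg_zero]
  rw [h6] at h4
  linarith

/-- **Multiscale isoperimetry for visible fields**, finitely many scales. -/
theorem vis_sum (hf : UI f) (hh : UI h) (hfh : ∀ x, f x + h x ≤ 1) (P Q : ℕ → E →L[ℝ] E)
    (hPQ : ∀ k x, P k x + Q k x = x) (hP : ∀ k x, ‖P k x‖ ≤ ‖x‖) (hQ : ∀ k x, ‖Q k x‖ ≤ ‖x‖)
    (n : ℕ) :
    Ip (∫ x, f x ∂(stdGaussian E))
      ≤ lev (fun p => Ip (avg f (sc n) p)) (sc n) + 14 * Ip (∫ x, h x ∂(stdGaussian E))
        + 9 / 2 * ∑ k ∈ Finset.range n,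
          (lev (fun p => ‖P (k + 1) (mom f (sc (k + 1)) p)‖) (sc (k + 1))
            + 2 * lev (fun p => ‖Q (k + 1) (mom (fun x => f x + h x) (sc (k + 1)) p)‖)
              (sc (k + 1))) := by
  have hstep : ∀ k, lev (phk f h k) (sc k) ≤ lev (phk f h (k + 1)) (sc (k + 1))
      + 9 / 2 * (lev (fun p => ‖P (k + 1) (mom f (sc (k + 1)) p)‖) (sc (k + 1))
            + 2 * lev (fun p => ‖Q (k + 1) (mom (fun x => f x + h x) (sc (k + 1)) p)‖)
              (sc (k + 1)) + lev (en h (sc (k + 1))) (sc (k + 1))) := by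
    intro k
    have hm1 := measurable_mom hf (sc (k + 1))
    have hm2 := measurable_mom hh (sc (k + 1))
    have m1 := (phk_UI hf hh (k + 1)).meas
    have b1 : ∀ x, |phk f h (k + 1) x| ≤ 1 := fun x => by
      rw [abs_of_nonneg ((phk_UI hf hh (k + 1)).nonneg x)]
      exact (phk_UI hf hh (k + 1)).le_one x
    have m2 : Measurable (fun q => ‖P (k + 1) (mom f (sc (k + 1)) q)‖) :=
      ((P (k + 1)).continuous.measurable.comp hm1).norm
    have b2 : ∀ x, |‖P (k + 1) (mom f (sc (k + 1)) x)‖| ≤ 1 := fun x => by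
      rw [abs_norm]; exact (hP _ _).trans (norm_mom_le_one2 hf _ _)
    have m3 : Measurable (fun q => ‖Q (k + 1) (mom f (sc (k + 1)) q + mom h (sc (k + 1)) q)‖) :=
      ((Q (k + 1)).continuous.measurable.comp (hm1.add hm2)).norm
    have b3 : ∀ x, |‖Q (k + 1) (mom f (sc (k + 1)) x + mom h (sc (k + 1)) x)‖| ≤ 2 := fun x => by
      rw [abs_norm]
      refine (hQ _ _).trans ((norm_add_le _ _).trans ?_)
      have := norm_mom_le_one2 hf (sc (k + 1)) x
      have := norm_mom_le_one2 hh (sc (k + 1)) x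
      linarith
    have m4 := (UI.en hh (sc (k + 1))).meas
    have b4 : ∀ x, |en h (sc (k + 1)) x| ≤ 1 := fun x => by
      rw [abs_of_nonneg ((UI.en hh _).nonneg x)]; exact (UI.en hh _).le_one x
    set K2 : E → ℝ := fun q => phk f h (k + 1) q
      + 9 / 2 * (‖P (k + 1) (mom f (sc (k + 1)) q)‖
        + 2 * ‖Q (k + 1) (mom f (sc (k + 1)) q + mom h (sc (k + 1)) q)‖
        + en h (sc (k + 1)) q) with hK2
    have mK2 : Measurable K2 := m1.add (((m2.add (m3.const_mul 2)).add m4).const_mul _)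
    have bK2 : ∀ x, |K2 x| ≤ 28 := by
      intro x
      have a1 := abs_le.mp (b1 x)
      have a2 := abs_le.mp (b2 x)
      have a3 := abs_le.mp (b3 x)
      have a4 := abs_le.mp (b4 x)
      have p1 := (phk_UI hf hh (k + 1)).nonneg x
      have p2 := norm_nonneg (P (k + 1) (mom f (sc (k + 1)) x))
      have p3 := norm_nonneg (Q (k + 1) (mom f (sc (k + 1)) x + mom h (sc (k + 1)) x))
      have p4 := (UI.en hh (sc (k + 1))).nonneg x
      rw [hK2, abs_le]
      constructor <;> simp only [] <;> linarith [a1.2, a2.2, a3.2, a4.2]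
    have h1 := lev_le (phk_UI hf hh k).meas mK2 (B1 := 1) (B2 := 28) (fun x => by
      rw [abs_of_nonneg ((phk_UI hf hh k).nonneg x)]
      exact (phk_UI hf hh k).le_one x) bK2 (sc_pos k) (sc_le_one k)
      (fun p => phk_local hf hh hfh (P (k + 1)) (Q (k + 1)) (hPQ (k + 1)) (hP (k + 1))
        (hQ (k + 1)) k p)
    rw [sc_succ] at h1
    refine h1.trans (le_of_eq ?_)
    have i1 := integrable_lev m1 b1 (sc (k + 1))
    have i2 := integrable_lev m2 b2 (sc (k + 1))
    have i3 := integrable_lev m3 b3 (sc (k + 1))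
    have i4 := integrable_lev m4 b4 (sc (k + 1))
    have e3 : lev (fun p => ‖Q (k + 1) (mom (fun x => f x + h x) (sc (k + 1)) p)‖) (sc (k + 1))
        = lev (fun q => ‖Q (k + 1) (mom f (sc (k + 1)) q + mom h (sc (k + 1)) q)‖)
          (sc (k + 1)) := by
      unfold lev
      congr 1; funext y
      show ‖Q (k + 1) (mom (fun x => f x + h x) (sc (k + 1)) (Real.sqrt (1 - (sc (k + 1)) ^ 2) • y))‖ = _
      rw [mom_add hf hh]
    rw [e3]
    unfold lev
    have i23 : Integrable (fun y => ‖P (k + 1) (mom f (sc (k + 1)) (Real.sqrt (1 - (sc (k + 1)) ^ 2) • y))‖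
        + 2 * ‖Q (k + 1) (mom f (sc (k + 1)) (Real.sqrt (1 - (sc (k + 1)) ^ 2) • y)
          + mom h (sc (k + 1)) (Real.sqrt (1 - (sc (k + 1)) ^ 2) • y))‖) (stdGaussian E) :=
      i2.add (i3.const_mul 2)
    have i234 : Integrable (fun y => ‖P (k + 1) (mom f (sc (k + 1)) (Real.sqrt (1 - (sc (k + 1)) ^ 2) • y))‖
        + 2 * ‖Q (k + 1) (mom f (sc (k + 1)) (Real.sqrt (1 - (sc (k + 1)) ^ 2) • y)
          + mom h (sc (k + 1)) (Real.sqrt (1 - (sc (k + 1)) ^ 2) • y))‖
        + en h (sc (k + 1)) (Real.sqrt (1 - (sc (k + 1)) ^ 2) • y)) (stdGaussian E) :=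
      i23.add i4
    rw [hK2]
    simp only []
    rw [integral_add i1 (i234.const_mul _), integral_const_mul, integral_add i23 i4,
      integral_add i2 (i3.const_mul 2), integral_const_mul]
  have hsum : ∀ n : ℕ, lev (phk f h 0) (sc 0) ≤ lev (phk f h n) (sc n)
      + 9 / 2 * ∑ k ∈ Finset.range n,
          (lev (fun p => ‖P (k + 1) (mom f (sc (k + 1)) p)‖) (sc (k + 1))
            + 2 * lev (fun p => ‖Q (k + 1) (mom (fun x => f x + h x) (sc (k + 1)) p)‖)
              (sc (k + 1)))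
      + 9 / 2 * ∑ k ∈ Finset.range n, lev (en h (sc (k + 1))) (sc (k + 1)) := by
    intro n
    induction n with
    | zero => simp
    | succ n ih =>
      have h1 := hstep n
      rw [Finset.sum_range_succ, Finset.sum_range_succ]
      linarith
  have h1 := hsum n
  have h2 := lev_en_sum hh n
  have h3 : Ip (∫ x, f x ∂(stdGaussian E)) - 2 * Ip (∫ x, h x ∂(stdGaussian E))
      ≤ lev (phk f h 0) (sc 0) := by
    rw [lev_zero_scale]
    unfold phk
    rw [avg_zero, avg_zero]
    exact le_max_left _ _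
  have h4 : lev (phk f h n) (sc n) ≤ lev (fun p => Ip (avg f (sc n) p)) (sc n) := by
    unfold lev
    apply integral_mono (integrable_lev (phk_UI hf hh n).meas (B := 1) (fun x => by
      rw [abs_of_nonneg ((phk_UI hf hh n).nonneg x)]
      exact (phk_UI hf hh n).le_one x) (sc n))
      (integrable_lev (K := fun p => Ip (avg f (sc n) p)) (UI.Ip (UI.avg hf _)).meas (B := 1)
        (fun x => by rw [abs_of_nonneg (Ip_nonneg _)]; exact Ip_le_one _) (sc n))
    intro y
    unfold phk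
    apply max_le _ (Ip_nonneg _)
    have := Ip_nonneg (avg h (sc n) (Real.sqrt (1 - sc n ^ 2) • y))
    linarith
  linarith

/-- **Multiscale isoperimetry for visible fields.** `f` is the visible part and `h` the hidden
part of a field; `P k + Q k = id`. -/
theorem vis_multiscale (hf : UI f) (hh : UI h) (hfh : ∀ x, f x + h x ≤ 1) (P Q : ℕ → E →L[ℝ] E)
    (hPQ : ∀ k x, P k x + Q k x = x) (hP : ∀ k x, ‖P k x‖ ≤ ‖x‖) (hQ : ∀ k x, ‖Q k x‖ ≤ ‖x‖)
    {S : ℝ} (hS : ∀ n, ∑ k ∈ Finset.range n,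
          (lev (fun p => ‖P (k + 1) (mom f (sc (k + 1)) p)‖) (sc (k + 1))
            + 2 * lev (fun p => ‖Q (k + 1) (mom (fun x => f x + h x) (sc (k + 1)) p)‖)
              (sc (k + 1))) ≤ S) :
    Ip (∫ x, f x ∂(stdGaussian E))
      ≤ ∫ x, Ip (f x) ∂(stdGaussian E) + 14 * Ip (∫ x, h x ∂(stdGaussian E)) + 9 / 2 * S := by
  apply le_of_forall_pos_le_add
  intro ε hε
  obtain ⟨n0, hn0⟩ := lev_limit hf hε
  have h1 := vis_sum hf hh hfh P Q hPQ hP hQ n0
  have h2 := hn0 n0 le_rfl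
  have h3 := hS n0
  unfold sc at h1 h3
  linarith

end

end Vale.Agent.P262.H941
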